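import Vale.Agent.P160R.Defs

/-!
# Elementary facts about the uniform signs
-/

namespace Vale.Agent.P160R

open Finset Matrix
open scoped Classical

variable {ι : Type} [Fintype ι] [DecidableEq ι]

theorem Pr_nonneg (P : (Sym2 ι → Bool) → Prop) : 0 ≤ Pr P := by unfold Pr; positivity

theorem Pr_eq (P : (Sym2 ι → Bool) → Prop) :
    Pr P = ((univ.filter P).card : ℝ) / (2 : ℝ) ^ Fintype.card (Sym2 ι) := by
  rw [Pr, Nat.card_eq_fintype_card, Fintype.card_subtype]

theorem Pr_mono {P R : (Sym2 ι → Bool) → Prop} (h : ∀ ω, P ω → R ω) : Pr P ≤ Pr R := by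
  rw [Pr_eq, Pr_eq]
  gcongr 2
  refine Nat.cast_le.2 (card_le_card fun ω hω => ?_)
  simp only [mem_filter, mem_univ, true_and] at hω ⊢
  exact h ω hω

theorem Pr_or (P R : (Sym2 ι → Bool) → Prop) : Pr (fun ω => P ω ∨ R ω) ≤ Pr P + Pr R := by
  rw [Pr_eq, Pr_eq, Pr_eq, ← add_div]
  gcongr
  refine le_trans (Nat.cast_le.2 (card_le_card (t := univ.filter P ∪ univ.filter R)
    fun ω hω => ?_)) (by exact_mod_cast card_union_le _ _)
  simp only [mem_filter, mem_univ, true_and, mem_union] at hω ⊢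
  exact hω

theorem Pr_le_one (P : (Sym2 ι → Bool) → Prop) : Pr P ≤ 1 := by
  rw [Pr_eq, div_le_one (by positivity)]
  calc ((univ.filter P).card : ℝ) ≤ (univ : Finset (Sym2 ι → Bool)).card := by
        exact_mod_cast card_le_univ _
    _ = _ := by simp

theorem Pr_exists {β : Type*} (s : Finset β) (P : β → (Sym2 ι → Bool) → Prop) :
    Pr (fun ω => ∃ b ∈ s, P b ω) ≤ ∑ b ∈ s, Pr (P b) := by
  simp only [Pr_eq, ← Finset.sum_div]
  gcongr
  rw [← Nat.cast_sum]
  refine Nat.cast_le.2 (le_trans (card_le_card (t := s.biUnion fun b => univ.filter (P b))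
    fun ω hω => ?_) card_biUnion_le)
  simp only [mem_filter, mem_univ, true_and, mem_biUnion] at hω ⊢
  exact hω

theorem Ex_const (c : ℝ) : Ex (fun _ : Sym2 ι → Bool => c) = c := by
  simp [Ex, Fintype.card_fun]

theorem Ex_mono {f g : (Sym2 ι → Bool) → ℝ} (h : ∀ ω, f ω ≤ g ω) : Ex f ≤ Ex g := by
  unfold Ex
  gcongr with ω
  exact h ω

theorem Pr_eq_Ex (P : (Sym2 ι → Bool) → Prop) : Pr P = Ex fun ω => if P ω then 1 else 0 := by
  rw [Pr_eq, Ex, Finset.sum_boole]

theorem isSign_symM (ω : Sym2 ι → Bool) : IsSign (symM ℤ ω) := by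
  refine ⟨Matrix.ext fun i j => ?_, fun i j => ?_⟩
  · simp [symM, Sym2.eq_swap]
  · simp only [symM, Matrix.of_apply]
    split <;> simp

theorem symM_restrict {κ : Type} [Fintype κ] [DecidableEq κ] (R : Type) [Ring R] (e : κ → ι)
    (ω : Sym2 ι → Bool) : symM R (restrictSigns e ω) = (symM R ω).submatrix e e := by
  ext i j
  simp only [symM, restrictSigns, Matrix.of_apply, Matrix.submatrix_apply, Sym2.map_mk]
  split_ifs <;> simp_all

/-- The same for expectations. -/
theorem Ex_restrict {κ : Type} [Fintype κ] [DecidableEq κ] (e : κ ↪ ι)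
    (f : (Sym2 κ → Bool) → ℝ) :
    Ex (fun ω : Sym2 ι → Bool => f (restrictSigns e ω)) = Ex f := by
  have hinj : Function.Injective (Sym2.map e : Sym2 κ → Sym2 ι) := Sym2.map.injective e.injective
  let P : Sym2 ι → Prop := fun q => q ∈ Set.range (Sym2.map e : Sym2 κ → Sym2 ι)
  let E : (Sym2 ι → Bool) ≃ (Sym2 κ → Bool) × ({q // ¬ P q} → Bool) :=
    (Equiv.piEquivPiSubtypeProd P fun _ => Bool).trans
      ((Equiv.arrowCongr (Equiv.ofInjective _ hinj).symm (Equiv.refl Bool)).prodCongr (Equiv.refl _))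
  have hE : ∀ ω, (E ω).1 = restrictSigns e ω := fun ω => rfl
  have hcard := Fintype.card_congr E
  simp only [Fintype.card_prod, Fintype.card_fun, Fintype.card_bool] at hcard
  have hsum : ∑ ω, f (restrictSigns e ω) =
      (2 : ℝ) ^ Fintype.card {q // ¬ P q} * ∑ ω', f ω' := by
    rw [Finset.sum_congr rfl fun ω _ => by rw [← hE ω], E.sum_comp fun q => f q.1,
      Fintype.sum_prod_type, Finset.mul_sum]
    simp [Fintype.card_fun]
  have h2 : (2 : ℝ) ^ Fintype.card (Sym2 ι) =
      (2 : ℝ) ^ Fintype.card (Sym2 κ) * (2 : ℝ) ^ Fintype.card {q // ¬ P q} := by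
    exact_mod_cast hcard
  rw [Ex, Ex, hsum, h2]
  field_simp

/-- A principal submatrix of a uniform sign matrix is uniform. -/
theorem Pr_restrict {κ : Type} [Fintype κ] [DecidableEq κ] (e : κ ↪ ι)
    (P : (Sym2 κ → Bool) → Prop) :
    Pr (fun ω : Sym2 ι → Bool => P (restrictSigns e ω)) = Pr P := by
  rw [Pr_eq_Ex, Pr_eq_Ex]
  exact Ex_restrict e fun ω' => if P ω' then 1 else 0

/-- The signs split into those avoiding a vertex and those at it. -/
theorem Ex_split (j : ι) (g : (Sym2 {i // i ≠ j} → Bool) → ({i // i ≠ j} → Bool) → Bool → ℝ) :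
    Ex (fun ω : Sym2 ι → Bool =>
        g (restrictSigns Subtype.val ω) (fun i => ω s(i.1, j)) (ω s(j, j))) =
      Ex fun ω' => (∑ x : {i // i ≠ j} → Bool, (g ω' x true + g ω' x false)) /
        (2 : ℝ) ^ Fintype.card ι := by
  let Φ : (Sym2 ι → Bool) → (Sym2 {i // i ≠ j} → Bool) × (({i // i ≠ j} → Bool) × Bool) :=
    fun ω => (restrictSigns Subtype.val ω, fun i => ω s(i.1, j), ω s(j, j))
  have hj : Fintype.card {i // i ≠ j} + 1 = Fintype.card ι := by
    rw [Fintype.card_subtype_compl, Fintype.card_subtype_eq]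
    exact Nat.sub_add_cancel (Fintype.card_pos_iff.2 ⟨j⟩)
  have hS : Fintype.card (Sym2 ι) =
      Fintype.card (Sym2 {i // i ≠ j}) + Fintype.card ι := by
    rw [Sym2.card, Sym2.card, hj, Nat.choose_succ_succ', Nat.choose_one_right, add_comm]
  have hinj : Function.Injective Φ := by
    intro ω ω' h
    simp only [Φ, Prod.mk.injEq] at h
    obtain ⟨h1, h2, h3⟩ := h
    funext q
    induction q using Sym2.ind with
    | h a b =>
      by_cases ha : a = j <;> by_cases hb : b = j
      · rw [ha, hb]; exact h3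
      · rw [ha, Sym2.eq_swap]; exact congrFun h2 ⟨b, hb⟩
      · rw [hb]; exact congrFun h2 ⟨a, ha⟩
      · have := congrFun h1 s(⟨a, ha⟩, ⟨b, hb⟩)
        simpa [restrictSigns, Sym2.map_mk] using this
  have hbij : Function.Bijective Φ := by
    rw [Fintype.bijective_iff_injective_and_card]
    refine ⟨hinj, ?_⟩
    simp only [Fintype.card_prod, Fintype.card_fun, Fintype.card_bool, hS, pow_add, ← pow_succ, hj]
  have hsum := Function.Bijective.sum_comp hbij fun q => g q.1 q.2.1 q.2.2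
  simp only [Φ] at hsum
  rw [Ex, Ex, hsum, hS, pow_add]
  simp only [Fintype.sum_prod_type, Fintype.sum_bool, ← Finset.sum_div]
  rw [div_div, mul_comm]

/-- Hadamard's bound for sign matrices. -/
theorem det_sq_le {B : Matrix ι ι ℤ} (h : IsSign B) :
    (B.det : ℝ) ^ 2 ≤ (Fintype.card ι : ℝ) ^ Fintype.card ι := by
  rcases isEmpty_or_nonempty ι with hι | hι
  · simp
  set M : Matrix ι ι ℝ := B.map (Int.cast : ℤ → ℝ) with hM
  have hdet : M.det = (B.det : ℝ) := (RingHom.map_det (Int.castRingHom ℝ) B).symm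
  have hP := Matrix.posSemidef_self_mul_conjTranspose M
  set n := Fintype.card ι
  have hn : (0 : ℝ) < n := Nat.cast_pos.2 Fintype.card_pos
  have htr : ∑ i, hP.1.eigenvalues i = (n : ℝ) * n := by
    have e := hP.1.trace_eq_sum_eigenvalues
    simp only [RCLike.ofReal_real_eq_id, id] at e
    rw [← e]
    simp only [Matrix.trace, Matrix.diag, Matrix.mul_apply, Matrix.conjTranspose_apply, star_trivial,
      hM, Matrix.map_apply]
    have he : ∀ a b, (B a b : ℝ) * B a b = 1 := fun a b => by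
      rcases h.2 a b with e | e <;> simp [e]
    simp [he, n]
  have hprod : (B.det : ℝ) ^ 2 = ∏ i, hP.1.eigenvalues i := by
    have e := hP.1.det_eq_prod_eigenvalues
    simp only [RCLike.ofReal_real_eq_id, id, Matrix.det_mul, Matrix.det_conjTranspose, star_trivial,
      hdet] at e
    rw [sq]; exact e
  rw [hprod]
  have hg := Real.geom_mean_le_arith_mean_weighted univ (fun _ : ι => (n : ℝ)⁻¹)
    (fun i => hP.1.eigenvalues i) (fun _ _ => by positivity)
    (by rw [sum_const, card_univ, nsmul_eq_mul, mul_inv_cancel₀ hn.ne'])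
    fun i _ => hP.eigenvalues_nonneg i
  have hp : 0 ≤ ∏ i, hP.1.eigenvalues i := prod_nonneg fun i _ => hP.eigenvalues_nonneg i
  rw [← Finset.mul_sum, htr, inv_mul_cancel_left₀ hn.ne',
    Real.finsetProd_rpow _ _ fun i _ => hP.eigenvalues_nonneg i] at hg
  calc ∏ i, hP.1.eigenvalues i = ((∏ i, hP.1.eigenvalues i) ^ (n : ℝ)⁻¹) ^ n :=
        (Real.rpow_inv_natCast_pow hp Fintype.card_ne_zero).symm
    _ ≤ (n : ℝ) ^ n := pow_le_pow_left₀ (Real.rpow_nonneg hp _) hg n

end Vale.Agent.P160R
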