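import Vale.Agent.P160R.Cover
import Vale.Agent.P160R.Basic
import Vale.Agent.P160R.Atom.Linear

/-!
# A deterministic bound for linear forms modulo a product of primes
-/

namespace Vale.Agent.P160R

open Finset Matrix

variable {ι : Type} [Fintype ι] [DecidableEq ι]

/-- The lattice of integer vectors orthogonal to every `w p` modulo `p`. -/
def annLattice (S : Finset ℕ) (w : ℕ → ι → ℤ) : Submodule ℤ (ι → ℤ) where
  carrier := {z | ∀ p ∈ S, (p : ℤ) ∣ z ⬝ᵥ w p}
  add_mem' {a b} ha hb p hp := by rw [add_dotProduct]; exact dvd_add (ha p hp) (hb p hp)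
  zero_mem' p _ := by simp
  smul_mem' c a ha p hp := by
    rw [smul_dotProduct, smul_eq_mul]; exact dvd_mul_of_dvd_right (ha p hp) c

omit [DecidableEq ι] in
/-- A basis of the lattice as the columns of a matrix. -/
lemma exists_annBasis (S : Finset ℕ) (w : ℕ → ι → ℤ) :
    ∃ (d : ℕ) (A : Matrix ι (Fin d) ℤ), d ≤ Fintype.card ι ∧
      Function.Injective (toQ A).mulVec ∧
      (∀ a p, p ∈ S → (p : ℤ) ∣ A.mulVec a ⬝ᵥ w p) ∧
      ∀ z : ι → ℤ, (∀ p ∈ S, (p : ℤ) ∣ z ⬝ᵥ w p) → ∃ a, A.mulVec a = z := by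
  classical
  set Γ := annLattice S w with hΓ
  set bas := Module.finBasis ℤ Γ
  set A : Matrix ι (Fin (Module.finrank ℤ Γ)) ℤ := Matrix.of fun i c => (bas c).1 i with hA
  have hsum : ∀ a : Fin _ → ℤ, A.mulVec a = ((∑ c, a c • bas c : Γ) : ι → ℤ) := by
    intro a
    funext i
    simp only [mulVec, dotProduct, hA, Matrix.of_apply, Submodule.coe_sum, SetLike.val_smul,
      Finset.sum_apply, Pi.smul_apply, smul_eq_mul]
    exact Finset.sum_congr rfl fun c _ => mul_comm _ _
  have hinj : Function.Injective (toQ A).mulVec := by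
    rw [mulVec_injective_iff]
    refine (LinearIndependent.iff_fractionRing ℤ ℚ).1 ?_
    let castL : (ι → ℤ) →ₗ[ℤ] (ι → ℚ) :=
      { toFun := fun v i => (v i : ℚ)
        map_add' := fun a b => by funext i; simp
        map_smul' := fun a b => by funext i; simp }
    have h := bas.linearIndependent.map' (castL.comp Γ.subtype) (LinearMap.ker_eq_bot.2 (by
      intro a b hab
      refine Subtype.ext (funext fun i => ?_)
      have := congrFun hab i
      simpa [castL] using this))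
    exact h
  refine ⟨_, A, ?_, hinj, fun a p hp => ?_, fun z hz => ?_⟩
  · have := (mulVec_injective_iff.1 hinj).fintype_card_le_finrank
    simpa using this
  · rw [hsum]
    exact (∑ c, a c • bas c : Γ).2 p hp
  · refine ⟨fun c => bas.repr ⟨z, hz⟩ c, ?_⟩
    rw [hsum, bas.sum_repr]

/-- A sublattice of small covolume inside the annihilator of many primes has small rank. -/
lemma rank_le (ε η D : ℝ) (hD : 1 ≤ D) (B : Matrix ι ι ℤ) (hB : IsSign B) (hdet : B.det ≠ 0)
    (S : Finset ℕ) (w : ℕ → ι → ℤ)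
    (hS : ∀ p ∈ S, p.Prime ∧ (Fintype.card ι : ℝ) ^ (1 - ε) < p ∧ (∃ i, ¬ (p : ℤ) ∣ w p i) ∧
      ∀ i, (p : ℤ) ∣ B.mulVec (w p) i)
    (hm : 2 ≤ Fintype.card ι)
    (hbig : Real.log 2 + 2 * (Fintype.card ι : ℝ) * Real.log D ≤
      η * Fintype.card ι * Real.log (Fintype.card ι))
    {r : ℕ} (U : Matrix ι (Fin r) ℤ) (hU : Function.Injective (toQ U).mulVec)
    (hUS : ∀ c p, p ∈ S → (p : ℤ) ∣ (fun i => U i c) ⬝ᵥ w p)
    (hdetU : ((toR U)ᵀ * toR U).det ≤ 2 * (D ^ 2) ^ r) :
    (r : ℝ) ≤ Fintype.card ι - 2 * (1 - ε) * S.card + η * Fintype.card ι := by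
  classical
  obtain ⟨j, s, hrj, hinj⟩ := exists_completion U B hdet hU
  set m := Fintype.card ι with hmdef
  set T := fromCols U (B.submatrix id s) with hT
  have e : ι ≃ Fin r ⊕ Fin j := Fintype.equivOfCardEq (by simp [hrj, hmdef])
  set T' := T.submatrix id e with hT'
  have hT0 : T'.det ≠ 0 := by
    intro h0
    have h1 : ((toR T)ᵀ * toR T).det = 0 := by
      have e1 : ((toR T)ᵀ * toR T).submatrix e e = (toR T')ᵀ * toR T' := by
        ext a b; simp [Matrix.mul_apply, toR, hT']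
      rw [← det_submatrix_equiv_self e, e1, det_mul, det_transpose,
        show (toR T').det = ((T'.det : ℤ) : ℝ) from ((Int.castRingHom ℝ).map_det T').symm, h0]
      simp
    obtain ⟨x, hx, hx0⟩ := Matrix.exists_mulVec_eq_zero_iff.2 h1
    refine hx (toR_mulVec_injective T hinj ?_)
    rw [mulVec_zero]
    refine dotProduct_self_eq_zero.1 ?_
    have h2 := congrArg (fun y => x ⬝ᵥ y) hx0
    rwa [← mulVec_mulVec, dotProduct_mulVec, vecMul_transpose, dotProduct_zero] at h2
  have hdvd : ∀ p ∈ S, p ∣ T'.det.natAbs := by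
    intro p hp
    obtain ⟨hpp, -, ⟨i₀, hi₀⟩, hker⟩ := hS p hp
    have : Fact p.Prime := ⟨hpp⟩
    rw [← Int.natCast_dvd, ← ZMod.intCast_zmod_eq_zero_iff_dvd]
    rw [show ((T'.det : ℤ) : ZMod p) = (T'.map (Int.castRingHom (ZMod p))).det from
      (Int.castRingHom (ZMod p)).map_det T']
    refine Matrix.exists_vecMul_eq_zero_iff.1
      ⟨fun i => ((w p i : ℤ) : ZMod p), fun h => hi₀ ?_, ?_⟩
    · exact (ZMod.intCast_zmod_eq_zero_iff_dvd _ _).1 (congrFun h i₀)
    funext c
    have hc : (p : ℤ) ∣ (fun i => T i (e c)) ⬝ᵥ w p := by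
      rcases e c with a | a
      · exact hUS a p hp
      · have := hker (s a)
        convert this using 1
        simp only [hT, mulVec, dotProduct, fromCols_apply_inr, submatrix_apply, id_eq]
        exact Finset.sum_congr rfl fun l _ => by rw [← hB.1.apply l (s a)]
    rw [← ZMod.intCast_zmod_eq_zero_iff_dvd] at hc
    simp only [dotProduct, Int.cast_sum, Int.cast_mul] at hc
    simp only [vecMul, dotProduct, Matrix.map_apply, hT', submatrix_apply, id_eq, Pi.zero_apply,
      eq_intCast]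
    rw [← hc]
    exact Finset.sum_congr rfl fun l _ => mul_comm _ _
  have hprod : (∏ p ∈ S, p) ≤ T'.det.natAbs :=
    Nat.le_of_dvd (Int.natAbs_pos.2 hT0)
      (Finset.prod_primes_dvd _ (fun p hp => (hS p hp).1.prime) hdvd)
  have hlog : (1 - ε) * S.card * Real.log m ≤ Real.log |((T'.det : ℤ) : ℝ)| := by
    have h1 : Real.log ((∏ p ∈ S, p : ℕ) : ℝ) ≤ Real.log |((T'.det : ℤ) : ℝ)| := by
      refine Real.log_le_log ?_ ?_
      · exact_mod_cast Finset.prod_pos fun p hp => (hS p hp).1.pos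
      · rw [← Int.cast_abs, Int.abs_eq_natAbs]
        exact_mod_cast hprod
    refine le_trans ?_ h1
    rw [Nat.cast_prod, Real.log_prod (fun p hp => Nat.cast_ne_zero.2 (hS p hp).1.ne_zero)]
    refine le_of_eq_of_le (by rw [Finset.sum_const, nsmul_eq_mul]; ring)
      (Finset.sum_le_sum (s := S) (f := fun _ => (1 - ε) * Real.log m) fun p hp => ?_)
    rw [← Real.log_rpow (by positivity)]
    exact Real.log_le_log (by positivity) (hS p hp).2.1.le
  have hsq : ((T'.det : ℤ) : ℝ) ^ 2 ≤ 2 * (D ^ 2) ^ r * (m : ℝ) ^ j := by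
    have e1 : ((toR T)ᵀ * toR T).submatrix e e = (toR T')ᵀ * toR T' := by
      ext a b; simp [Matrix.mul_apply, toR, hT']
    have e2 : ((T'.det : ℤ) : ℝ) ^ 2 = ((toR T)ᵀ * toR T).det := by
      rw [← det_submatrix_equiv_self e, e1, det_mul, det_transpose, pow_two,
        show (toR T').det = ((T'.det : ℤ) : ℝ) from ((Int.castRingHom ℝ).map_det T').symm]
    rw [e2, hT, toR_fromCols]
    have hi := toR_mulVec_injective T hinj
    rw [hT, toR_fromCols] at hi
    refine (det_gram_add_cols j (toR (B.submatrix id s)) (toR U) hi).trans ?_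
    have hcol : ∀ c, ∑ i, toR (B.submatrix id s) i c ^ 2 = (m : ℝ) := by
      intro c
      rw [hmdef, ← Finset.card_univ, Finset.cast_card]
      refine Finset.sum_congr rfl fun i _ => ?_
      rcases hB.2 i (s c) with h | h <;> simp [toR, h]
    simp only [hcol, Finset.prod_const, Finset.card_univ, Fintype.card_fin]
    exact mul_le_mul_of_nonneg_right hdetU (by positivity)
  have hne : (T'.det : ℝ) ≠ 0 := Int.cast_ne_zero.2 hT0
  have h3 := Real.log_le_log (by positivity) hsq
  rw [Real.log_pow, ← Real.log_abs, Real.log_mul (by positivity) (by positivity),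
    Real.log_mul (by norm_num) (by positivity), Real.log_pow, Real.log_pow, Real.log_pow] at h3
  simp only [Nat.cast_ofNat] at h3
  have hm2 : (2 : ℝ) ≤ m := by exact_mod_cast hm
  have hlm : 0 < Real.log (m : ℝ) := Real.log_pos (by linarith)
  have hj : (j : ℝ) = m - r := by
    rw [eq_sub_iff_add_eq, add_comm]; exact_mod_cast hrj
  have hrm : (r : ℝ) ≤ m := by
    have : r ≤ m := by omega
    exact_mod_cast this
  have hlD : 0 ≤ Real.log D := Real.log_nonneg hD
  refine le_of_mul_le_mul_right ?_ hlm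
  rw [hj] at h3
  nlinarith [mul_le_mul_of_nonneg_right hrm hlD]

/-- Cube points in the annihilator of kernel vectors modulo several primes. -/
theorem atom_le (ε : ℝ) (hε : 0 < ε) :
    ∃ N : ℕ, ∀ (ι : Type) [Fintype ι] [DecidableEq ι] (B : Matrix ι ι ℤ) (S : Finset ℕ)
      (w : ℕ → ι → ℤ), N ≤ Fintype.card ι → IsSign B → B.det ≠ 0 →
      (∀ p ∈ S, p.Prime ∧ (Fintype.card ι : ℝ) ^ (1 - ε) < p ∧ (∃ i, ¬ (p : ℤ) ∣ w p i) ∧
        ∀ i, (p : ℤ) ∣ B.mulVec (w p) i) →
      (Nat.card {x : ι → Bool // ∀ p ∈ S, (p : ℤ) ∣ signVec x ⬝ᵥ w p} : ℝ) ≤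
        (2 : ℝ) ^ ((1 + ε) * Fintype.card ι - 2 * (1 - ε) * S.card) := by
  obtain ⟨C, k, hC, hcov⟩ := short_vectors_cover
  obtain ⟨N, hN2, hN⟩ := atom_asymptotics C k (ε * Real.log 2 / 2) (by positivity)
  refine ⟨N, fun ι _ _ B S w hm hB hdet hS => ?_⟩
  classical
  obtain ⟨hL1, hcount, hrank⟩ := hN _ hm
  set m := Fintype.card ι with hmdef
  set D := Real.log ((m : ℝ) + 2) ^ (k + 1) with hDdef
  have hD : 1 ≤ D := one_le_pow₀ hL1
  obtain ⟨d, A, hd, hA, hAS, hAz⟩ := exists_annBasis S w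
  set G : Matrix (Fin d) (Fin d) ℝ := (D ^ 2)⁻¹ • ((toR A)ᵀ * toR A) with hG
  have hGpd : G.PosDef := by
    have h1 := PosDef.conjTranspose_mul_self (toR A) (toR_mulVec_injective A hA)
    rw [conjTranspose_eq_transpose_of_trivial] at h1
    exact h1.smul (by positivity)
  obtain ⟨r, Z, F, hZ, hdetZ, hF, hpts⟩ := hcov d G hGpd ((m : ℝ) / D ^ 2) (by positivity)
  have hUR : toR (A * Z) = toR A * toR Z := Matrix.map_mul (f := Int.castRingHom ℝ)
  have hUQ : toQ (A * Z) = toQ A * toQ Z := Matrix.map_mul (f := Int.castRingHom ℚ)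
  have hU : Function.Injective (toQ (A * Z)).mulVec := by
    intro a b hab
    rw [hUQ, ← mulVec_mulVec, ← mulVec_mulVec] at hab
    exact (mulVec_injective_iff.2 hZ : Function.Injective (toQ Z).mulVec) (hA hab)
  have hUS : ∀ c p, p ∈ S → (p : ℤ) ∣ (fun i => (A * Z) i c) ⬝ᵥ w p := fun c p hp => by
    have := hAS (fun l => Z l c) p hp
    exact this
  have hdetU : ((toR (A * Z))ᵀ * toR (A * Z)).det ≤ 2 * (D ^ 2) ^ r := by
    have e : (toR Z)ᵀ * G * toR Z = (D ^ 2)⁻¹ • ((toR (A * Z))ᵀ * toR (A * Z)) := by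
      rw [hUR, hG, Matrix.mul_smul, Matrix.smul_mul, transpose_mul]
      simp only [Matrix.mul_assoc]
    change ((toR Z)ᵀ * G * toR Z).det ≤ 2 at hdetZ
    rw [e, det_smul, Fintype.card_fin, inv_pow, inv_mul_le_iff₀ (by positivity)] at hdetZ
    linarith
  have hr := rank_le ε (ε * Real.log 2 / 2) D hD B hB hdet S w hS (hN2.trans hm) hrank (A * Z) hU
    hUS hdetU
  set W : Submodule ℚ (ι → ℚ) := LinearMap.range (toQ (A * Z)).mulVecLin with hW
  have hWr : Module.finrank ℚ W ≤ r := by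
    have := LinearMap.finrank_range_le (toQ (A * Z)).mulVecLin
    simpa using this
  have hcard := card_cube_cover W hWr (F.image A.mulVec)
    (fun x => ∀ p ∈ S, (p : ℤ) ∣ signVec x ⬝ᵥ w p) (fun x hx => by
      obtain ⟨a, ha⟩ := hAz _ hx
      have hsq : ((fun i => (a i : ℝ)) ⬝ᵥ G.mulVec fun i => (a i : ℝ)) ≤ (m : ℝ) / D ^ 2 := by
        rw [hG, smul_mulVec, dotProduct_smul, ← mulVec_mulVec, dotProduct_mulVec, vecMul_transpose,
          smul_eq_mul, ← div_eq_inv_mul]
        refine le_of_eq (congrArg (· / D ^ 2) ?_)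
        have e : (toR A).mulVec (fun i => (a i : ℝ)) = fun i => ((signVec x i : ℤ) : ℝ) := by
          rw [← ha]
          funext i
          simp [mulVec, dotProduct, toR]
        rw [e, hmdef, dotProduct, ← Finset.card_univ, Finset.cast_card]
        refine Finset.sum_congr rfl fun i _ => ?_
        simp only [signVec]
        split <;> simp
      obtain ⟨y, hy, hspan⟩ := hpts a hsq
      refine ⟨A.mulVec y, Finset.mem_image_of_mem _ hy, ?_⟩
      change _ ∈ Submodule.span ℚ (Set.range (toQ Z).col) at hspan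
      rw [← range_mulVecLin] at hspan
      obtain ⟨q, hq⟩ := hspan
      refine ⟨q, ?_⟩
      rw [mulVecLin_apply] at hq ⊢
      rw [hUQ, ← mulVec_mulVec, hq, ← ha]
      funext i
      simp [mulVec, dotProduct, toQ, mul_sub, Finset.sum_sub_distrib])
  refine le_trans (Nat.cast_le.2 hcard) ?_
  push_cast
  have hFle : (((F.image A.mulVec).card : ℕ) : ℝ) ≤ (2 : ℝ) ^ (ε / 2 * m) := by
    refine le_trans (Nat.cast_le.2 Finset.card_image_le) (hF.trans ?_)
    rw [Real.rpow_def_of_pos (by norm_num)]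
    refine Real.exp_le_exp.2 (le_trans ?_ (hcount.trans_eq (by ring)))
    have hd0 : (0 : ℝ) ≤ d := Nat.cast_nonneg d
    have hdm : (d : ℝ) + 2 ≤ (m : ℝ) + 2 := by linarith [(Nat.cast_le (α := ℝ)).2 hd]
    exact mul_le_mul_of_nonneg_right (mul_le_mul_of_nonneg_left
      (pow_le_pow_left₀ (Real.log_nonneg (by linarith)) (Real.log_le_log (by linarith) hdm) k)
      hC.le) (by positivity)
  refine (mul_le_mul_of_nonneg_right hFle (by positivity)).trans ?_
  rw [← Real.rpow_natCast (2 : ℝ) r, ← Real.rpow_add (by norm_num)]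
  refine Real.rpow_le_rpow_of_exponent_le (by norm_num) ?_
  have hl2 : Real.log 2 ≤ 1 := Real.log_two_lt_d9.le.trans (by norm_num)
  have hm0 : (0 : ℝ) ≤ m := Nat.cast_nonneg m
  nlinarith [mul_le_mul_of_nonneg_left hl2 (mul_nonneg hε.le hm0)]

end Vale.Agent.P160R
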