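import Vale.Agent.P160R.Basic
import Vale.Agent.P160R.Column.Adj

/-!
# The arithmetic of a singular matrix of corank one
-/

namespace Vale.Agent.P160R

open Finset Matrix

variable {ι : Type} [Fintype ι] [DecidableEq ι]

/-- An integral self pairing makes the class order square divide the determinant, and gives the
local properties at every prime. -/
theorem column_isCand (B : Matrix ι ι ℤ) (hB : B.IsSymm) (hd : B.det ≠ 0) (x : ι → ℤ)
    (hx : (qForm B x x).den = 1) :
    clsOrd B x ^ 2 ∣ B.det.natAbs ∧ ∀ p : ℕ, p.Prime →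
      IsCand B p (padicValNat p (clsCof B x)) (padicValNat p (clsOrd B x)) x := by
  obtain ⟨hdvd, hkill⟩ := ord_sq_dvd_and_kill B hB hd x hx
  refine ⟨hdvd, fun p hp => ?_⟩
  haveI : Fact p.Prime := ⟨hp⟩
  have hs0 := clsOrd_ne_zero B x
  have hd0 : B.det.natAbs ≠ 0 := Int.natAbs_ne_zero.2 hd
  have hcof : clsCof B x * clsOrd B x ^ 2 = B.det.natAbs := Nat.div_mul_cancel hdvd
  have hc0 : clsCof B x ≠ 0 := fun h => hd0 (by rw [← hcof, h, zero_mul])
  refine ⟨?_, ?_, fun i => ?_, ?_, fun r hr => ?_⟩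
  · simp [PInt, hx, hp.ne_one]
  · rw [← hcof, padicValNat.mul hc0 (pow_ne_zero 2 hs0), sq, padicValNat.mul hs0 hs0]; ring
  · exact (padicValNat_dvd_iff_le hs0).1 (pow_padicValNat_dvd.trans (den_dvd_clsOrd B x i))
  · by_contra hcon
    simp only [not_or, not_exists] at hcon
    obtain ⟨hf, hne⟩ := hcon
    have hps : p ∣ clsOrd B x := (dvd_pow_self p hf).trans pow_padicValNat_dvd
    obtain ⟨k, hk⟩ := hps
    have hall : clsOrd B x ∣ k := by
      refine Finset.lcm_dvd fun i _ => ?_
      have hlt : pExp p (qVec B x i) < padicValNat p (clsOrd B x) :=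
        lt_of_le_of_ne ((padicValNat_dvd_iff_le hs0).1
          (pow_padicValNat_dvd.trans (den_dvd_clsOrd B x i))) (hne i)
      obtain ⟨d, hd', he⟩ := den_split hp (qVec B x i)
      have h1 : p ^ (pExp p (qVec B x i) + 1) * d ∣ p * k := by
        rw [← hk]
        refine Nat.Coprime.mul_dvd_of_dvd_of_dvd
          ((hp.coprime_iff_not_dvd.2 hd').pow_left _) ?_ ?_
        · exact (pow_dvd_pow p hlt).trans pow_padicValNat_dvd
        · exact (Dvd.intro_left _ he.symm).trans (den_dvd_clsOrd B x i)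
      rw [pow_succ', mul_assoc] at h1
      rw [he]
      exact Nat.dvd_of_mul_dvd_mul_left hp.pos h1
    rw [hk] at hall hs0
    have h2 := Nat.le_of_dvd (Nat.pos_of_ne_zero (right_ne_zero_of_mul hs0)) hall
    have := hp.two_le
    nlinarith [Nat.pos_of_ne_zero (right_ne_zero_of_mul hs0)]
  · have hT : (qForm B x (((qForm B x r).den : ℤ) • r)).den = 1 := by
      rw [qForm_smul_right, Int.cast_natCast, mul_comm, Rat.mul_den_eq_num]
      exact Rat.den_intCast _
    obtain ⟨α, u, he⟩ := hkill _ hT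
    obtain ⟨c', hc'⟩ := pow_padicValNat_dvd (p := p) (n := clsCof B x)
    refine ⟨((qForm B x r).den : ℤ) * c', α, u, ?_, ?_⟩
    · intro h
      rcases hp.dvd_mul.1 (Int.natCast_dvd_natCast.1 (by exact_mod_cast h :
          ((p : ℕ) : ℤ) ∣ (((qForm B x r).den * c' : ℕ) : ℤ))) with h1 | h1
      · exact hr h1
      · refine pow_succ_padicValNat_not_dvd (p := p) hc0 ?_
        calc p ^ (padicValNat p (clsCof B x) + 1) = p ^ padicValNat p (clsCof B x) * p :=
              pow_succ _ _
          _ ∣ p ^ padicValNat p (clsCof B x) * c' := mul_dvd_mul_left _ h1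
          _ = clsCof B x := hc'.symm
    · rw [← he, smul_smul]
      congr 1
      have : ((clsCof B x : ℕ) : ℤ) = (p : ℤ) ^ padicValNat p (clsCof B x) * (c' : ℤ) := by
        exact_mod_cast hc'
      rw [this]
      ring

/-- Deleting a pivot of a kernel vector of a corank-one matrix. -/
theorem singular_column (A : Matrix ι ι ℤ) (hA : A.IsSymm)
    (hr : (A.map (Int.cast : ℤ → ℚ)).rank + 1 = Fintype.card ι) (z : ι → ℤ)
    (hz : A.mulVec z = 0) (j : ι) (hj : z j ≠ 0) :
    (A.submatrix (Subtype.val : {i // i ≠ j} → ι) Subtype.val).det ≠ 0 ∧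
      qForm (A.submatrix (Subtype.val : {i // i ≠ j} → ι) Subtype.val) (fun i => A i.1 j)
        (fun i => A i.1 j) = A j j ∧
      ∀ i : {i // i ≠ j},
        qVec (A.submatrix (Subtype.val : {i // i ≠ j} → ι) Subtype.val) (fun i => A i.1 j) i =
          -(z i.1 : ℚ) / z j := by
  set B := A.submatrix (Subtype.val : {i // i ≠ j} → ι) Subtype.val with hB
  have hsplit : ∀ (i : ι) (v : ι → ℤ),
      A.mulVec v i = ∑ l : {l // l ≠ j}, A i l.1 * v l.1 + A i j * v j := by
    intro i v
    rw [Matrix.mulVec, dotProduct, ← Finset.add_sum_erase univ _ (mem_univ j),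
      Finset.sum_subtype (univ.erase j) (p := fun l => l ≠ j) (fun l => by simp)]
    ring
  have hrow : ∀ i : {i // i ≠ j}, B.mulVec (fun l => z l.1) i = -(z j) * A i.1 j := by
    intro i
    have := hsplit i.1 z
    rw [hz, Pi.zero_apply] at this
    have hb : B.mulVec (fun l => z l.1) i = ∑ l : {l // l ≠ j}, A i.1 l.1 * z l.1 := rfl
    rw [hb]
    linear_combination -this
  have hd : B.det ≠ 0 := by
    intro h0
    obtain ⟨u, hu, hBu⟩ := Matrix.exists_mulVec_eq_zero_iff.2 h0
    set v : ι → ℤ := fun l => if h : l ≠ j then u ⟨l, h⟩ else 0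
    have hvj : v j = 0 := by simp [v]
    have hvl : ∀ l : {l // l ≠ j}, v l.1 = u l := fun l => by simp [v, l.2]
    have hAv : A.mulVec v = 0 := by
      have hne : ∀ i, i ≠ j → A.mulVec v i = 0 := by
        intro i hi
        rw [hsplit, hvj, mul_zero, add_zero]
        refine (Finset.sum_congr rfl fun l _ => by rw [hvl l]).trans ?_
        exact congrFun hBu ⟨i, hi⟩
      funext i
      by_cases hi : i = j
      · subst hi
        have h1 : z ⬝ᵥ A.mulVec v = 0 := by
          rw [Matrix.dotProduct_mulVec, ← Matrix.mulVec_transpose, hA.eq, hz, zero_dotProduct]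
        rw [dotProduct, Finset.sum_eq_single i (fun l _ hl => by rw [hne l hl, mul_zero])
          (fun h => absurd (mem_univ i) h)] at h1
        exact (mul_eq_zero.1 h1).resolve_left hj
      · exact hne i hi
    refine hu (funext fun l => ?_)
    have := kernel_proportional A hr hz hAv l.1 j
    rw [hvj, zero_mul, hvl] at this
    exact (mul_eq_zero.1 this).resolve_right hj
  have hzq : (z j : ℚ) ≠ 0 := by exact_mod_cast hj
  have hvec : ∀ i : {i // i ≠ j}, qVec B (fun l => A l.1 j) i = -(z i.1 : ℚ) / z j := by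
    intro i
    have h1 := qVec_mulVec hd (fun l : {l // l ≠ j} => z l.1) i
    rw [show B.mulVec (fun l : {l // l ≠ j} => z l.1) = (-(z j)) • (fun l : {l // l ≠ j} => A l.1 j)
      from funext fun l => by rw [hrow]; rfl, qVec_smul, Pi.smul_apply, smul_eq_mul] at h1
    push_cast at h1
    rw [eq_div_iff hzq]
    linear_combination -h1
  refine ⟨hd, ?_, hvec⟩
  rw [qForm, dotProduct]
  have h2 := hsplit j z
  rw [hz, Pi.zero_apply] at h2
  have h2' : (0 : ℚ) = ∑ l : {l // l ≠ j}, (A j l.1 : ℚ) * z l.1 + (A j j : ℚ) * z j := by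
    exact_mod_cast h2
  calc ∑ i : {i // i ≠ j}, (A i.1 j : ℚ) * qVec B (fun l => A l.1 j) i
      = ∑ i : {i // i ≠ j}, -((A j i.1 : ℚ) * z i.1) / z j := by
        refine Finset.sum_congr rfl fun i _ => ?_
        rw [hvec, hA.apply j i.1]
        ring
    _ = (A j j : ℚ) := by
        rw [← Finset.sum_div, Finset.sum_neg_distrib, div_eq_iff hzq]
        linear_combination h2'

omit [Fintype ι] [DecidableEq ι] in
theorem log_natCast_eq_sum (c : ℕ) :
    Real.log (c : ℝ) = ∑ p ∈ c.primeFactors, (padicValNat p c : ℝ) * Real.log p := by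
  rw [Real.log_nat_eq_sum_factorization, Finsupp.sum, Nat.support_factorization]
  refine Finset.sum_congr rfl fun p hp => ?_
  rw [Nat.factorization_def c (Nat.prime_of_mem_primeFactors hp)]

/-- The order at a pivot is the pivot. -/
theorem clsOrd_pivot (A : Matrix ι ι ℤ) (hA : A.IsSymm)
    (hr : (A.map (Int.cast : ℤ → ℚ)).rank + 1 = Fintype.card ι) (z : ι → ℤ)
    (hz : A.mulVec z = 0) (hg : Finset.univ.gcd z = 1) (j : ι) (hj : z j ≠ 0) :
    clsOrd (A.submatrix (Subtype.val : {i // i ≠ j} → ι) Subtype.val) (fun i => A i.1 j) =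
      (z j).natAbs := by
  obtain ⟨-, -, hvec⟩ := singular_column A hA hr z hz j hj
  set B := A.submatrix (Subtype.val : {i // i ≠ j} → ι) Subtype.val
  set x : {i // i ≠ j} → ℤ := fun i => A i.1 j
  refine Nat.dvd_antisymm (Finset.lcm_dvd fun i _ => ?_) ?_
  · rw [hvec i, ← Int.cast_neg, ← Rat.divInt_eq_div, ← Int.natCast_dvd]
    exact Rat.den_dvd _ _
  · obtain ⟨w, hw, -⟩ := exists_ord_vec B x
    have hall : ∀ i : ι, z j ∣ (clsOrd B x : ℤ) * z i := by
      intro i
      by_cases hi : i = j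
      · subst hi; exact dvd_mul_left _ _
      refine ⟨-(w ⟨i, hi⟩), ?_⟩
      have hzq : (z j : ℚ) ≠ 0 := by exact_mod_cast hj
      have h1 := hw ⟨i, hi⟩
      rw [hvec, mul_div_assoc', div_eq_iff hzq] at h1
      have h2 : (((clsOrd B x : ℤ) * z i : ℤ) : ℚ) = ((z j * -(w ⟨i, hi⟩) : ℤ) : ℚ) := by
        push_cast
        linear_combination -h1
      exact_mod_cast h2
    have h3 : z j ∣ Finset.univ.gcd fun i => (clsOrd B x : ℤ) * z i :=
      Finset.dvd_gcd fun i _ => hall i
    rw [Finset.gcd_mul_left, hg, mul_one, Int.normalize_of_nonneg (Int.natCast_nonneg _)] at h3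
    exact Int.natAbs_dvd_natAbs.2 h3

/-- The cofactor does not depend on the pivot. -/
theorem clsCof_pivot (A : Matrix ι ι ℤ) (hA : A.IsSymm)
    (hr : (A.map (Int.cast : ℤ → ℚ)).rank + 1 = Fintype.card ι) (z : ι → ℤ)
    (hz : A.mulVec z = 0) (hg : Finset.univ.gcd z = 1) (j k : ι) (hj : z j ≠ 0) (hk : z k ≠ 0) :
    clsCof (A.submatrix (Subtype.val : {i // i ≠ j} → ι) Subtype.val) (fun i => A i.1 j) =
      clsCof (A.submatrix (Subtype.val : {i // i ≠ k} → ι) Subtype.val) (fun i => A i.1 k) := by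
  have hd : A.det = 0 := by
    refine Matrix.exists_mulVec_eq_zero_iff.1 ⟨z, fun h => hj ?_, hz⟩
    rw [h]; rfl
  have key : ∀ l, z l ≠ 0 → clsCof (A.submatrix (Subtype.val : {i // i ≠ l} → ι) Subtype.val)
      (fun i => A i.1 l) * (z l).natAbs ^ 2 = (A.adjugate l l).natAbs := by
    intro l hl
    obtain ⟨hdB, hform, -⟩ := singular_column A hA hr z hz l hl
    have hdvd := (column_isCand _ (hA.submatrix _) hdB _
      (by rw [hform]; exact Rat.den_intCast _)).1
    rw [clsOrd_pivot A hA hr z hz hg l hl] at hdvd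
    rw [clsCof, clsOrd_pivot A hA hr z hz hg l hl, Nat.div_mul_cancel hdvd, det_compl_single]
  have h := congrArg Int.natAbs (minor_ratio A hA hr hz hd j k)
  simp only [Int.natAbs_mul, Int.natAbs_pow] at h
  rw [← key j hj, ← key k hk] at h
  have hpos : 0 < (z j).natAbs ^ 2 * (z k).natAbs ^ 2 :=
    Nat.mul_pos (pow_pos (Int.natAbs_pos.2 hj) 2) (pow_pos (Int.natAbs_pos.2 hk) 2)
  exact Nat.eq_of_mul_eq_mul_right hpos (by linarith)

omit [Fintype ι] [DecidableEq ι] in
/-- The deep modulus of the deleted order is an admissible zero modulus. -/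
theorem deepMod_zeroMod {p m n : ℕ} (hp : p.Prime) (hm : 32 ≤ m) (hn : n = m + 1) :
    ∃ s, ZeroMod p s n ∧ deepMod p m = p ^ s := by
  have hnm : n ≤ 2 * m := by omega
  have hn2 : n ^ 2 ≤ 4 * m ^ 2 := by
    calc n ^ 2 ≤ (2 * m) ^ 2 := Nat.pow_le_pow_left hnm 2
      _ = 4 * m ^ 2 := by ring
  by_cases hp5 : p ^ 5 ≤ m ^ 2
  · refine ⟨Nat.clog p m, ⟨Nat.clog_pos hp.one_lt (by omega), ?_, Or.inr ?_⟩, if_pos hp5⟩
    · have h1 : m ≤ p ^ Nat.clog p m := Nat.le_pow_clog hp.one_lt m
      have h2 : m ^ 2 ≤ (p ^ Nat.clog p m) ^ 5 :=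
        (Nat.pow_le_pow_right (by omega) (by norm_num : 2 ≤ 5)).trans (Nat.pow_le_pow_left h1 5)
      omega
    · have hlt := Nat.pow_pred_clog_lt_self hp.one_lt (show 1 < m by omega)
      have hc := Nat.clog_pos hp.one_lt (show 1 < m by omega)
      have hpm : p ≤ m := by
        by_contra hgt
        have h1 : p ^ 2 ≤ p ^ 5 := Nat.pow_le_pow_right hp.pos (by norm_num)
        have h2 : m ^ 2 < p ^ 2 := Nat.pow_lt_pow_left (not_le.1 hgt) (by norm_num)
        omega
      have he : p ^ Nat.clog p m = p ^ (Nat.clog p m).pred * p := by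
        rw [← pow_succ, Nat.pred_eq_sub_one]; congr 1; omega
      rw [he, sq]
      exact Nat.mul_le_mul (hlt.le.trans (by omega)) (hpm.trans (by omega))
  · refine ⟨1, ⟨le_rfl, ?_, Or.inl rfl⟩, by rw [deepMod, if_neg hp5, pow_one]⟩
    rw [pow_one]
    omega

/-- Some pivot among many good ones meets both budgets. -/
theorem exists_budget (C θ : ℝ) (hθ : 0 < θ) :
    ∃ (C' : ℝ) (N : ℕ), ∀ (κ : Type) [Fintype κ] [DecidableEq κ] (A : Matrix κ κ ℤ)
      (z : κ → ℤ) (G : Finset κ), N ≤ Fintype.card κ → IsSign A →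
      (A.map (Int.cast : ℤ → ℚ)).rank + 1 = Fintype.card κ → A.mulVec z = 0 →
      Finset.univ.gcd z = 1 → θ * Fintype.card κ ≤ G.card → (∀ j ∈ G, z j ≠ 0) →
      (∀ p s : ℕ, p.Prime → ZeroMod p s (Fintype.card κ) →
        (Nat.card {i // ((p ^ s : ℕ) : ℤ) ∣ z i} : ℝ) ≤
          C * Fintype.card κ / Real.log (Fintype.card κ)) →
      ∃ G' ⊆ G, (G.card : ℝ) / 2 ≤ G'.card ∧ ∀ j ∈ G',
        Budget C' (A.submatrix (Subtype.val : {i // i ≠ j} → κ) Subtype.val)
          (fun i => A i.1 j) := by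
  refine ⟨max (32 * (1 + 2 * |C| / θ)) (4 * |C| / θ), 64, ?_⟩
  intro κ _ _ A z G hN hA hr hz hg hG hGz hzero
  set n := Fintype.card κ with hn
  have hn34 : 34 ≤ n := by omega
  have hn0 : (0 : ℝ) < n := by exact_mod_cast (show 0 < n by omega)
  have hne : G.Nonempty := Finset.card_pos.1 (by
    have : (0 : ℝ) < G.card := lt_of_lt_of_le (by positivity) hG
    exact_mod_cast this)
  obtain ⟨j₀, hj₀⟩ := hne
  set sub : (j : κ) → Matrix {i // i ≠ j} {i // i ≠ j} ℤ := fun j =>
    A.submatrix Subtype.val Subtype.val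
  set col : (j : κ) → {i // i ≠ j} → ℤ := fun j i => A i.1 j
  set m := n - 1
  have hcardj : ∀ j : κ, Fintype.card {i // i ≠ j} = m := fun j => by
    simp [m, n]
  set c := clsCof (sub j₀) (col j₀)
  set spec : κ → Finset ℕ := fun j => specialPrimes (sub j) (col j)
  have hspec : ∀ j ∈ G, spec j = c.primeFactors.filter fun p => deepMod p m ∣ (z j).natAbs := by
    intro j hj
    simp only [spec, specialPrimes, hcardj, sub, col, c,
      clsCof_pivot A hA.1 hr z hz hg j j₀ (hGz j hj) (hGz j₀ hj₀),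
      clsOrd_pivot A hA.1 hr z hz hg j (hGz j hj)]
  set L := Real.log (n : ℝ)
  have hL : 0 < L := Real.log_pos (by exact_mod_cast (show 1 < n by omega))
  -- few pivots per prime
  have hper : ∀ p ∈ c.primeFactors,
      ((G.filter fun j => p ∈ spec j).card : ℝ) ≤ |C| * n / L := by
    intro p hp
    have hpp := Nat.prime_of_mem_primeFactors hp
    obtain ⟨s, hs, hdeep⟩ := deepMod_zeroMod (m := m) (n := n) hpp (by omega) (by omega)
    refine le_trans ?_ ((hzero p s hpp hs).trans (div_le_div_of_nonneg_right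
      (mul_le_mul_of_nonneg_right (le_abs_self C) hn0.le) hL.le))
    rw [Nat.card_eq_fintype_card, Fintype.card_subtype]
    refine Nat.cast_le.2 (Finset.card_le_card fun j hj => ?_)
    obtain ⟨hjG, hjp⟩ := Finset.mem_filter.1 hj
    rw [hspec j hjG, Finset.mem_filter, hdeep] at hjp
    exact Finset.mem_filter.2 ⟨Finset.mem_univ _, Int.natCast_dvd.2 hjp.2⟩
  -- the size of the cofactor
  obtain ⟨hdet₀, hform₀, -⟩ := singular_column A hA.1 hr z hz j₀ (hGz j₀ hj₀)
  have hc_le : c ≤ (sub j₀).det.natAbs := Nat.div_le_self _ _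
  have hc0 : c ≠ 0 := by
    intro h0
    have hdvd := (column_isCand (sub j₀) (hA.1.submatrix _) hdet₀ (col j₀)
      (by rw [hform₀]; exact Rat.den_intCast _)).1
    refine Int.natAbs_ne_zero.2 hdet₀ ?_
    rw [← Nat.div_mul_cancel hdvd]
    change c * _ = 0
    rw [h0, zero_mul]
  have hm0 : (1 : ℝ) < m := by exact_mod_cast (show 1 < m by omega)
  have hlogc : Real.log c ≤ m * Real.log m / 2 := by
    have hsq : (c : ℝ) ^ 2 ≤ (m : ℝ) ^ m := by
      have h1 : ((sub j₀).det : ℝ) ^ 2 ≤ (m : ℝ) ^ m := by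
        have := det_sq_le (B := sub j₀) ⟨hA.1.submatrix _, fun a b => hA.2 _ _⟩
        rwa [hcardj] at this
      refine le_trans ?_ h1
      rw [← sq_abs ((sub j₀).det : ℝ), ← Int.cast_abs, ← Nat.cast_natAbs]
      · exact pow_le_pow_left₀ (Nat.cast_nonneg _) (Nat.cast_le.2 hc_le) 2
    have hcpos : (0 : ℝ) < c := by exact_mod_cast Nat.pos_of_ne_zero hc0
    have := Real.log_le_log (by positivity) hsq
    rw [Real.log_pow, Real.log_pow] at this
    push_cast at this
    linarith
  have hmn : (m : ℝ) ≤ n := by exact_mod_cast Nat.sub_le n 1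
  have hmL : Real.log m ≤ L := Real.log_le_log (by linarith) hmn
  -- small and large primes
  set small := c.primeFactors.filter fun p => p ^ 5 ≤ m ^ 2
  set large := c.primeFactors.filter fun p => ¬ p ^ 5 ≤ m ^ 2
  have hsmall : (small.card : ℝ) ≤ 4 * n / L := by
    have hsub : small ⊆ Finset.range (⌊(m : ℝ) ^ ((2 : ℝ) / 5)⌋₊ + 1) := by
      intro p hp
      refine Finset.mem_range.2 (Nat.lt_succ_of_le (Nat.le_floor ?_))
      have h5 : (p : ℝ) ^ 5 ≤ (m : ℝ) ^ 2 := by exact_mod_cast (Finset.mem_filter.1 hp).2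
      calc (p : ℝ) = ((p : ℝ) ^ 5) ^ ((1 : ℝ) / 5) := by
            rw [← Real.rpow_natCast, ← Real.rpow_mul (Nat.cast_nonneg p)]; norm_num
        _ ≤ ((m : ℝ) ^ 2) ^ ((1 : ℝ) / 5) := Real.rpow_le_rpow (by positivity) h5 (by norm_num)
        _ = _ := by
            rw [← Real.rpow_natCast, ← Real.rpow_mul (Nat.cast_nonneg m)]; norm_num
    have h1 : (small.card : ℝ) ≤ (m : ℝ) ^ ((2 : ℝ) / 5) + 1 := by
      have := Finset.card_le_card hsub
      rw [Finset.card_range] at this
      refine (Nat.cast_le.2 this).trans ?_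
      push_cast
      exact add_le_add (Nat.floor_le (by positivity)) le_rfl
    have h2 : (1 : ℝ) ≤ (n : ℝ) ^ ((2 : ℝ) / 5) :=
      Real.one_le_rpow (by exact_mod_cast (show 1 ≤ n by omega)) (by norm_num)
    have h3 : (m : ℝ) ^ ((2 : ℝ) / 5) ≤ (n : ℝ) ^ ((2 : ℝ) / 5) :=
      Real.rpow_le_rpow (by positivity) hmn (by norm_num)
    have h4 : L ≤ 2 * (n : ℝ) ^ ((1 : ℝ) / 2) := by
      have := Real.log_le_rpow_div hn0.le (show (0 : ℝ) < 1 / 2 by norm_num)
      linarith
    have h5 : (n : ℝ) ^ ((2 : ℝ) / 5) * (n : ℝ) ^ ((1 : ℝ) / 2) ≤ n := by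
      rw [← Real.rpow_add hn0]
      calc (n : ℝ) ^ ((2 : ℝ) / 5 + 1 / 2) ≤ (n : ℝ) ^ (1 : ℝ) :=
            Real.rpow_le_rpow_of_exponent_le (by exact_mod_cast (show 1 ≤ n by omega))
              (by norm_num)
        _ = n := Real.rpow_one _
    rw [le_div_iff₀ hL]
    calc (small.card : ℝ) * L ≤ 2 * (n : ℝ) ^ ((2 : ℝ) / 5) * (2 * (n : ℝ) ^ ((1 : ℝ) / 2)) :=
          mul_le_mul (by linarith) h4 hL.le (by positivity)
      _ ≤ 4 * n := by linarith
  have hlarge : (large.card : ℝ) ≤ 2 * n := by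
    have hlogm : 0 < Real.log m := Real.log_pos hm0
    have h1 : (large.card : ℝ) * ((2 / 5 : ℝ) * Real.log m) ≤ Real.log c := by
      rw [log_natCast_eq_sum c, ← nsmul_eq_mul, ← Finset.sum_const]
      refine le_trans ?_ (Finset.sum_le_sum_of_subset_of_nonneg (s := large) (t := c.primeFactors)
        (Finset.filter_subset _ _)
        fun p _ _ => mul_nonneg (Nat.cast_nonneg _) (Real.log_natCast_nonneg p))
      refine Finset.sum_le_sum fun p hp => ?_
      obtain ⟨hpc, hp5⟩ := Finset.mem_filter.1 hp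
      have hpp := Nat.prime_of_mem_primeFactors hpc
      haveI : Fact p.Prime := ⟨hpp⟩
      have hv : (1 : ℝ) ≤ padicValNat p c := by
        exact_mod_cast one_le_padicValNat_of_dvd hc0 (Nat.dvd_of_mem_primeFactors hpc)
      have h5 : (m : ℝ) ^ 2 ≤ (p : ℝ) ^ 5 := by exact_mod_cast (not_le.1 hp5).le
      have := Real.log_le_log (by positivity) h5
      rw [Real.log_pow, Real.log_pow] at this
      push_cast at this
      nlinarith [Real.log_natCast_nonneg p]
    nlinarith
  -- averages
  have hswap : ∀ (S : Finset ℕ) (w : ℕ → ℝ), S ⊆ c.primeFactors →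
      ∑ j ∈ G, ∑ p ∈ S, (if p ∈ spec j then w p else 0) =
        ∑ p ∈ S, ((G.filter fun j => p ∈ spec j).card : ℝ) * w p := by
    intro S w _
    rw [Finset.sum_comm]
    refine Finset.sum_congr rfl fun p _ => ?_
    rw [← Finset.sum_filter, Finset.sum_const, nsmul_eq_mul]
  have hG0 : (0 : ℝ) ≤ G.card := Nat.cast_nonneg _
  have hnG : (n : ℝ) ≤ G.card / θ := by rw [le_div_iff₀ hθ]; linarith
  set a := 4 * (1 + 2 * |C| / θ) with ha
  set b := |C| / θ with hb
  have havg1 : ∑ j ∈ G, ((spec j).card : ℝ) ≤ G.card * (a * n / L) := by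
    have hdec : ∀ j ∈ G, ((spec j).card : ℝ) ≤
        small.card + ∑ p ∈ large, (if p ∈ spec j then (1 : ℝ) else 0) := by
      intro j hj
      rw [Finset.sum_boole]
      have hsub : spec j ⊆ small ∪ large.filter fun p => p ∈ spec j := by
        intro p hp
        have hpc : p ∈ c.primeFactors := by
          have := hp; rw [hspec j hj] at this; exact (Finset.mem_filter.1 this).1
        by_cases h5 : p ^ 5 ≤ m ^ 2
        · exact Finset.mem_union_left _ (Finset.mem_filter.2 ⟨hpc, h5⟩)
        · exact Finset.mem_union_right _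
            (Finset.mem_filter.2 ⟨Finset.mem_filter.2 ⟨hpc, h5⟩, hp⟩)
      exact_mod_cast (Finset.card_le_card hsub).trans (Finset.card_union_le _ _)
    refine (Finset.sum_le_sum hdec).trans ?_
    rw [Finset.sum_add_distrib, Finset.sum_const, nsmul_eq_mul,
      hswap large (fun _ => 1) (Finset.filter_subset _ _)]
    have h1 : ∑ p ∈ large, ((G.filter fun j => p ∈ spec j).card : ℝ) * 1 ≤
        large.card * (|C| * n / L) := by
      rw [← nsmul_eq_mul, ← Finset.sum_const]
      exact Finset.sum_le_sum fun p hp => by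
        rw [mul_one]; exact hper p (Finset.mem_filter.1 hp).1
    have h2 : (large.card : ℝ) * (|C| * n / L) ≤ 2 * n * (|C| * n / L) :=
      mul_le_mul_of_nonneg_right hlarge (by positivity)
    have h3 : 2 * (n : ℝ) * (|C| * n / L) ≤ 2 * (G.card / θ) * (|C| * n / L) :=
      mul_le_mul_of_nonneg_right (by linarith) (by positivity)
    have h4 : (G.card : ℝ) * small.card ≤ G.card * (4 * n / L) :=
      mul_le_mul_of_nonneg_left hsmall hG0
    have h5 : (G.card : ℝ) * (a * n / L) = G.card * (4 * n / L) +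
        4 * (2 * (G.card / θ) * (|C| * n / L)) := by rw [ha]; ring
    have h6 : 0 ≤ 2 * ((G.card : ℝ) / θ) * (|C| * n / L) := by positivity
    linarith
  set wsum : κ → ℝ := fun j => ∑ p ∈ spec j, (padicValNat p c : ℝ) * Real.log p
  have havg2 : ∑ j ∈ G, wsum j ≤ G.card * (b * n / 2) := by
    have hdec : ∀ j ∈ G, wsum j = ∑ p ∈ c.primeFactors,
        (if p ∈ spec j then (padicValNat p c : ℝ) * Real.log p else 0) := by
      intro j hj
      simp only [wsum]
      rw [← Finset.sum_filter]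
      refine Finset.sum_congr ?_ fun _ _ => rfl
      ext p
      simp only [Finset.mem_filter]
      refine ⟨fun hp => ⟨?_, hp⟩, fun hp => hp.2⟩
      rw [hspec j hj] at hp
      exact (Finset.mem_filter.1 hp).1
    rw [Finset.sum_congr rfl hdec, hswap _ _ (Finset.Subset.refl _)]
    have h1 : ∑ p ∈ c.primeFactors, ((G.filter fun j => p ∈ spec j).card : ℝ) *
        ((padicValNat p c : ℝ) * Real.log p) ≤ |C| * n / L * Real.log c := by
      rw [log_natCast_eq_sum, Finset.mul_sum]
      exact Finset.sum_le_sum fun p hp => mul_le_mul_of_nonneg_right (hper p hp)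
        (mul_nonneg (Nat.cast_nonneg _) (Real.log_natCast_nonneg p))
    have h2 : Real.log c ≤ n * L / 2 := by
      refine hlogc.trans (div_le_div_of_nonneg_right ?_ (by norm_num))
      exact mul_le_mul hmn hmL (Real.log_natCast_nonneg m) hn0.le
    refine h1.trans ((mul_le_mul_of_nonneg_left h2 (by positivity)).trans ?_)
    calc |C| * n / L * (n * L / 2) = |C| * n * n / 2 := by field_simp
      _ ≤ |C| * n * (G.card / θ) / 2 :=
          div_le_div_of_nonneg_right (mul_le_mul_of_nonneg_left hnG (by positivity)) (by norm_num)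
      _ = _ := by rw [hb]; ring
  -- Markov
  set T := G.filter fun j => ((spec j).card : ℝ) ≤ 4 * (a * n / L) ∧ wsum j ≤ 2 * (b * n)
  have hwpos : ∀ j, 0 ≤ wsum j := fun j => Finset.sum_nonneg fun p _ =>
    mul_nonneg (Nat.cast_nonneg _) (Real.log_natCast_nonneg p)
  refine ⟨T, Finset.filter_subset _ _, ?_, ?_⟩
  · set X := G.filter fun j => ¬ ((spec j).card : ℝ) ≤ 4 * (a * n / L)
    set Y := G.filter fun j => ¬ wsum j ≤ 2 * (b * n)
    have hX : (X.card : ℝ) * (4 * (a * n / L)) ≤ G.card * (a * n / L) := by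
      refine le_trans ?_ havg1
      rw [← nsmul_eq_mul, ← Finset.sum_const]
      exact (Finset.sum_le_sum fun j hj => (not_le.1 (Finset.mem_filter.1 hj).2).le).trans
        (Finset.sum_le_sum_of_subset_of_nonneg (Finset.filter_subset _ _)
          fun j _ _ => Nat.cast_nonneg _)
    have hY : (Y.card : ℝ) * (2 * (b * n)) ≤ G.card * (b * n / 2) := by
      refine le_trans ?_ havg2
      rw [← nsmul_eq_mul, ← Finset.sum_const]
      exact (Finset.sum_le_sum fun j hj => (not_le.1 (Finset.mem_filter.1 hj).2).le).trans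
        (Finset.sum_le_sum_of_subset_of_nonneg (Finset.filter_subset _ _) fun j _ _ => hwpos j)
    have ha0 : 0 < a * n / L := by positivity
    have hX' : (X.card : ℝ) ≤ G.card / 4 := by nlinarith
    have hY' : (Y.card : ℝ) ≤ G.card / 4 := by
      rcases eq_or_lt_of_le (show 0 ≤ b * n by positivity) with h0 | h0
      · have : Y = ∅ := by
          refine Finset.filter_eq_empty_iff.2 fun j hj => not_not.2 ?_
          have h1 : wsum j ≤ 0 := by
            refine le_trans (Finset.single_le_sum (fun i _ => hwpos i) hj) (havg2.trans ?_)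
            rw [← h0]; simp
          linarith
        rw [this]; simp; positivity
      · nlinarith
    have hsub : G ⊆ T ∪ (X ∪ Y) := by
      intro j hj
      simp only [T, X, Y, Finset.mem_union, Finset.mem_filter]
      tauto
    have hcard : (G.card : ℝ) ≤ T.card + (X.card + Y.card) := by
      refine (Nat.cast_le.2 ((Finset.card_le_card hsub).trans ((Finset.card_union_le _ _).trans
        (Nat.add_le_add_left (Finset.card_union_le _ _) _)))).trans (le_of_eq ?_)
      push_cast; rfl
    linarith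
  · intro j hj
    obtain ⟨hjG, h1, h2⟩ := Finset.mem_filter.1 hj
    have hm2 : (n : ℝ) ≤ 2 * m := by exact_mod_cast (show n ≤ 2 * m by omega)
    have hcofj : clsCof (sub j) (col j) = c :=
      clsCof_pivot A hA.1 hr z hz hg j j₀ (hGz j hjG) (hGz j₀ hj₀)
    refine ⟨?_, ?_⟩
    · simp only [hcardj]
      refine h1.trans ?_
      have hlogm : 0 < Real.log m := Real.log_pos hm0
      calc 4 * (a * n / L) = 4 * a * n / L := by ring
        _ ≤ 4 * a * (2 * m) / Real.log m := by
            refine div_le_div₀ (by positivity) ?_ hlogm hmL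
            exact mul_le_mul_of_nonneg_left hm2 (by positivity)
        _ = 8 * a * m / Real.log m := by ring
        _ ≤ _ := div_le_div_of_nonneg_right
            (mul_le_mul_of_nonneg_right ((le_of_eq (by rw [ha]; ring)).trans (le_max_left _ _))
              (Nat.cast_nonneg m)) hlogm.le
    · simp only [hcardj]
      change ∑ p ∈ spec j, (padicValNat p (clsCof (sub j) (col j)) : ℝ) * Real.log p ≤ _
      rw [hcofj]
      refine h2.trans ?_
      calc 2 * (b * n) ≤ 2 * (b * (2 * m)) := by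
            have : b * n ≤ b * (2 * m) := mul_le_mul_of_nonneg_left hm2 (by positivity)
            linarith
        _ = 4 * |C| / θ * m := by rw [hb]; ring
        _ ≤ _ := mul_le_mul_of_nonneg_right (le_max_right _ _) (Nat.cast_nonneg m)

end Vale.Agent.P160R
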