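import Vale.Agent.P160R.Local
import Vale.Agent.P160R.Column
import Vale.Agent.P160R.Code.Count

/-!
# A small family of almost integral lattices containing all candidate columns
-/

namespace Vale.Agent.P160R

open Finset Matrix Filter
open scoped Classical

/-- All budgeted isotropic columns lie in `2^{ω + o(m)}` lattices of small weight. -/
theorem exists_code (ε C : ℝ) (hε : 0 < ε) (hC : 0 < C) :
    ∃ (C' : ℝ) (N : ℕ), 0 < C' ∧ ∀ (ι : Type) [Fintype ι] [DecidableEq ι] (B : Matrix ι ι ℤ),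
      N ≤ Fintype.card ι → IsSign B → B.det ≠ 0 → FewSmallClasses B →
      ∃ S : Finset (AddSubgroup (ι → ℤ)),
        (S.card : ℝ) ≤ (2 : ℝ) ^ (ε * Fintype.card ι + ((hypPrimes ε B).card : ℝ)) ∧
        (∀ L ∈ S, LatW B (C' * Fintype.card ι) L) ∧
        ∀ x : ι → Bool, (qForm B (signVec x) (signVec x)).den = 1 → Budget C B (signVec x) →
          ∃ L ∈ S, signVec x ∈ L := by
  have hl2 : 0 < Real.log 2 := Real.log_pos (by norm_num)
  set A : ℝ := 15 / (2 * ε * Real.log 2) + 1
  have hfrac : 0 ≤ 15 / (2 * ε * Real.log 2) := by positivity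
  have hA1 : 1 ≤ A := by simp only [A]; linarith
  have hA0 : 0 < A := by linarith
  have hlA : 0 ≤ Real.log A := Real.log_nonneg hA1
  set η : ℝ := (A ^ 3)⁻¹
  have hη : 0 < η := by positivity
  have hη1 : η ≤ 1 := inv_le_one_of_one_le₀ (one_le_pow₀ hA1)
  obtain ⟨N₀, hN₀⟩ := eventually_atTop.1 ((codeErr_small ε (3 * Real.log A * C) hε).eventually_le_const
    (show (0 : ℝ) < ε * Real.log 2 / 2 by positivity))
  refine ⟨8 * C + 1, max N₀ 4, by linarith, fun ι _ _ B hN hS hd hF => ?_⟩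
  set m := Fintype.card ι
  have hm4 : 4 ≤ m := le_trans (le_max_right _ _) hN
  have hm : (4 : ℝ) ≤ m := by exact_mod_cast hm4
  set D := B.det.natAbs
  set P := D.primeFactors
  choose Os hOsc hOsx using fun p : P => exists_special_options hS hd (Nat.prime_of_mem_primeFactors p.2)
  choose On hOnc hOni hOnx using fun p : P =>
    exists_plain_options hS hd hm4 hF (Nat.prime_of_mem_primeFactors p.2)
  set k := ⌊C * m / Real.log m⌋₊
  set O : Finset ℕ → P → Finset (AddSubgroup (ι → ℤ)) :=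
    fun T p => if p.1 ∈ T then Os p else On p
  set S : Finset (AddSubgroup (ι → ℤ)) :=
    ((P.powerset.filter fun T => T.card ≤ k).biUnion fun T =>
      (Fintype.piFinset (O T)).image fun φ => ⨅ p, φ p).filter fun L => LatW B ((8 * C + 1) * m) L
  have hlm1 : 1 ≤ Real.log m := by
    rw [Real.le_log_iff_exp_le (by linarith)]
    linarith [Real.exp_one_lt_three]
  refine ⟨S, ?_, fun L hL => (mem_filter.1 hL).2, fun x hx hbud => ?_⟩
  · refine (Nat.cast_le.2 ((card_filter_le _ _).trans card_biUnion_le)).trans ?_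
    push_cast
    have hprod : ∀ T ∈ P.powerset.filter (fun T => T.card ≤ k),
        (((Fintype.piFinset (O T)).image fun φ => ⨅ p, φ p).card : ℝ) ≤
          (∏ p ∈ T, ((padicValNat p D : ℝ) + 1) ^ 2) * ∏ p ∈ P \ T, optBound B p := by
      intro T hT
      have hTP : T ⊆ P := mem_powerset.1 (mem_filter.1 hT).1
      refine (Nat.cast_le.2 card_image_le).trans ?_
      rw [Fintype.card_piFinset, Nat.cast_prod]
      set g : ℕ → ℝ := fun p => if p ∈ T then ((padicValNat p D : ℝ) + 1) ^ 2 else optBound B p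
      refine (Finset.prod_le_prod (g := fun p : P => g p) (fun p _ => Nat.cast_nonneg _)
        fun p _ => ?_).trans (le_of_eq ?_)
      · simp only [O, g]
        split_ifs
        · exact_mod_cast hOsc p
        · exact hOnc p
      · rw [Finset.prod_coe_sort P g, ← Finset.prod_sdiff hTP, mul_comm]
        exact congrArg₂ (· * ·) (Finset.prod_congr rfl fun p hp => if_pos hp)
          (Finset.prod_congr rfl fun p hp => if_neg (mem_sdiff.1 hp).2)
    refine (Finset.sum_le_sum hprod).trans ((sum_powerset_small_le P _ _ (fun p => by positivity)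
      (fun p => by unfold optBound; split_ifs <;> positivity) η hη hη1 k).trans ?_)
    have hηA : η * A ^ 2 ≤ 1 / A := le_of_eq (by simp only [η]; field_simp)
    refine (mul_le_mul_of_nonneg_left (prod_options_le hS hd hm4 ε A η hA1 hη hηA)
      (pow_nonneg (inv_nonneg.2 hη.le) _)).trans ?_
    have hpow : (η⁻¹) ^ k = Real.exp (k * (3 * Real.log A)) := by
      rw [Real.exp_nat_mul, show (3 : ℝ) = ((3 : ℕ) : ℝ) by norm_num, Real.exp_nat_mul,
        Real.exp_log hA0]
      simp [η]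
    have hk : (k : ℝ) ≤ C * m / Real.log m := Nat.floor_le (by positivity)
    have hE := hN₀ m (le_trans (le_max_left _ _) hN)
    rw [div_le_iff₀ (by linarith), codeErr] at hE
    have hk' : (k : ℝ) * (3 * Real.log A) ≤ 3 * Real.log A * C * m / Real.log m := by
      refine (mul_le_mul_of_nonneg_right hk (by positivity)).trans (le_of_eq ?_)
      ring
    have hA15 : 15 / (4 * A) * m ≤ ε * Real.log 2 / 2 * m := by
      refine mul_le_mul_of_nonneg_right ?_ (by linarith)
      rw [div_le_iff₀ (by positivity)]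
      have : (15 / (2 * ε * Real.log 2)) * (2 * ε * Real.log 2) = 15 :=
        div_mul_cancel₀ _ (by positivity)
      simp only [A]
      nlinarith [mul_pos hε hl2]
    rw [hpow, ← Real.exp_add, Real.rpow_def_of_pos (show (0 : ℝ) < 2 by norm_num)]
    refine Real.exp_le_exp.2 ?_
    nlinarith
  set T := specialPrimes B (signVec x)
  obtain ⟨hord, -⟩ := column_isCand B hS.1 hd _ hx
  have hTP : T ⊆ P := fun p hp => by
    obtain ⟨hp1, hp2, -⟩ := Nat.mem_primeFactors.1 (mem_filter.1 hp).1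
    exact Nat.mem_primeFactors.2 ⟨hp1, hp2.trans (Nat.div_dvd_of_dvd hord),
      Int.natAbs_ne_zero.2 hd⟩
  have hTk : T.card ≤ k := Nat.le_floor hbud.1
  set nn : ℕ → ℕ := fun p =>
    if p ∈ T then 2 * p ^ (3 * padicValNat p (clsCof B (signVec x))) else 1
  have hchoice : ∀ p : P, ∃ K ∈ O T p, signVec x ∈ K ∧ ∃ E : AddSubgroup (ι → ℤ),
      IsoAt B p E ∧ E.relIndex K ≠ 0 ∧ E.relIndex K ≤ nn p := by
    intro p
    by_cases hpT : p.1 ∈ T
    · simp only [O, nn, if_pos hpT]
      exact hOsx p x hx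
    · simp only [O, nn, if_neg hpT]
      obtain ⟨K, hK, hxK⟩ := hOnx p x hx hpT
      exact ⟨K, hK, hxK, K, hOni p K hK, by simp, by simp⟩
  choose K hK hxK E hE hE0 hEn using hchoice
  refine ⟨⨅ p, K p, mem_filter.2 ⟨mem_biUnion.2 ⟨T, mem_filter.2 ⟨mem_powerset.2 hTP, hTk⟩,
    mem_image.2 ⟨K, Fintype.mem_piFinset.2 hK, rfl⟩⟩, ?_⟩, AddSubgroup.mem_iInf.2 hxK⟩
  refine latW_of_local hd _ nn _ ?_ fun p hp =>
    ⟨K ⟨p, hp⟩, E ⟨p, hp⟩, iInf_le _ _, hE ⟨p, hp⟩, hE0 ⟨p, hp⟩, hEn ⟨p, hp⟩⟩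
  have hsum : ∑ p ∈ P, Real.log (nn p) =
      ∑ p ∈ T, (Real.log 2 + 3 * ((padicValNat p (clsCof B (signVec x)) : ℝ) * Real.log p)) := by
    rw [← Finset.sum_sdiff hTP, Finset.sum_eq_zero fun p hp => by
      simp [nn, (mem_sdiff.1 hp).2], zero_add]
    refine Finset.sum_congr rfl fun p hp => ?_
    have hp0 : (p : ℝ) ≠ 0 := by
      exact_mod_cast (Nat.prime_of_mem_primeFactors (hTP hp)).ne_zero
    simp only [nn, if_pos hp, Nat.cast_mul, Nat.cast_pow, Nat.cast_ofNat]
    rw [Real.log_mul (by norm_num) (pow_ne_zero _ hp0), Real.log_pow]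
    push_cast; ring
  rw [hsum, sum_add_distrib, sum_const, nsmul_eq_mul, ← Finset.mul_sum]
  have h1 : (T.card : ℝ) * Real.log 2 ≤ C * m := by
    have hcl : (T.card : ℝ) ≤ C * m := hbud.1.trans (div_le_self (by positivity) hlm1)
    have hl1 : Real.log 2 ≤ 1 := by linarith [Real.log_le_sub_one_of_pos (show (0 : ℝ) < 2 by norm_num)]
    calc (T.card : ℝ) * Real.log 2 ≤ T.card * 1 :=
          mul_le_mul_of_nonneg_left hl1 (Nat.cast_nonneg _)
      _ ≤ _ := by rw [mul_one]; exact hcl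
  have h2 : 3 * ∑ p ∈ T, (padicValNat p (clsCof B (signVec x)) : ℝ) * Real.log p ≤ 3 * (C * m) :=
    mul_le_mul_of_nonneg_left hbud.2 (by norm_num)
  have h3 : (0 : ℝ) ≤ m := Nat.cast_nonneg _
  nlinarith

end Vale.Agent.P160R
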