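import Vale.Agent.P160R.Local.Cyclic

/-!
# The local lemma: isotropic cyclic classes
-/

namespace Vale.Agent.P160R

open Matrix

variable {ι : Type} [Fintype ι] [DecidableEq ι]

section

variable {B : Matrix ι ι ℤ} {p : ℕ}

/-- Pairing of two decomposed vectors. -/
theorem pairing_expand (hB : B.IsSymm) (hd : B.det ≠ 0) (hp : p.Prime) {x₁ : ι → ℤ}
    (h₁ : PInt p (qForm B x₁ x₁)) (i : ι) (K α K' α' : ℤ) (u u' : ι → ℤ) :
    PInt p (qForm B (K • Pi.single i 1 + α • x₁ + B.mulVec u)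
        (K' • Pi.single i 1 + α' • x₁ + B.mulVec u') -
      ((K : ℚ) * K' * qVec B (Pi.single i 1) i + ((K : ℚ) * α' + K' * α) * qVec B x₁ i)) := by
  have hy : qForm B x₁ (Pi.single i 1) = qVec B x₁ i := by
    rw [qForm_symm hB, qForm_single_left]
  have hu : ∀ r, qForm B (B.mulVec u) r = ((r ⬝ᵥ u : ℤ) : ℚ) := fun r => by
    rw [qForm_symm hB, qForm_mulVec_right hd]
  simp only [qForm_add_left, qForm_smul_left]
  simp only [qForm_add_right, qForm_smul_right]
  simp only [hy, qForm_single_left, hu, qForm_mulVec_right hd, qVec_mulVec hd,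
    single_dotProduct, one_mul]
  set b := qForm B x₁ x₁
  have hint : ∀ a : ℤ, PInt p (a : ℚ) := pInt_intCast hp
  convert (((hint (α * α')).mul hp h₁).add hp
    (hint (K * u' i + α * (x₁ ⬝ᵥ u') + K' * u i + α' * (x₁ ⬝ᵥ u) +
      B.mulVec u' ⬝ᵥ u))) using 1
  push_cast
  ring

/-- Decomposition of any vector along a candidate. -/
theorem cand_decomp (hB : B.IsSymm) (hp : p.Prime) {γ f : ℕ} {x₁ : ι → ℤ}
    (h₁ : IsCand B p γ f x₁) {i : ι} (hi : pExp p (qVec B x₁ i) = f) (r : ι → ℤ) :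
    ∃ (t k α : ℤ) (u : ι → ℤ), ¬ (p : ℤ) ∣ t ∧
      PInt p (qForm B x₁ r - k * qVec B x₁ i) ∧
      (t * (p : ℤ) ^ γ) • r =
        (t * (p : ℤ) ^ γ * k) • Pi.single i 1 + α • x₁ + B.mulVec u ∧
      (pExp p (qForm B x₁ r) = 0 → k = 0) := by
  obtain ⟨-, -, hle, -, hsolve⟩ := h₁
  have hy : qForm B x₁ (Pi.single i 1) = qVec B x₁ i := by
    rw [qForm_symm hB, qForm_single_left]
  have hβ : pExp p (qForm B x₁ r) ≤ f := by
    rw [qForm_symm hB]; exact pExp_qForm_le hp hle r
  obtain ⟨k, hk, hk0⟩ : ∃ k : ℤ, PInt p (qForm B x₁ r - k * qVec B x₁ i) ∧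
      (pExp p (qForm B x₁ r) = 0 → k = 0) := by
    by_cases h0 : pExp p (qForm B x₁ r) = 0
    · exact ⟨0, by simpa using (pExp_eq_zero_iff hp _).1 h0, fun _ => rfl⟩
    · obtain ⟨k, hk⟩ := exists_int_cancel hp hi hβ
      exact ⟨k, hk, fun h => absurd h h0⟩
  have hr : PInt p (qForm B x₁ (r + (-k) • Pi.single i 1)) := by
    rw [qForm_add_right, qForm_smul_right, hy]
    push_cast
    rw [neg_mul, ← sub_eq_add_neg]
    exact hk
  obtain ⟨t, α, u, ht, he⟩ := hsolve _ hr
  refine ⟨t, k, α, u, ht, hk, ?_, hk0⟩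
  funext l
  have := congrFun he l
  simp only [Pi.smul_apply, Pi.add_apply, smul_eq_mul] at this ⊢
  linear_combination this

/-- The valuation of the multiple is read off the pairing. -/
theorem mult_valuation (hp : p.Prime) {f : ℕ} {y β : ℚ} (hy : pExp p y = f) {k : ℤ}
    (hk : PInt p (β - k * y)) (he : pExp p β ≠ 0) :
    ∃ k₀ : ℤ, ¬ (p : ℤ) ∣ k₀ ∧ k = (p : ℤ) ^ (f - pExp p β) * k₀ := by
  have hky : pExp p ((k : ℚ) * y) = pExp p β := by
    have := pExp_add_pInt hp ((k : ℚ) * y) hk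
    rwa [add_sub_cancel, eq_comm] at this
  set e := pExp p β
  have hef : e ≤ f := by
    rw [← hky, pExp_le_iff hp, mul_left_comm]
    exact (pInt_intCast hp k).mul hp ((pExp_le_iff hp y f).1 hy.le)
  have hp' : Prime (p : ℤ) := Nat.prime_iff_prime_int.1 hp
  have h1 : (p : ℤ) ^ f ∣ (p : ℤ) ^ e * k := by
    refine pow_dvd_of_pInt hp hy ?_
    have := (pExp_le_iff hp _ e).1 hky.le
    push_cast
    rwa [mul_assoc]
  rw [show f = e + (f - e) by omega, pow_add] at h1
  obtain ⟨k₀, hk₀⟩ := Int.dvd_of_mul_dvd_mul_left (pow_ne_zero _ hp'.ne_zero) h1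
  refine ⟨k₀, fun hd => ?_, hk₀⟩
  obtain ⟨k₁, rfl⟩ := hd
  have : pExp p ((k : ℚ) * y) ≤ e - 1 := by
    rw [pExp_le_iff hp, hk₀]
    have h2 := (pInt_intCast hp k₁).mul hp ((pExp_le_iff hp y f).1 hy.le)
    convert h2 using 1
    push_cast
    rw [show f = e - 1 + ((f - e) + 1) by omega, pow_add (p : ℚ) (e - 1), pow_succ,
      show e - 1 + (f - e + 1) - e = f - e by omega]
    ring
  omega

end

/-- Two candidates with the same exponent against a third one pair almost integrally. -/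
theorem same_class_pairing {B : Matrix ι ι ℤ} (hB : B.IsSymm) (hd : B.det ≠ 0) {p γ f : ℕ}
    (hp : p.Prime) {x₁ x y : ι → ℤ} (h₁ : IsCand B p γ f x₁) (hx : IsCand B p γ f x)
    (hy : IsCand B p γ f y) (h : pExp p (qForm B x₁ x) = pExp p (qForm B x₁ y)) :
    PInt p (2 * (p : ℚ) ^ (2 * γ) * qForm B x y) := by
  rcases Nat.eq_zero_or_pos f with hf | hf
  · have h0 : PInt p (qForm B x y) := by
      rw [← pExp_eq_zero_iff hp]
      have := pExp_qForm_le hp hy.2.2.1 x
      omega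
    have := (pInt_intCast hp (2 * (p : ℤ) ^ (2 * γ))).mul hp h0
    simpa using this
  obtain ⟨i, hi⟩ : ∃ i, pExp p (qVec B x₁ i) = f :=
    h₁.2.2.2.1.resolve_left (by omega)
  obtain ⟨t, k, α, u, ht, hk, he, hk0⟩ := cand_decomp hB hp h₁ hi x
  obtain ⟨t', k', α', u', ht', hk', he', hk0'⟩ := cand_decomp hB hp h₁ hi y
  set c : ℤ := (p : ℤ) ^ γ
  set K := t * c * k with hK
  set K' := t' * c * k' with hK'
  have hexp := pairing_expand hB hd hp h₁.1 i K α K' α' u u'
  have hxx := pairing_expand hB hd hp h₁.1 i K α K α u u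
  have hyy := pairing_expand hB hd hp h₁.1 i K' α' K' α' u' u'
  rw [← he, ← he', qForm_smul_left, qForm_smul_right] at hexp
  rw [← he, qForm_smul_left, qForm_smul_right] at hxx
  rw [← he', qForm_smul_left, qForm_smul_right] at hyy
  set q := qVec B (Pi.single i 1) i
  set Y := qVec B x₁ i
  have hint : ∀ a : ℤ, PInt p (a : ℚ) := pInt_intCast hp
  have hxx' : PInt p ((K : ℚ) * K * q + ((K : ℚ) * α + K * α) * Y) := by
    have := (((hint (t * c)).mul hp ((hint (t * c)).mul hp hx.1))).sub hp hxx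
    convert this using 1; ring
  have hyy' : PInt p ((K' : ℚ) * K' * q + ((K' : ℚ) * α' + K' * α') * Y) := by
    have := (((hint (t' * c)).mul hp ((hint (t' * c)).mul hp hy.1))).sub hp hyy
    convert this using 1; ring
  have hmain : PInt p (2 * ((K : ℚ) * K' * q + ((K : ℚ) * α' + K' * α) * Y)) := by
    by_cases h0 : pExp p (qForm B x₁ x) = 0
    · have : K = 0 := by simp [hK, hk0 h0]
      have : K' = 0 := by simp [hK', hk0' (h ▸ h0)]
      rw [‹K = 0›, ‹K' = 0›]
      simpa using pInt_zero hp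
    obtain ⟨a, ha, hka⟩ := mult_valuation hp hi hk h0
    obtain ⟨a', ha', hka'⟩ := mult_valuation hp hi hk' (h ▸ h0)
    rw [← h] at hka'
    have hp' : Prime (p : ℤ) := Nat.prime_iff_prime_int.1 hp
    have e1 : (t * a) * K' = (t' * a') * K := by rw [hK, hK', hka, hka']; ring
    have hu : ¬ (p : ℤ) ∣ (t * a) * (t' * a') := fun hh => by
      rcases hp'.dvd_mul.1 hh with h2 | h2
      · exact (hp'.dvd_mul.1 h2).elim ht ha
      · exact (hp'.dvd_mul.1 h2).elim ht' ha'
    refine pInt_of_mul hp hu ?_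
    have hsum := ((hint ((t' * a') * (t' * a'))).mul hp hxx').add hp
      ((hint ((t * a) * (t * a))).mul hp hyy')
    convert hsum using 1
    have e1' : (t : ℚ) * a * K' = (t' : ℚ) * a' * K := by exact_mod_cast e1
    push_cast
    linear_combination (((t' : ℚ) * a' * K * q - (t : ℚ) * a * K' * q) +
      2 * Y * ((t' : ℚ) * a' * α - (t : ℚ) * a * α')) * e1'
  have hc : PInt p (((t * t' : ℤ) : ℚ) * (2 * (p : ℚ) ^ (2 * γ) * qForm B x y)) := by
    have := ((hint 2).mul hp hexp).add hp hmain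
    convert this using 1
    simp only [c]
    push_cast
    ring
  exact pInt_of_mul hp
    (fun hh => ((Nat.prime_iff_prime_int.1 hp).dvd_mul.1 hh).elim ht ht') hc

/-- For odd `p` and `γ = 0` the exponent takes at most two values. -/
theorem two_classes {B : Matrix ι ι ℤ} (hB : B.IsSymm) (hd : B.det ≠ 0) {p f : ℕ}
    (hp : p.Prime) (hp2 : p ≠ 2) {x₁ : ι → ℤ} (h₁ : IsCand B p 0 f x₁) :
    ∃ v : ℕ, ∀ x, IsCand B p 0 f x → pExp p (qForm B x₁ x) = 0 ∨ pExp p (qForm B x₁ x) = v := by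
  rcases Nat.eq_zero_or_pos f with hf | hf
  · refine ⟨0, fun x hx => Or.inl ?_⟩
    have := pExp_qForm_le hp hx.2.2.1 x₁
    omega
  obtain ⟨i, hi⟩ : ∃ i, pExp p (qVec B x₁ i) = f := h₁.2.2.2.1.resolve_left (by omega)
  set q := qVec B (Pi.single i 1) i
  set Y := qVec B x₁ i
  set d := pExp p q
  refine ⟨f - (d - f), fun x hx => ?_⟩
  by_cases h0 : pExp p (qForm B x₁ x) = 0
  · exact Or.inl h0
  right
  set e := pExp p (qForm B x₁ x)
  have hef : e ≤ f := by
    simp only [e, qForm_symm hB x₁ x]; exact pExp_qForm_le hp h₁.2.2.1 x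
  obtain ⟨t, k, α, u, ht, hk, he, -⟩ := cand_decomp hB hp h₁ hi x
  obtain ⟨a, ha, hka⟩ := mult_valuation hp hi hk h0
  have hint : ∀ z : ℤ, PInt p (z : ℚ) := pInt_intCast hp
  have hp' : Prime (p : ℤ) := Nat.prime_iff_prime_int.1 hp
  simp only [pow_zero, mul_one] at he
  set K := t * k with hK
  set v := f - e with hv
  have hKv : K = t * a * (p : ℤ) ^ v := by rw [hK, hka]; ring
  have hta : ¬ (p : ℤ) ∣ t * a := fun h => (hp'.dvd_mul.1 h).elim ht ha
  have hxx := pairing_expand hB hd hp h₁.1 i K α K α u u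
  rw [← he, qForm_smul_left, qForm_smul_right] at hxx
  have hiso : PInt p ((p : ℚ) ^ v * ((K : ℚ) * q + 2 * α * Y)) := by
    refine pInt_of_mul hp hta ?_
    have := (((hint t).mul hp ((hint t).mul hp hx.1))).sub hp hxx
    convert this using 1
    rw [hKv]
    push_cast
    ring
  have hY : PInt p ((p : ℚ) ^ f * Y) := (pExp_le_iff hp Y f).1 hi.le
  -- the exponent of `q` is at most `f + v`
  have hdle : d ≤ f + v := by
    refine (pExp_le_iff hp q _).2 (pInt_of_mul hp hta ?_)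
    rcases Nat.eq_zero_or_pos v with hv0 | hv0
    · rw [hv0] at hiso hKv ⊢
      have := ((hint ((p : ℤ) ^ f)).mul hp hiso).sub hp ((hint (2 * α)).mul hp hY)
      convert this using 1
      rw [hKv]
      push_cast
      ring
    · have hfv : f - v + v = f := by omega
      have h2 := ((hint ((p : ℤ) ^ (f - v))).mul hp hiso).sub hp ((hint (2 * α)).mul hp hY)
      convert h2 using 1
      rw [hKv, show (p : ℚ) ^ f = (p : ℚ) ^ (f - v) * (p : ℚ) ^ v by rw [← pow_add, hfv],
        show (p : ℚ) ^ (f + v) = (p : ℚ) ^ (f - v) * (p : ℚ) ^ v * (p : ℚ) ^ v by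
          rw [← pow_add, ← pow_add]; congr 1; omega]
      push_cast
      ring
  rcases Nat.eq_zero_or_pos v with hv0 | hv0
  · have : d ≤ f := by omega
    omega
  -- the coefficient of `x₁` is a unit
  have hα : ¬ (p : ℤ) ∣ α := by
    rintro ⟨α₁, rfl⟩
    obtain ⟨l, hl⟩ : ∃ l, pExp p (qVec B x l) = f := hx.2.2.2.1.resolve_left (by omega)
    obtain ⟨t₂, k₂, α₂, u₂, ht₂, -, he₂, -⟩ := cand_decomp hB hp h₁ hi (Pi.single l 1)
    simp only [pow_zero, mul_one] at he₂
    have hb := pairing_expand hB hd hp h₁.1 i (t₂ * k₂) α₂ K ((p : ℤ) * α₁) u₂ u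
    rw [← he₂, ← he, qForm_smul_left, qForm_smul_right, qForm_single_left] at hb
    have hle : pExp p (qVec B x l) ≤ f - 1 := by
      refine (pExp_le_iff hp _ _).2 (pInt_of_mul hp
        (fun h => (hp'.dvd_mul.1 h).elim ht₂ ht) ?_)
      have hppow : (p : ℚ) * (p : ℚ) ^ (f - 1) = (p : ℚ) ^ f := by
        rw [← pow_succ']; congr 1; omega
      have hY' : PInt p ((p : ℚ) ^ (f - 1) * (((p : ℤ) * α₁ : ℤ) : ℚ) * Y) := by
        have := (hint α₁).mul hp hY
        convert this using 1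
        rw [← hppow]; push_cast; ring
      have hKY : PInt p ((p : ℚ) ^ (f - 1) * (K : ℚ) * Y) := by
        have := (hint (t * a * (p : ℤ) ^ (v - 1))).mul hp hY
        convert this using 1
        rw [hKv, ← hppow, show (p : ℤ) ^ v = (p : ℤ) ^ (v - 1) * p by
          rw [← pow_succ]; congr 1; omega]
        push_cast; ring
      have hiso' : PInt p ((p : ℚ) ^ (f - 1) * ((K : ℚ) * q + 2 * (((p : ℤ) * α₁ : ℤ) : ℚ) * Y)) := by
        have := (hint ((p : ℤ) ^ (f - 1 - v))).mul hp hiso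
        convert this using 1
        push_cast
        rw [show (p : ℚ) ^ (f - 1) = (p : ℚ) ^ (f - 1 - v) * (p : ℚ) ^ v by
          rw [← pow_add]; congr 1; omega]
        ring
      have hKq : PInt p ((p : ℚ) ^ (f - 1) * (K : ℚ) * q) := by
        have := hiso'.sub hp ((hint 2).mul hp hY')
        convert this using 1
        push_cast; ring
      have := ((hint ((p : ℤ) ^ (f - 1))).mul hp hb).add hp
        ((((hint (t₂ * k₂)).mul hp hKq).add hp ((hint (t₂ * k₂)).mul hp hY')).add hp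
          ((hint α₂).mul hp hKY))
      convert this using 1
      push_cast; ring
    omega
  have h2α : ¬ (p : ℤ) ∣ 2 * α := fun h => (hp'.dvd_mul.1 h).elim
    (fun h2 => hp2 ((Nat.prime_dvd_prime_iff_eq hp Nat.prime_two).1
      (Int.natCast_dvd_natCast.1 (by exact_mod_cast h2)))) hα
  have hdge : f + v ≤ d := by
    by_contra hlt
    have hq' : PInt p ((p : ℚ) ^ (f - 1 + v) * q) :=
      (pExp_le_iff hp q _).1 (show d ≤ f - 1 + v by omega)
    have hY1 : PInt p ((p : ℚ) ^ (f - 1) * Y) := by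
      refine pInt_of_mul hp h2α ?_
      have hKq : PInt p ((p : ℚ) ^ (f - 1) * (K : ℚ) * q) := by
        have := (hint (t * a)).mul hp hq'
        convert this using 1
        rw [hKv, pow_add]; push_cast; ring
      have hiso' : PInt p ((p : ℚ) ^ (f - 1) * ((K : ℚ) * q + 2 * α * Y)) := by
        have := (hint ((p : ℤ) ^ (f - 1 - v))).mul hp hiso
        convert this using 1
        push_cast
        rw [show (p : ℚ) ^ (f - 1) = (p : ℚ) ^ (f - 1 - v) * (p : ℚ) ^ v by
          rw [← pow_add]; congr 1; omega]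
        ring
      have := hiso'.sub hp hKq
      convert this using 1
      push_cast; ring
    have := (pExp_le_iff hp Y (f - 1)).2 hY1
    omega
  omega

/-- A candidate with `γ = 0` leaves one class unless the corank is exactly two. -/
theorem one_class {B : Matrix ι ι ℤ} (hB : B.IsSymm) (hd : B.det ≠ 0) {p f : ℕ}
    (hp : p.Prime) {x₁ x : ι → ℤ} (h₁ : IsCand B p 0 f x₁) (hx : IsCand B p 0 f x)
    (hc : corankMod p B ≠ 2) : PInt p (qForm B x₁ x) := by
  haveI : Fact p.Prime := ⟨hp⟩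
  rcases Nat.eq_zero_or_pos f with hf | hf
  · have := pExp_qForm_le hp hx.2.2.1 x₁
    exact (pExp_eq_zero_iff hp _).1 (by omega)
  obtain ⟨i, hi⟩ : ∃ i, pExp p (qVec B x₁ i) = f := h₁.2.2.2.1.resolve_left (by omega)
  by_cases hle1 : corankMod p B ≤ 1
  · obtain ⟨a, ha⟩ := mem_cyclic hd hp hle1 hf h₁.2.2.1 ⟨i, hi⟩ f le_rfl x hx.2.2.1
    have h1 : PInt p (qForm B x₁ x - a * qForm B x₁ x₁) := by
      rw [qForm, qForm, dotProduct, dotProduct, Finset.mul_sum, ← Finset.sum_sub_distrib]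
      refine pInt_sum hp _ _ fun l _ => ?_
      have := (pInt_intCast hp (x₁ l)).mul hp (ha l)
      convert this using 1
      ring
    have := h1.add hp ((pInt_intCast hp a).mul hp h₁.1)
    simpa using this
  exfalso
  refine hc (le_antisymm ?_ (by omega))
  rw [corankMod_eq hp]
  by_contra hgt
  obtain ⟨g, hg⟩ := exists_linearIndependent_of_le_finrank (n := 3) (not_le.1 hgt)
  have hlift : ∀ j, ∃ v : ι → ℤ, (fun l => (v l : ZMod p)) = (g j).1 := fun j =>
    ⟨fun l => ((g j).1 l).cast, funext fun l => by simp⟩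
  choose v hv using hlift
  have hvB : ∀ j l, (p : ℤ) ∣ B.mulVec (v j) l := fun j l =>
    dvd_of_mem_ker (v j) (by rw [hv j]; exact (g j).2) l
  choose r hr using hvB
  choose t k α u ht hk he hk0 using fun j => cand_decomp hB hp h₁ hi (r j)
  -- a primitive relation between the three pairs of coefficients
  obtain ⟨c, hc0, hcrel⟩ : ∃ c : Fin 3 → ℤ, c ≠ 0 ∧
      (Matrix.of ![fun j => t j * k j, fun j => α j, fun _ => 0]).mulVec c = 0 :=
    Matrix.exists_mulVec_eq_zero_iff.2 (Matrix.det_eq_zero_of_row_eq_zero 2 fun j => by simp)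
  obtain ⟨j₀, hj₀⟩ := Function.ne_iff.1 hc0
  obtain ⟨e, hce, hgcd⟩ := Finset.extract_gcd c ⟨j₀, Finset.mem_univ j₀⟩
  have hgne : Finset.univ.gcd c ≠ 0 := fun h0 =>
    hj₀ (Finset.gcd_eq_zero_iff.1 h0 j₀ (Finset.mem_univ _))
  have hrel : ∀ F : Fin 3 → ℤ, ∑ j, F j * c j = 0 → ∑ j, F j * e j = 0 := by
    intro F hF
    have : Finset.univ.gcd c * ∑ j, F j * e j = 0 := by
      rw [Finset.mul_sum, ← hF]
      refine Finset.sum_congr rfl fun j hj => ?_
      rw [hce j hj]; ring
    exact (mul_eq_zero.1 this).resolve_left hgne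
  have hrK := hrel (fun j => t j * k j) (by simpa [Matrix.mulVec, dotProduct] using congrFun hcrel 0)
  have hrα := hrel α (by simpa [Matrix.mulVec, dotProduct] using congrFun hcrel 1)
  have hvr : ∀ j l, (p : ℚ) * qVec B (r j) l = v j l := by
    intro j l
    have : B.mulVec (v j) = (p : ℤ) • r j := funext fun s => by simpa using hr j s
    have h2 := qVec_mulVec hd (v j) l
    rw [this, qVec_smul] at h2
    simpa using h2
  have hsum : ∀ l, (p : ℤ) ∣ ∑ j, e j * t j * v j l := by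
    intro l
    refine ⟨∑ j, e j * u j l, ?_⟩
    have hq : ∀ j, (t j : ℚ) * qVec B (r j) l =
        ((t j * k j : ℤ) : ℚ) * qVec B (Pi.single i 1) l + (α j : ℚ) * qVec B x₁ l + u j l := by
      intro j
      have := congrFun (congrArg (qVec B) (he j)) l
      simp only [pow_zero, mul_one, qVec_add, qVec_smul, Pi.add_apply, Pi.smul_apply, smul_eq_mul,
        qVec_mulVec hd] at this
      exact this
    have hK : (∑ j, ((t j * k j : ℤ) : ℚ) * (e j : ℚ)) = 0 := by exact_mod_cast hrK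
    have hA : (∑ j, (α j : ℚ) * (e j : ℚ)) = 0 := by exact_mod_cast hrα
    have : ((∑ j, e j * t j * v j l : ℤ) : ℚ) = ((p * ∑ j, e j * u j l : ℤ) : ℚ) := by
      push_cast
      simp only [Fin.sum_univ_three] at hK hA ⊢
      rw [← hvr 0, ← hvr 1, ← hvr 2]
      linear_combination (p : ℚ) * e 0 * hq 0 + (p : ℚ) * e 1 * hq 1 + (p : ℚ) * e 2 * hq 2 +
        (p : ℚ) * qVec B (Pi.single i 1) l * hK + (p : ℚ) * qVec B x₁ l * hA
    exact_mod_cast this
  have hzero : ∀ j, ((e j * t j : ℤ) : ZMod p) = 0 := by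
    refine Fintype.linearIndependent_iff.1 hg (fun j => ((e j * t j : ℤ) : ZMod p)) ?_
    refine Subtype.ext (funext fun l => ?_)
    have h := (ZMod.intCast_zmod_eq_zero_iff_dvd _ _).2 (hsum l)
    simp only [AddSubmonoidClass.coe_finsetSum, Finset.sum_apply, SetLike.val_smul,
      Pi.smul_apply, smul_eq_mul, ZeroMemClass.coe_zero, Pi.zero_apply, ← hv]
    exact_mod_cast h
  have hdvd : (p : ℤ) ∣ Finset.univ.gcd e := Finset.dvd_gcd fun j _ =>
    ((Nat.prime_iff_prime_int.1 hp).dvd_mul.1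
      ((ZMod.intCast_zmod_eq_zero_iff_dvd _ _).1 (hzero j))).resolve_right (ht j)
  rw [hgcd] at hdvd
  exact hp.ne_one (by exact_mod_cast Int.eq_one_of_dvd_one (by positivity) hdvd)

end Vale.Agent.P160R
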