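import Vale.Agent.P160R.RevMink
import Vale.Agent.P160R.Cover.Gram

/-!
# Short vectors lie in few translates of one sublattice of small determinant
-/

namespace Vale.Agent.P160R

open Matrix

/-- Integer vectors whose classes form a basis of the lattice of the quotient by the span of `Z`. -/
lemma exists_complement {d r : ℕ} (Z : Matrix (Fin d) (Fin r) ℤ)
    (hZ : Function.Injective (toQ Z).mulVec) :
    ∃ (e : ℕ) (Y : Matrix (Fin d) (Fin e) ℤ),
      (∀ {ρ : Type} [Fintype ρ] (M : Matrix (Fin e) ρ ℤ),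
        Function.Injective (toQ M).mulVec →
          Function.Injective (toQ (fromCols Z (Y * M))).mulVec) ∧
      ∀ v : Fin d → ℤ, ∃ a : Fin e → ℤ, (fun i => ((v i - Y.mulVec a i : ℤ) : ℚ)) ∈
        Submodule.span ℚ (Set.range fun c i => (Z i c : ℚ)) := by
  classical
  set W : Submodule ℚ (Fin d → ℚ) := Submodule.span ℚ (Set.range fun c i => (Z i c : ℚ)) with hW
  have hW' : W = LinearMap.range (toQ Z).mulVecLin := by
    rw [Matrix.range_mulVecLin]; rfl
  let castL : (Fin d → ℤ) →ₗ[ℤ] (Fin d → ℚ) :=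
    { toFun := fun v i => (v i : ℚ)
      map_add' := fun a b => by funext i; simp
      map_smul' := fun a b => by funext i; simp }
  let π : (Fin d → ℤ) →ₗ[ℤ] ((Fin d → ℚ) ⧸ W) := (W.mkQ.restrictScalars ℤ).comp castL
  have : Module.Finite ℤ (LinearMap.range π) := Module.Finite.range π
  have : IsAddTorsionFree ((Fin d → ℚ) ⧸ W) := .of_module_rat _
  have : Module.IsTorsionFree ℤ (LinearMap.range π) :=
    (LinearMap.range π).subtype_injective.moduleIsTorsionFree _ (map_smul _)
  set bas := Module.finBasis ℤ (LinearMap.range π)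
  set e := Module.finrank ℤ (LinearMap.range π) with he
  choose y hy using fun c => LinearMap.mem_range.1 (bas c).2
  set Y : Matrix (Fin d) (Fin e) ℤ := Matrix.of fun i c => y c i with hY
  have hπY : ∀ q : Fin e → ℚ, W.mkQ ((toQ Y).mulVec q) = ∑ c, q c • π (y c) := by
    intro q
    have h1 : (toQ Y).mulVec q = ∑ c, q c • castL (y c) := by
      funext i
      simp [mulVec, dotProduct, toQ, hY, castL, Finset.sum_apply, mul_comm]
    rw [h1, map_sum]
    simp [π]
  have hind : LinearIndependent ℚ fun c => π (y c) := by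
    refine (LinearIndependent.iff_fractionRing ℤ ℚ).1 ?_
    simp only [hy]
    exact bas.linearIndependent.map' _ (LinearMap.range π).ker_subtype
  have hYW : ∀ q, (toQ Y).mulVec q ∈ W → q = 0 := by
    intro q hq
    have h0 : ∑ c, q c • π (y c) = 0 := by
      rw [← hπY]; exact (Submodule.Quotient.mk_eq_zero W).2 hq
    funext c
    exact Fintype.linearIndependent_iff.1 hind q h0 c
  refine ⟨e, Y, ?_, fun v => ?_⟩
  · intro ρ _ M hM u u' huu
    rw [← sub_eq_zero] at huu ⊢
    rw [← mulVec_sub] at huu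
    set v := u - u'
    rw [toQ_fromCols, fromCols_mulVec] at huu
    have hYM : toQ (Y * M) = toQ Y * toQ M := Matrix.map_mul (f := Int.castRingHom ℚ)
    rw [hYM, ← mulVec_mulVec] at huu
    have hmem : (toQ Y).mulVec ((toQ M).mulVec (v ∘ Sum.inr)) ∈ W := by
      rw [eq_neg_of_add_eq_zero_right huu]
      exact W.neg_mem (hW' ▸ LinearMap.mem_range_self _ _)
    have h2 := hYW _ hmem
    have h3 : v ∘ Sum.inr = 0 := hM (by rw [h2, mulVec_zero])
    rw [h3, mulVec_zero, mulVec_zero, add_zero] at huu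
    have h4 : v ∘ Sum.inl = 0 := hZ (by rw [huu, mulVec_zero])
    funext t
    rcases t with t | t
    · exact congrFun h4 t
    · exact congrFun h3 t
  · set a : Fin e → ℤ := fun c => bas.repr ⟨π v, LinearMap.mem_range_self π v⟩ c with ha
    have hva : (fun i => ((v i - Y.mulVec a i : ℤ) : ℚ)) ∈ W := by
      rw [← Submodule.Quotient.mk_eq_zero W]
      change π (v - Y.mulVec a) = 0
      have hsum : ∀ b : Fin e → ℤ, Y.mulVec b = ∑ c, b c • y c := by
        intro b
        funext i
        simp only [mulVec, dotProduct, hY, Matrix.of_apply, Finset.sum_apply, Pi.smul_apply,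
          smul_eq_mul]
        exact Finset.sum_congr rfl fun c _ => mul_comm _ _
      rw [map_sub, hsum, map_sum, sub_eq_zero]
      simp only [map_smul, hy]
      have := congrArg Subtype.val (bas.sum_repr ⟨π v, LinearMap.mem_range_self π v⟩)
      simp only [Submodule.coe_sum, SetLike.val_smul] at this
      exact this.symm
    exact ⟨a, hva⟩

/-- Reverse Minkowski applied to the quotient by a sublattice of maximal rank among those of
Gram determinant at most one. -/
theorem short_vectors_cover :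
    ∃ (C : ℝ) (k : ℕ), 0 < C ∧ ∀ (d : ℕ) (G : Matrix (Fin d) (Fin d) ℝ), G.PosDef →
      ∀ R : ℝ, 0 ≤ R →
        ∃ (r : ℕ) (Z : Matrix (Fin d) (Fin r) ℤ) (F : Finset (Fin d → ℤ)),
          LinearIndependent ℚ (fun c i => (Z i c : ℚ)) ∧
          ((Z.map (Int.cast : ℤ → ℝ))ᵀ * G * Z.map (Int.cast : ℤ → ℝ)).det ≤ 2 ∧
          (F.card : ℝ) ≤ Real.exp (C * Real.log (d + 2) ^ k * (R + 1)) ∧
          ∀ v : Fin d → ℤ, (fun i => (v i : ℝ)) ⬝ᵥ G.mulVec (fun i => (v i : ℝ)) ≤ R →
            ∃ y ∈ F, (fun i => ((v i - y i : ℤ) : ℚ)) ∈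
              Submodule.span ℚ (Set.range fun c i => (Z i c : ℚ)) := by
  classical
  obtain ⟨C, k, hC, hrm⟩ := reverse_minkowski
  refine ⟨C, k, hC, fun d G hG R hR => ?_⟩
  let P : ℕ → Prop := fun r => ∃ Z : Matrix (Fin d) (Fin r) ℤ,
    Function.Injective (toQ Z).mulVec ∧ ((toR Z)ᵀ * G * toR Z).det ≤ 1
  have hP0 : P 0 := ⟨0, fun x y _ => Subsingleton.elim x y, by simp⟩
  set r := Nat.findGreatest P d with hrdef
  obtain ⟨Z, hZ, hZdet⟩ : P r := Nat.findGreatest_spec (Nat.zero_le d) hP0
  have hmax : ∀ r', r < r' → ¬ P r' := by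
    intro r' hr' hP'
    obtain ⟨Z', hZ', hdet'⟩ := hP'
    have hd : r' ≤ d := by
      have := (mulVec_injective_iff.1 hZ').fintype_card_le_finrank
      simpa using this
    exact Nat.findGreatest_is_greatest hr' hd ⟨Z', hZ', hdet'⟩
  set W : Submodule ℚ (Fin d → ℚ) := Submodule.span ℚ (Set.range fun c i => (Z i c : ℚ)) with hW
  have hW' : W = LinearMap.range (toQ Z).mulVecLin := by
    rw [Matrix.range_mulVecLin]; rfl
  obtain ⟨e, Y, hpair, hdec⟩ := exists_complement Z hZ
  set A := (toR Z)ᵀ * G * toR Z with hA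
  set Bm := (toR Z)ᵀ * G * toR Y with hBm
  set Dm := (toR Y)ᵀ * G * toR Y with hDm
  have hApd : A.PosDef := hG.conjTranspose_mul_mul_same (toR_mulVec_injective Z hZ)
  set S := Dm - Bmᴴ * A⁻¹ * Bm with hS
  have hfull : (fromBlocks A Bm Bmᴴ Dm).PosDef := by
    rw [← gram_fromCols G hG.1, ← toR_fromCols]
    refine hG.conjTranspose_mul_mul_same (toR_mulVec_injective _ ?_)
    have := hpair (1 : Matrix (Fin e) (Fin e) ℤ) (by simp [toQ, Function.Injective])
    simpa using this
  have hquad : ∀ (q : Fin r → ℝ) (a : Fin e → ℝ),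
      a ⬝ᵥ S *ᵥ a ≤ Sum.elim q a ⬝ᵥ fromBlocks A Bm Bmᴴ Dm *ᵥ Sum.elim q a :=
    schur_le A Bm Dm hApd
  have hSpd : S.PosDef := schur_posDef A Bm Dm hApd hfull
  have hdet : ∀ (ρ : ℕ) (M : Matrix (Fin e) (Fin ρ) ℤ),
      LinearIndependent ℚ (fun c i => (M i c : ℚ)) →
        1 ≤ ((M.map (Int.cast : ℤ → ℝ))ᵀ * S * M.map (Int.cast : ℤ → ℝ)).det := by
    intro ρ M hM
    rcases Nat.eq_zero_or_pos ρ with rfl | hρ
    · simp
    have hMi : Function.Injective (toQ M).mulVec := mulVec_injective_iff.2 hM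
    set T := fromCols Z (Y * M) with hT
    set σ := finSumFinEquiv (m := r) (n := ρ)
    have h1 : ¬ ((toR (T.submatrix id σ.symm))ᵀ * G * toR (T.submatrix id σ.symm)).det ≤ 1 := by
      intro h
      refine hmax (r + ρ) (by omega) ⟨T.submatrix id σ.symm, ?_, h⟩
      rw [mulVec_injective_iff]
      exact (mulVec_injective_iff.1 (hpair M hMi)).comp _ σ.symm.injective
    have h2 : ((toR (T.submatrix id σ.symm))ᵀ * G * toR (T.submatrix id σ.symm))
        = ((toR T)ᵀ * G * toR T).submatrix σ.symm σ.symm := by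
      ext a b; simp [toR, Matrix.mul_apply]
    rw [h2, det_submatrix_equiv_self, hT, toR_fromCols, det_gram_fromCols G hG.1 _ _ hApd] at h1
    have hYM : toR (Y * M) = toR Y * toR M := Matrix.map_mul (f := Int.castRingHom ℝ)
    have h3 : (toR (Y * M))ᵀ * G * toR (Y * M) - ((toR Z)ᵀ * G * toR (Y * M))ᴴ * A⁻¹ *
        ((toR Z)ᵀ * G * toR (Y * M)) = (toR M)ᵀ * S * toR M := by
      simp only [hS, hDm, hBm, hYM, conjTranspose_eq_transpose_of_trivial,
        transpose_mul, Matrix.mul_sub, Matrix.sub_mul, Matrix.mul_assoc]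
    rw [h3] at h1
    have hpos : 0 < A.det := hApd.det_pos
    have hge : 0 ≤ ((toR M)ᵀ * S * toR M).det :=
      (hSpd.conjTranspose_mul_mul_same (toR_mulVec_injective M hMi)).det_pos.le
    exact ((not_le.1 h1).le.trans (mul_le_mul_of_nonneg_right hZdet hge)).trans_eq (one_mul _)
  obtain ⟨hfin, hcard⟩ := hrm e S hSpd hdet R hR
  refine ⟨r, Z, hfin.toFinset.image Y.mulVec, mulVec_injective_iff.1 hZ, hZdet.trans one_le_two,
    ?_, fun v hv => ?_⟩
  · refine le_trans (Nat.cast_le.2 Finset.card_image_le) ?_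
    rw [← Set.ncard_eq_toFinset_card _ hfin, ← Nat.card_coe_set_eq]
    refine hcard.trans (Real.exp_le_exp.2 ?_)
    have hed : e ≤ d := by
      have := (mulVec_injective_iff.1 (hpair (1 : Matrix (Fin e) (Fin e) ℤ)
        (by simp [toQ, Function.Injective]))).fintype_card_le_finrank
      simp at this
      omega
    have he0 : (0 : ℝ) ≤ e := Nat.cast_nonneg e
    have hed' : (e : ℝ) + 2 ≤ d + 2 := by linarith [(Nat.cast_le (α := ℝ)).2 hed]
    exact mul_le_mul_of_nonneg_right (mul_le_mul_of_nonneg_left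
      (pow_le_pow_left₀ (Real.log_nonneg (by linarith)) (Real.log_le_log (by linarith) hed') k)
      hC.le) (by linarith)
  · obtain ⟨a, hva⟩ := hdec v
    refine ⟨Y.mulVec a, Finset.mem_image.2 ⟨a, hfin.mem_toFinset.2 ?_, rfl⟩, hva⟩
    change _ ∈ W at hva
    rw [hW'] at hva
    obtain ⟨q, hq⟩ := hva
    simp only [Set.mem_ofPred_eq]
    have hcast : ∃ qR : Fin r → ℝ, (fun i => (v i : ℝ)) =
        fromCols (toR Z) (toR Y) *ᵥ Sum.elim qR (fun c => (a c : ℝ)) := by
      refine ⟨fun c => (q c : ℝ), ?_⟩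
      funext i
      have hi := congrFun hq i
      simp only [mulVecLin_apply, mulVec, dotProduct, toQ, map_apply] at hi
      rw [fromCols_mulVec_sumElim]
      simp only [Pi.add_apply, mulVec, dotProduct, toR, map_apply]
      have hi' := congrArg (fun x : ℚ => (x : ℝ)) hi
      push_cast at hi'
      linarith
    obtain ⟨qR, hqR⟩ := hcast
    refine le_trans ?_ hv
    refine (hquad qR _).trans (le_of_eq ?_)
    rw [hqR, ← gram_fromCols G hG.1, ← mulVec_mulVec, ← mulVec_mulVec, dotProduct_mulVec _ _ᵀ,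
      vecMul_transpose]

end Vale.Agent.P160R
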