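import Mathlib

/-!
# Symmetric sign matrices: shared definitions for the exponential upper bound on the singularity probability
-/

namespace Vale.Agent.P160R

open Finset Matrix
open scoped Classical

variable {ι : Type} [Fintype ι] [DecidableEq ι]

/-- The symmetric matrix of signs. -/
def symM (R : Type) [Ring R] (ω : Sym2 ι → Bool) : Matrix ι ι R :=
  Matrix.of fun i j => if ω s(i, j) then 1 else -1

/-- Probability of a property of the uniform signs. -/
noncomputable def Pr (P : (Sym2 ι → Bool) → Prop) : ℝ :=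
  (Nat.card {ω // P ω} : ℝ) / (2 : ℝ) ^ Fintype.card (Sym2 ι)

/-- Expectation for the uniform signs. -/
noncomputable def Ex (f : (Sym2 ι → Bool) → ℝ) : ℝ :=
  (∑ ω, f ω) / (2 : ℝ) ^ Fintype.card (Sym2 ι)

/-- The restriction of the signs to an index set. -/
def restrictSigns {κ : Type} (e : κ → ι) (ω : Sym2 ι → Bool) : Sym2 κ → Bool :=
  fun p => ω (p.map e)

/-- A sign vector as integers. -/
def signVec (x : ι → Bool) : ι → ℤ := fun i => if x i then 1 else -1

/-- The inverse of an integer matrix over the rationals. -/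
noncomputable def qInv (B : Matrix ι ι ℤ) : Matrix ι ι ℚ := (B.map (Int.cast : ℤ → ℚ))⁻¹

/-- `B⁻¹ x`. -/
noncomputable def qVec (B : Matrix ι ι ℤ) (x : ι → ℤ) : ι → ℚ :=
  (qInv B).mulVec fun i => (x i : ℚ)

/-- The discriminant pairing `x B⁻¹ y`. -/
noncomputable def qForm (B : Matrix ι ι ℤ) (x y : ι → ℤ) : ℚ :=
  (fun i => (x i : ℚ)) ⬝ᵥ qVec B y

/-- Integrality at a prime. -/
def PInt (p : ℕ) (q : ℚ) : Prop := ¬ p ∣ q.den

/-- The exponent of `p` in the denominator. -/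
def pExp (p : ℕ) (q : ℚ) : ℕ := padicValNat p q.den

/-- The order of the class of `x` modulo the columns of `B`. -/
noncomputable def clsOrd (B : Matrix ι ι ℤ) (x : ι → ℤ) : ℕ :=
  Finset.univ.lcm fun i => (qVec B x i).den

/-- The index left over by the class of `x`. -/
noncomputable def clsCof (B : Matrix ι ι ℤ) (x : ι → ℤ) : ℕ :=
  B.det.natAbs / clsOrd B x ^ 2

/-- `x` behaves at `p` like the last column of a singular bordered matrix, with exponents `γ, f`. -/
def IsCand (B : Matrix ι ι ℤ) (p γ f : ℕ) (x : ι → ℤ) : Prop :=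
  PInt p (qForm B x x) ∧ padicValNat p B.det.natAbs = γ + 2 * f ∧
    (∀ i, pExp p (qVec B x i) ≤ f) ∧ (f = 0 ∨ ∃ i, pExp p (qVec B x i) = f) ∧
    ∀ r : ι → ℤ, PInt p (qForm B x r) → ∃ (t α : ℤ) (u : ι → ℤ),
      ¬ (p : ℤ) ∣ t ∧ (t * (p : ℤ) ^ γ) • r = α • x + B.mulVec u

/-- The modulus at which a kernel vector is required to have few zeros. -/
def deepMod (p n : ℕ) : ℕ := if p ^ 5 ≤ n ^ 2 then p ^ Nat.clog p n else p

/-- The moduli at which kernel vectors are required to have few zeros. -/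
def ZeroMod (p s n : ℕ) : Prop :=
  1 ≤ s ∧ n ^ 2 ≤ 32 * (p ^ s) ^ 5 ∧ (s = 1 ∨ p ^ s ≤ n ^ 2)

/-- The primes at which the code of a column stores its local index. -/
noncomputable def specialPrimes (B : Matrix ι ι ℤ) (x : ι → ℤ) : Finset ℕ :=
  (clsCof B x).primeFactors.filter fun p => deepMod p (Fintype.card ι) ∣ clsOrd B x

/-- The two budgets of a column. -/
def Budget (C : ℝ) (B : Matrix ι ι ℤ) (x : ι → ℤ) : Prop :=
  ((specialPrimes B x).card : ℝ) ≤ C * Fintype.card ι / Real.log (Fintype.card ι) ∧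
    ∑ p ∈ specialPrimes B x, (padicValNat p (clsCof B x) : ℝ) * Real.log p ≤ C * Fintype.card ι

/-- A lattice on which every nondegenerate Gram determinant is at least `exp (-w)`. -/
def LatW (B : Matrix ι ι ℤ) (w : ℝ) (L : AddSubgroup (ι → ℤ)) : Prop :=
  ∀ (r : ℕ) (Z : Matrix ι (Fin r) ℤ), (∀ k, (fun i => Z i k) ∈ L) →
    ((Z.map (Int.cast : ℤ → ℚ))ᵀ * qInv B * Z.map (Int.cast : ℤ → ℚ)).det ≠ 0 →
      Real.exp (-w) ≤ |((((Z.map (Int.cast : ℤ → ℚ))ᵀ * qInv B * Z.map (Int.cast : ℤ → ℚ)).det : ℚ) : ℝ)|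

/-- The logarithmic slope budget. -/
noncomputable def lBudget (m : ℕ) : ℝ := Real.log (Real.log m) ^ 2

/-- A subspace of small determinant on which `B⁻¹` is very degenerate. -/
def Cheap (δ : ℝ) (B : Matrix ι ι ℤ) : Prop :=
  ∃ (r : ℕ) (Z : Matrix ι (Fin r) ℤ), LinearIndependent ℚ (fun k i => (Z i k : ℚ)) ∧
    ((((Zᵀ * Z).det : ℤ)) : ℝ) ≤ (2 : ℝ) ^ (lBudget (Fintype.card ι) * Fintype.card ι) ∧
      ((((Z.map (Int.cast : ℤ → ℚ))ᵀ * qInv B * Z.map (Int.cast : ℤ → ℚ)).rank : ℝ)) +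
        δ * Fintype.card ι ≤ r

/-- Many small eigen-directions. -/
def SmallSpace (δ : ℝ) (B : Matrix ι ι ℤ) : Prop :=
  ∃ V : Submodule ℝ (ι → ℝ), δ * Fintype.card ι ≤ Module.finrank ℝ V ∧
    ∀ u ∈ V, ∑ i, ((B.map (Int.cast : ℤ → ℝ)).mulVec u i) ^ 2 ≤
      (Fintype.card ι : ℝ) ^ (1 / 10 : ℝ) * ∑ i, u i ^ 2

/-- The classes killed by `p ^ i` that meet the cube are few, for every small prime. -/
def FewSmallClasses (B : Matrix ι ι ℤ) : Prop :=
  ∀ p i : ℕ, p.Prime → p ^ 5 ≤ Fintype.card ι ^ 2 → i < Nat.clog p (Fintype.card ι) →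
    ∃ F : Finset (ι → ℤ), (F.card : ℝ) ≤ Real.exp ((Fintype.card ι : ℝ) ^ (0.57 : ℝ)) ∧
      ∀ x : ι → Bool, (∀ l, pExp p (qVec B (signVec x) l) ≤ i) →
        ∃ y ∈ F, ∀ l, PInt p (qVec B (signVec x - y) l)

/-- The corank of an integer matrix modulo `p`. -/
noncomputable def corankMod (p : ℕ) (B : Matrix ι ι ℤ) : ℕ :=
  if hp : p.Prime then
    haveI : Fact p.Prime := ⟨hp⟩
    Fintype.card ι - (B.map (Int.cast : ℤ → ZMod p)).rank
  else 0

/-- The medium primes at which `B` has corank two. -/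
noncomputable def hypPrimes (ε : ℝ) (B : Matrix ι ι ℤ) : Finset ℕ :=
  B.det.natAbs.primeFactors.filter fun p =>
    (Fintype.card ι : ℝ) ^ (1 - ε) < p ∧ corankMod p B = 2 ∧ p ^ 2 ∣ B.det.natAbs

/-- The entries of `B` are signs and it is symmetric. -/
def IsSign (B : Matrix ι ι ℤ) : Prop := B.IsSymm ∧ ∀ i j, B i j = 1 ∨ B i j = -1

end Vale.Agent.P160R
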