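import Mathlib

/-!
# Elementary exponential estimates used in the assembly
-/

namespace Vale.Agent.P160R

open Filter Finset
open scoped Topology

/-- Binomial coefficients of a small fraction have small exponential rate. -/
theorem choose_small_rate (η : ℝ) (hη : 0 < η) :
    ∃ δ : ℝ, 0 < δ ∧ ∀ n k : ℕ, (k : ℝ) ≤ δ * n → (n.choose k : ℝ) ≤ (2 : ℝ) ^ (η * n) := by
  set t : ℝ := min (η * Real.log 2 / 2) (1 / 2) with ht
  have hl : 0 < Real.log 2 := Real.log_pos (by norm_num)
  have ht0 : 0 < t := lt_min (by positivity) (by norm_num)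
  have ht1 : t < 1 := lt_of_le_of_lt (min_le_right _ _) (by norm_num)
  have hlt : 0 < Real.log t⁻¹ := Real.log_pos ((one_lt_inv₀ ht0).2 ht1)
  refine ⟨t / Real.log t⁻¹, by positivity, fun n k hk => ?_⟩
  have h1 : (n.choose k : ℝ) * t ^ k ≤ (1 + t) ^ n := by
    rcases le_or_gt k n with hkn | hkn
    · rw [add_comm, add_pow]
      refine le_trans ?_ (single_le_sum (f := fun j => t ^ j * 1 ^ (n - j) * (n.choose j : ℝ))
        (fun j _ => by positivity) (mem_range.2 (Nat.lt_succ_of_le hkn)))
      simp [mul_comm]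
    · rw [Nat.choose_eq_zero_of_lt hkn]; simp; positivity
  have h2 : (n.choose k : ℝ) ≤ Real.exp (n * t + k * Real.log t⁻¹) := by
    rw [Real.exp_add, Real.exp_nat_mul, Real.exp_nat_mul, Real.exp_log (by positivity), inv_pow,
      ← div_eq_mul_inv, le_div_iff₀ (by positivity)]
    exact h1.trans (pow_le_pow_left₀ (by positivity) (by linarith [Real.add_one_le_exp t]) n)
  refine h2.trans ?_
  rw [Real.rpow_def_of_pos (by norm_num)]
  refine Real.exp_le_exp.2 ?_
  have h3 : (k : ℝ) * Real.log t⁻¹ ≤ t * n := by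
    calc (k : ℝ) * Real.log t⁻¹ ≤ t / Real.log t⁻¹ * n * Real.log t⁻¹ :=
          mul_le_mul_of_nonneg_right hk hlt.le
      _ = t * n := by rw [div_mul_eq_mul_div, div_mul_cancel₀ _ hlt.ne']
  have h4 : t * n ≤ η * Real.log 2 / 2 * n :=
    mul_le_mul_of_nonneg_right (min_le_left _ _) (Nat.cast_nonneg n)
  nlinarith

/-- A strictly larger base absorbs any linear factor. -/
theorem eventually_mul_pow_le {a b : ℝ} (ha : 0 ≤ a) (hab : a < b) (C : ℝ) :
    ∀ᶠ n : ℕ in atTop, C * ((n : ℝ) + 1) * a ^ n ≤ b ^ n := by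
  have hb : 0 < b := lt_of_le_of_lt ha hab
  have h1 : Tendsto (fun n : ℕ => C * ((n : ℝ) + 1) * (a / b) ^ n) atTop (𝓝 0) := by
    have h := tendsto_self_mul_const_pow_of_lt_one (div_nonneg ha hb.le) ((div_lt_one hb).2 hab)
    have h' := tendsto_pow_atTop_nhds_zero_of_lt_one (div_nonneg ha hb.le) ((div_lt_one hb).2 hab)
    have := (h.add h').const_mul C
    simp only [add_zero, mul_zero] at this
    exact this.congr fun n => by ring
  filter_upwards [h1.eventually_le_const zero_lt_one] with n hn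
  rw [div_pow, ← mul_div_assoc, div_le_one (by positivity)] at hn
  exact hn

end Vale.Agent.P160R
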