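import Vale.Agent.P160R.Odlyzko.Rows
import Vale.Agent.P160R.Odlyzko.Classes
import Vale.Agent.P160R.Growth
import Vale.Agent.P160.Count

/-!
# Coranks over prime fields and over the rationals
-/

namespace Vale.Agent.P160R

open Finset Matrix Filter
open scoped Classical

/-- Symmetric Odlyzko bound with two values and a fixed shift, over any field. -/
theorem corank_shift_le {ι : Type} [Fintype ι] [DecidableEq ι] {K : Type} [Field K] {a b : K}
    (hab : a ≠ b) (F : Matrix ι ι K) (hF : F.IsSymm) (r : ℕ) :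
    Pr (fun ω : Sym2 ι → Bool =>
        (F + Matrix.of fun i j => if ω s(i, j) then a else b).rank + r ≤ Fintype.card ι) ≤
      (Fintype.card ι).choose r * (1 / 2 : ℝ) ^ r.choose 2 := by
  rcases lt_or_ge (Fintype.card ι) r with hr | hr
  · refine le_trans (le_of_eq ?_) (mul_nonneg (Nat.cast_nonneg _) (by positivity))
    rw [Pr, Nat.card_eq_zero.2 (Or.inl ((isEmpty_subtype _).2 fun ω h => by omega))]
    simp
  set M : (Sym2 ι → Bool) → Matrix ι ι K := fun ω =>
    F + Matrix.of fun i j => if ω s(i, j) then a else b with hM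
  have hsymm : ∀ ω, (M ω).IsSymm := fun ω => Matrix.ext fun i j => by
    simp [hM, hF.apply i j, Sym2.eq_swap]
  -- the event splits by the set of rows outside a spanning set
  set Ev : Finset ι → (Sym2 ι → Bool) → Prop := fun T ω =>
    ∀ i, M ω i ∈ Submodule.span K (Set.range fun k : {k // k ∈ Tᶜ} => M ω k.1) with hEv
  have hsub : ∀ ω, (M ω).rank + r ≤ Fintype.card ι → ∃ T ∈ univ.powersetCard r, Ev T ω := by
    intro ω hω
    obtain ⟨S, hScard, -, hspan⟩ := exists_basis_rows (M ω)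
    have hc : r ≤ (Sᶜ).card := by rw [card_compl, hScard]; omega
    obtain ⟨T, hTS, hTcard⟩ := exists_subset_card_eq hc
    refine ⟨T, mem_powersetCard.2 ⟨subset_univ _, hTcard⟩, fun i => Submodule.span_mono ?_ (hspan i)⟩
    rintro _ ⟨k, rfl⟩
    exact ⟨⟨k.1, mem_compl.2 fun hk => mem_compl.1 (hTS hk) k.2⟩, rfl⟩
  refine (Pr_mono hsub).trans ((Pr_exists _ Ev).trans ?_)
  refine (sum_le_card_nsmul _ _ ((1 / 2 : ℝ) ^ r.choose 2) fun T hT => ?_).trans (le_of_eq ?_)
  swap
  · rw [card_powersetCard, card_univ, nsmul_eq_mul]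
  -- the block inside T is determined by the other signs
  have hTc := (mem_powersetCard.1 hT).2
  set U : Finset (Sym2 ι) := T.sym2
  set E := univ.filter (Ev T)
  have huniq : ∀ ω ∈ E, ∀ ω' ∈ E, (∀ q, q ∉ U → ω q = ω' q) → ω = ω' := by
    intro ω hω ω' hω' hag
    have h1 := (mem_filter.1 hω).2
    have h2 := (mem_filter.1 hω').2
    have hrow : ∀ k, k ∉ T → M ω k = M ω' k := fun k hk => funext fun j => by
      simp [hM, hag s(k, j) fun h => hk ((mem_sym2_iff.1 h) k (Sym2.mem_mk_left k j))]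
    funext q
    by_cases hq : q ∈ U
    swap
    · exact hag q hq
    induction q using Sym2.ind with
    | h i j =>
      obtain ⟨c, hc⟩ := (Submodule.mem_span_range_iff_exists_fun K).1 (h1 i)
      obtain ⟨c', hc'⟩ := (Submodule.mem_span_range_iff_exists_fun K).1 (h2 i)
      have hv : ∀ s, ∑ k, c k * M ω k.1 s = M ω i s := fun s => by
        simpa [Finset.sum_apply] using congrFun hc s
      have hv' : ∀ s, ∑ k, c' k * M ω k.1 s = M ω' i s := fun s => by
        have := congrFun hc' s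
        simp only [Finset.sum_apply, Pi.smul_apply, smul_eq_mul] at this
        rw [← this]
        exact sum_congr rfl fun k _ => by rw [hrow k.1 (mem_compl.1 k.2)]
      have h3 := combination_eq (hsymm ω) h1 c c' (fun s hs => by
        rw [hv, hv', ← (hsymm ω).apply i s, ← (hsymm ω').apply i s,
          hrow s (mem_compl.1 hs)]) j
      rw [hv, hv'] at h3
      simp only [hM, Matrix.add_apply, Matrix.of_apply, add_right_inj] at h3
      revert h3
      cases ω s(i, j) <;> cases ω' s(i, j) <;> simp [hab, hab.symm]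
  have hcard := Vale.Agent.P160.card_mul_two_pow_le_one E U huniq
  have hU : r.choose 2 ≤ U.card := by
    rw [show U.card = (T.card + 1).choose 2 from card_sym2 T, hTc]
    exact Nat.choose_le_choose 2 (Nat.le_succ r)
  rw [Pr_eq, div_le_iff₀ (by positivity), one_div, inv_pow,
    inv_mul_eq_div, le_div_iff₀ (by positivity)]
  have h2 : (E.card : ℝ) * 2 ^ U.card ≤ 2 ^ Fintype.card (Sym2 ι) := by exact_mod_cast hcard
  refine le_trans (le_of_eq ?_)
    ((mul_le_mul_of_nonneg_left (pow_le_pow_right₀ one_le_two hU) (Nat.cast_nonneg E.card)).trans h2)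
  congr!

/-- Symmetric Odlyzko bound modulo an odd prime. -/
theorem corank_mod_le {ι : Type} [Fintype ι] [DecidableEq ι] {p : ℕ} (hp : p.Prime) (hp2 : p ≠ 2)
    (r : ℕ) :
    Pr (fun ω : Sym2 ι → Bool => r ≤ corankMod p (symM ℤ ω)) ≤
      (Fintype.card ι).choose r * (1 / 2 : ℝ) ^ r.choose 2 := by
  rcases Nat.eq_zero_or_pos r with rfl | hr
  · simpa using Pr_le_one _
  have : Fact p.Prime := ⟨hp⟩
  have hne : (1 : ZMod p) ≠ -1 := fun h => by
    have h2 : ((2 : ℕ) : ZMod p) = 0 := by push_cast; linear_combination h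
    rw [ZMod.natCast_eq_zero_iff] at h2
    exact hp2 ((Nat.prime_dvd_prime_iff_eq hp Nat.prime_two).1 h2)
  refine (Pr_mono fun ω h => ?_).trans (corank_shift_le hne 0 (by simp [Matrix.IsSymm]) r)
  have e : (symM ℤ ω).map (Int.cast : ℤ → ZMod p) =
      0 + Matrix.of fun i j => if ω s(i, j) then (1 : ZMod p) else -1 := by
    ext i j
    simp only [symM, Matrix.map_apply, Matrix.of_apply, Matrix.add_apply, Matrix.zero_apply, zero_add]
    split_ifs <;> simp
  rw [corankMod, dif_pos hp, e] at h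
  omega

/-- Symmetric Odlyzko bound over the rationals. -/
theorem corank_rat_le {ι : Type} [Fintype ι] [DecidableEq ι] (r : ℕ) :
    Pr (fun ω : Sym2 ι → Bool => (symM ℚ ω).rank + r ≤ Fintype.card ι) ≤
      (Fintype.card ι).choose r * (1 / 2 : ℝ) ^ r.choose 2 := by
  refine (Pr_mono fun ω h => ?_).trans
    (corank_shift_le (show (1 : ℚ) ≠ -1 by norm_num) 0 (by simp [Matrix.IsSymm]) r)
  rw [zero_add]
  exact h

/-- The numbers behind `few_small_classes`. -/
theorem small_class_numbers : ∀ᶠ n : ℕ in atTop,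
    (2 : ℝ) * ⌈(n : ℝ) ^ (0.55 : ℝ)⌉₊ * Real.log n ≤ (n : ℝ) ^ (0.57 : ℝ) ∧
    (n + 1 : ℝ) * ((2 : ℝ) ^ n * (1 / 2 : ℝ) ^ (⌈(n : ℝ) ^ (0.55 : ℝ)⌉₊).choose 2) ≤
      (2 : ℝ) ^ (-2 * (n : ℝ)) := by
  have h1 : ∀ᶠ n : ℕ in atTop, 4 * Real.log n ≤ (n : ℝ) ^ (0.02 : ℝ) := by
    have := (isLittleO_log_rpow_atTop (show (0 : ℝ) < 0.02 by norm_num)).comp_tendsto
      (tendsto_natCast_atTop_atTop (R := ℝ))
    filter_upwards [this.bound (show (0 : ℝ) < 1 / 4 by norm_num)] with n hn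
    simp only [Function.comp_apply, Real.norm_eq_abs, abs_of_nonneg (Real.rpow_nonneg (Nat.cast_nonneg n) _)] at hn
    linarith [le_abs_self (Real.log n)]
  have h2 : ∀ᶠ n : ℕ in atTop, (20 : ℝ) ≤ (n : ℝ) ^ (0.1 : ℝ) :=
    ((tendsto_rpow_atTop (show (0 : ℝ) < 0.1 by norm_num)).comp tendsto_natCast_atTop_atTop).eventually_ge_atTop 20
  filter_upwards [h1, h2, eventually_ge_atTop 1] with n hn1 hn2 hn0
  have hn : (1 : ℝ) ≤ n := by exact_mod_cast hn0
  set r := ⌈(n : ℝ) ^ (0.55 : ℝ)⌉₊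
  have hp : (1 : ℝ) ≤ (n : ℝ) ^ (0.55 : ℝ) := Real.one_le_rpow hn (by norm_num)
  have hr1 : (n : ℝ) ^ (0.55 : ℝ) ≤ r := Nat.le_ceil _
  have hr2 : (r : ℝ) ≤ 2 * (n : ℝ) ^ (0.55 : ℝ) := by
    have : (r : ℝ) < (n : ℝ) ^ (0.55 : ℝ) + 1 := Nat.ceil_lt_add_one (zero_le_one.trans hp)
    linarith
  have hlog : 0 ≤ Real.log n := Real.log_nonneg hn
  refine ⟨?_, ?_⟩
  · calc (2 : ℝ) * r * Real.log n ≤ 2 * (2 * (n : ℝ) ^ (0.55 : ℝ)) * Real.log n := by gcongr
      _ = (n : ℝ) ^ (0.55 : ℝ) * (4 * Real.log n) := by ring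
      _ ≤ (n : ℝ) ^ (0.55 : ℝ) * (n : ℝ) ^ (0.02 : ℝ) := by gcongr
      _ = (n : ℝ) ^ (0.57 : ℝ) := by
          rw [← Real.rpow_add (by linarith)]; norm_num
  · have hsq : 20 * (n : ℝ) ≤ (r : ℝ) * r := by
      calc 20 * (n : ℝ) ≤ (n : ℝ) ^ (0.1 : ℝ) * n := by gcongr
        _ = (n : ℝ) ^ (0.55 : ℝ) * (n : ℝ) ^ (0.55 : ℝ) := by
            rw [← Real.rpow_add (by linarith), ← Real.rpow_add_one (by linarith)]; norm_num
        _ ≤ _ := by gcongr
    have hr20 : (2 : ℝ) ≤ r := by nlinarith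
    have hch : 4 * n ≤ r.choose 2 := by
      have : (4 * n : ℕ) * 2 ≤ r * (r - 1) := by
        have h : ((4 * n : ℕ) * 2 : ℝ) ≤ (r : ℝ) * ((r : ℝ) - 1) := by push_cast; nlinarith
        have hc : ((r - 1 : ℕ) : ℝ) = (r : ℝ) - 1 := by
          rw [Nat.cast_sub (show 1 ≤ r by exact_mod_cast le_trans one_le_two hr20), Nat.cast_one]
        rw [← hc] at h
        exact_mod_cast h
      rw [Nat.choose_two_right]
      omega
    have hn1' : (n + 1 : ℝ) ≤ (2 : ℝ) ^ n := by
      exact_mod_cast Nat.lt_two_pow_self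
    calc (n + 1 : ℝ) * ((2 : ℝ) ^ n * (1 / 2 : ℝ) ^ r.choose 2)
        ≤ (2 : ℝ) ^ n * ((2 : ℝ) ^ n * (1 / 2 : ℝ) ^ (4 * n)) := by
          refine mul_le_mul hn1' (mul_le_mul_of_nonneg_left ?_ (by positivity)) (by positivity)
            (by positivity)
          exact pow_le_pow_of_le_one (by norm_num) (by norm_num) hch
      _ = (2 : ℝ) ^ (-2 * (n : ℝ)) := by
          rw [Real.rpow_def_of_pos two_pos, ← Real.exp_log (show (0 : ℝ) < 2 ^ n * (2 ^ n * (1 / 2) ^ (4 * n)) by positivity)]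
          congr 1
          rw [Real.log_mul (by positivity) (by positivity), Real.log_mul (by positivity) (by positivity),
            Real.log_pow, Real.log_pow, one_div, Real.log_inv]
          push_cast
          ring

/-- A uniformly signed matrix has few classes killed by small prime powers. -/
theorem few_small_classes :
    ∃ N : ℕ, ∀ (ι : Type) [Fintype ι] [DecidableEq ι], N ≤ Fintype.card ι →
      Pr (fun ω : Sym2 ι → Bool => (symM ℤ ω).det ≠ 0 ∧ ¬ FewSmallClasses (symM ℤ ω)) ≤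
        (2 : ℝ) ^ (-2 * (Fintype.card ι : ℝ)) := by
  have key : ∀ᶠ n : ℕ in atTop,
      (2 : ℝ) * ⌈(n : ℝ) ^ (0.55 : ℝ)⌉₊ * Real.log n ≤ (n : ℝ) ^ (0.57 : ℝ) ∧
      (n + 1 : ℝ) * ((2 : ℝ) ^ n * (1 / 2 : ℝ) ^ (⌈(n : ℝ) ^ (0.55 : ℝ)⌉₊).choose 2) ≤
        (2 : ℝ) ^ (-2 * (n : ℝ)) := small_class_numbers
  obtain ⟨N, hN⟩ := eventually_atTop.1 key
  refine ⟨max N 2, fun ι _ _ hι => ?_⟩
  set n := Fintype.card ι with hn
  obtain ⟨hlog, hprob⟩ := hN n ((le_max_left _ _).trans hι)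
  have hn2 : 2 ≤ n := (le_max_right _ _).trans hι
  set r := ⌈(n : ℝ) ^ (0.55 : ℝ)⌉₊
  have hr : 1 ≤ r := Nat.ceil_pos.2 (Real.rpow_pos_of_pos (Nat.cast_pos.2 (by omega)) _)
  -- the bad events
  let B' : (Sym2 ι → Bool) → Matrix ι ι (ZMod 2) := fun ω =>
    0 + Matrix.of fun i j => if ω s(i, j) then (0 : ZMod 2) else 1
  let Bad : ℕ → (Sym2 ι → Bool) → Prop := fun p ω =>
    if p = 2 then (B' ω).rank + r ≤ n else p.Prime ∧ r ≤ corankMod p (symM ℤ ω)
  have hbad : ∀ p ∈ range (n + 1), Pr (Bad p) ≤ (2 : ℝ) ^ n * (1 / 2 : ℝ) ^ r.choose 2 := by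
    intro p _
    have hch : ((n.choose r : ℕ) : ℝ) ≤ (2 : ℝ) ^ n := by exact_mod_cast Nat.choose_le_two_pow n r
    refine le_trans ?_ (mul_le_mul_of_nonneg_right hch (by positivity))
    by_cases h2 : p = 2
    · refine (Pr_mono fun ω h => ?_).trans
        (corank_shift_le (show (0 : ZMod 2) ≠ 1 by decide) 0 (by simp [Matrix.IsSymm]) r)
      simpa [Bad, h2, B'] using h
    · by_cases hp : p.Prime
      · refine (Pr_mono fun ω h => ?_).trans (corank_mod_le hp h2 r)
        simp only [Bad, if_neg h2] at h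
        exact h.2
      · refine le_trans (le_of_eq ?_) (by positivity)
        rw [Pr, Nat.card_eq_zero.2 (Or.inl ((isEmpty_subtype _).2 fun ω h => by simp [Bad, h2, hp] at h))]
        simp
  have hgood : ∀ ω : Sym2 ι → Bool, (symM ℤ ω).det ≠ 0 ∧ ¬ FewSmallClasses (symM ℤ ω) →
      ∃ p ∈ range (n + 1), Bad p ω := by
    rintro ω ⟨hdet, hfew⟩
    by_contra hcon
    push Not at hcon
    refine hfew fun p i hp hp5 hi => ?_
    rw [← hn] at hp5 hi
    have : Fact p.Prime := ⟨hp⟩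
    have hpn : p ≤ n := by
      by_contra h
      have h5 : (n + 1) ^ 5 ≤ p ^ 5 := Nat.pow_le_pow_left (by omega) 5
      have : n ^ 2 < (n + 1) ^ 5 := lt_of_lt_of_le (Nat.pow_lt_pow_left (Nat.lt_succ_self n) two_ne_zero)
        (Nat.pow_le_pow_right (Nat.succ_pos n) (by norm_num))
      omega
    have hgood := hcon p (mem_range.2 (by omega))
    -- the exponent of the layer
    obtain ⟨e, c, hc, hlayer, he⟩ : ∃ e c : ℕ, c ≤ r + 1 ∧
        (kerImage (symM ℤ ω) p e 1).card ≤ p ^ c ∧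
        ∀ x y : ι → Bool, ∀ l, ((p : ℤ) ^ e) ∣ signVec x l - signVec y l := by
      by_cases h2 : p = 2
      · subst h2
        have hrk : n < (B' ω).rank + r := by simpa [Bad] using hgood
        refine ⟨1, n - (B' ω).rank + 1, by omega,
          card_layer_two (isSign_symM ω) (B' ω) fun a b => ?_, fun x y l => ?_⟩
        · simp only [B', symM, Matrix.of_apply, zero_add]
          split_ifs <;> simp_all
        · simp only [signVec]
          split_ifs <;> norm_num
      · simp only [Bad, if_neg h2, hp, true_and, not_le] at hgood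
        exact ⟨0, corankMod p (symM ℤ ω), by omega, card_layer_zero _, fun x y l => by simp⟩
    obtain ⟨F, hF, hF'⟩ := exists_classes hp hdet e i he
    refine ⟨F, ?_, hF'⟩
    have h1 : F.card ≤ n ^ (r + 1) := by
      refine hF.trans ((card_kerImage_le _ p e i).trans ((Nat.pow_le_pow_left hlayer i).trans ?_))
      rw [← pow_mul, mul_comm, pow_mul]
      refine (Nat.pow_le_pow_right (Nat.one_le_pow _ _ hp.pos) hc).trans
        (Nat.pow_le_pow_left (Nat.le_of_lt ?_) _)
      exact (Nat.lt_clog_iff_pow_lt hp.one_lt).1 hi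
    calc (F.card : ℝ) ≤ (n : ℝ) ^ (r + 1) := by exact_mod_cast h1
      _ = Real.exp ((r + 1 : ℕ) * Real.log n) := by
          rw [Real.exp_nat_mul, Real.exp_log (Nat.cast_pos.2 (by omega))]
      _ ≤ Real.exp ((n : ℝ) ^ (0.57 : ℝ)) := by
          refine Real.exp_le_exp.2 (le_trans (mul_le_mul_of_nonneg_right ?_
            (Real.log_nonneg (by exact_mod_cast (show 1 ≤ n by omega)))) hlog)
          exact_mod_cast (show r + 1 ≤ 2 * r by omega)
  refine ((Pr_mono hgood).trans (Pr_exists _ Bad)).trans ((sum_le_card_nsmul _ _ _ hbad).trans ?_)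
  rw [card_range, nsmul_eq_mul, Nat.cast_succ]
  exact hprob

/-- A kernel of corank `k` leaves a singular principal submatrix of corank one and order
`n - k + 1`. -/
theorem exists_corank_one_principal {ι : Type} [Fintype ι] [DecidableEq ι] (A : Matrix ι ι ℚ)
    (hA : A.IsSymm) (k : ℕ) (hk : 1 ≤ k) (h : A.rank + k = Fintype.card ι) :
    ∃ S : Finset ι, S.card + k = Fintype.card ι + 1 ∧
      (A.submatrix (fun i : {i // i ∈ S} => i.1) (fun i : {i // i ∈ S} => i.1)).rank + 1 = S.card := by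
  obtain ⟨S₀, hcard, hli, hspan⟩ := exists_basis_rows A
  obtain ⟨j, hj⟩ : ∃ j, j ∈ S₀ᶜ := Finset.card_pos.1 (by rw [card_compl, hcard]; omega)
  rw [mem_compl] at hj
  refine ⟨insert j S₀, by rw [card_insert_of_notMem hj, hcard]; omega, ?_⟩
  set S := insert j S₀
  set A' := A.submatrix (fun i : {i // i ∈ S} => i.1) (fun i : {i // i ∈ S} => i.1)
  have h0 := (principal_li hA hli hspan).rank_matrix
  have e : A.submatrix (fun i : {i // i ∈ S₀} => i.1) (fun i : {i // i ∈ S₀} => i.1) =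
      A'.submatrix (fun i : {i // i ∈ S₀} => (⟨i.1, mem_insert_of_mem i.2⟩ : {i // i ∈ S}))
        (fun i : {i // i ∈ S₀} => (⟨i.1, mem_insert_of_mem i.2⟩ : {i // i ∈ S})) := rfl
  rw [e, Fintype.card_coe] at h0
  have h1 : S₀.card ≤ A'.rank := h0 ▸ rank_submatrix_le A' _ _
  have h2 : A'.rank ≤ A.rank := rank_submatrix_le A _ _
  rw [card_insert_of_notMem hj]
  omega

end Vale.Agent.P160R
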