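import Vale.Agent.P160R.Family
import Vale.Agent.P160R.Odlyzko
import Vale.Agent.P160R.Exclude.Fixed
import Vale.Agent.P160R.Points.Rank

/-!
# Degenerate subspaces of small determinant are excluded
-/

namespace Vale.Agent.P160R

open Finset Matrix
open scoped Classical

namespace Exclude

variable {ι : Type} [Fintype ι]

/-- The orthogonal complement for the standard form. -/
def perp (W : Submodule ℝ (ι → ℝ)) : Submodule ℝ (ι → ℝ) where
  carrier := {y | ∀ w ∈ W, w ⬝ᵥ y = 0}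
  add_mem' ha hb w hw := by rw [dotProduct_add, ha w hw, hb w hw, add_zero]
  zero_mem' w _ := dotProduct_zero w
  smul_mem' a y hy w hw := by rw [dotProduct_smul, hy w hw, smul_zero]

/-- A radical survives a small change of the subspace. -/
lemma exists_radical_near (Q : Matrix ι ι ℝ) (U W K₀ : Submodule ℝ (ι → ℝ)) {a : ℕ} (hK₀ : K₀ ≤ U)
    (hrad : ∀ k ∈ K₀, ∀ u ∈ U, u ⬝ᵥ (Q *ᵥ k) = 0)
    (hUW : Module.finrank ℝ (U ⊔ W : Submodule ℝ (ι → ℝ)) ≤
      Module.finrank ℝ (U ⊓ W : Submodule ℝ (ι → ℝ)) + a) :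
    ∃ K : Submodule ℝ (ι → ℝ), K ≤ W ∧ Module.finrank ℝ K₀ ≤ Module.finrank ℝ K + 2 * a ∧
      ∀ k ∈ K, ∀ w ∈ W, w ⬝ᵥ (Q *ᵥ k) = 0 := by
  set K₁ := K₀ ⊓ W
  have h1 : Module.finrank ℝ K₀ ≤ Module.finrank ℝ K₁ + a := by
    have e1 := Submodule.finrank_sup_add_finrank_inf_eq K₀ W
    have e2 := Submodule.finrank_mono (sup_le_sup_right hK₀ W)
    have e3 := Submodule.finrank_mono (inf_le_right : U ⊓ W ≤ W)
    change Module.finrank ℝ K₀ ≤ Module.finrank ℝ (K₀ ⊓ W : Submodule ℝ (ι → ℝ)) + a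
    omega
  set f : K₁ →ₗ[ℝ] Module.Dual ℝ W :=
    { toFun := fun k =>
        { toFun := fun w => (w : ι → ℝ) ⬝ᵥ (Q *ᵥ (k : ι → ℝ))
          map_add' := fun x y => by rw [Submodule.coe_add, add_dotProduct]
          map_smul' := fun t x => by rw [Submodule.coe_smul, smul_dotProduct, RingHom.id_apply] }
      map_add' := fun x y => LinearMap.ext fun w => by
        simp [mulVec_add, dotProduct_add]
      map_smul' := fun t x => LinearMap.ext fun w => by
        simp [mulVec_smul, dotProduct_smul] }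
  set W₀ : Submodule ℝ W := (U ⊓ W).comap W.subtype
  have hran : LinearMap.range f ≤ W₀.dualAnnihilator := by
    rintro _ ⟨k, rfl⟩
    rw [Submodule.mem_dualAnnihilator]
    intro w hw
    exact hrad k (Submodule.mem_inf.1 k.2).1 w (Submodule.mem_inf.1 hw).1
  have h2 : Module.finrank ℝ (LinearMap.range f) ≤ a := by
    have e1 := Subspace.finrank_add_finrank_dualAnnihilator_eq W₀
    have e2 := Submodule.finrank_mono hran
    have e3 : Module.finrank ℝ W₀ = Module.finrank ℝ (U ⊓ W : Submodule ℝ (ι → ℝ)) :=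
      (Submodule.comapSubtypeEquivOfLe inf_le_right).finrank_eq
    have e4 := Submodule.finrank_mono (le_sup_right : W ≤ U ⊔ W)
    omega
  refine ⟨(LinearMap.ker f).map K₁.subtype, ?_, ?_, ?_⟩
  · rintro _ ⟨k, -, rfl⟩
    exact (Submodule.mem_inf.1 k.2).2
  · rw [Submodule.finrank_map_subtype_eq]
    have := LinearMap.finrank_range_add_finrank_ker f
    omega
  · rintro _ ⟨k, hk, rfl⟩ w hw
    exact LinearMap.congr_fun (LinearMap.mem_ker.1 hk) ⟨w, hw⟩

variable [DecidableEq ι]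

omit [Fintype ι] [DecidableEq ι] in
lemma rc_symM (ω : Sym2 ι → Bool) : Points.rc (symM ℤ ω) = symM ℝ ω := by
  ext i j
  simp only [Points.rc, symM, Matrix.map_apply, Matrix.of_apply]
  split <;> simp

/-- A cheap subspace gives a radical in a member of the family. -/
lemma radical_of_cheap {δ η : ℝ} (ω : Sym2 ι → Bool) (hdet : (symM ℤ ω).det ≠ 0)
    {r : ℕ} (Z : Matrix ι (Fin r) ℤ) (hZ : LinearIndependent ℚ fun k i => (Z i k : ℚ))
    (hrank : ((((Z.map (Int.cast : ℤ → ℚ))ᵀ * qInv (symM ℤ ω) *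
      Z.map (Int.cast : ℤ → ℚ)).rank : ℝ)) + δ * Fintype.card ι ≤ r)
    (W : Submodule ℝ (ι → ℝ))
    (hW : (Module.finrank ℝ
        (Submodule.span ℝ (Set.range fun k i => (Z i k : ℝ)) ⊔ W : Submodule ℝ (ι → ℝ)) : ℝ) ≤
      (Module.finrank ℝ
        (Submodule.span ℝ (Set.range fun k i => (Z i k : ℝ)) ⊓ W : Submodule ℝ (ι → ℝ)) : ℝ)
          + η * Fintype.card ι) {c : ℕ} (hc : (c : ℝ) < (δ - 2 * η) * Fintype.card ι + 1) :
    ∃ K : Submodule ℝ (ι → ℝ), c ≤ Module.finrank ℝ K ∧ K ≤ perp W ∧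
      ∀ y ∈ K, ∀ v ∈ perp W, v ⬝ᵥ (symM ℝ ω *ᵥ y) = 0 := by
  set B := symM ℤ ω
  obtain ⟨c₀, r₀, T, T', hcr, -, -, hinj, hrad, -, hrk⟩ :=
    Points.exists_split (isSign_symM ω).1 hdet Z hZ
  rw [hrk] at hrank
  have hc₀ : δ * Fintype.card ι ≤ c₀ := by
    have : (r : ℝ) = c₀ + r₀ := by exact_mod_cast hcr.symm
    linarith
  set U := Submodule.span ℝ (Set.range fun k i => (Z i k : ℝ)) with hU
  have hUr : U = LinearMap.range (Points.rc Z).mulVecLin := by
    rw [Matrix.range_mulVecLin]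
    rfl
  set R := Points.rc (Z * T.submatrix id Sum.inl) with hR
  have hRinj : Function.Injective R.mulVecLin := by
    refine (injective_iff_map_eq_zero _).2 ?_
    refine (Points.gram_pos _ fun v hv => ?_).2.2
    have := hinj (Sum.elim v 0) (by
      funext i
      have h := congrFun hv i
      simpa [Matrix.mulVec, dotProduct, Matrix.mul_apply, Fintype.sum_sum_type] using h)
    funext j
    exact congrFun this (Sum.inl j)
  set K₀ := LinearMap.range R.mulVecLin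
  have hK₀ : K₀ ≤ U := by
    rintro _ ⟨v, rfl⟩
    rw [hUr]
    exact ⟨Points.rc (T.submatrix id Sum.inl) *ᵥ v, by
      simp [R, Points.rc_mul, mulVec_mulVec]⟩
  set a := Module.finrank ℝ (U ⊔ W : Submodule ℝ (ι → ℝ)) -
    Module.finrank ℝ (U ⊓ W : Submodule ℝ (ι → ℝ)) with ha
  have hmono := Submodule.finrank_mono (inf_le_left.trans le_sup_left : U ⊓ W ≤ U ⊔ W)
  have haη : (a : ℝ) ≤ η * Fintype.card ι := by
    rw [ha, Nat.cast_sub hmono]
    linarith
  have hradK : ∀ k ∈ K₀, ∀ u ∈ U, u ⬝ᵥ (Points.qR B *ᵥ k) = 0 := by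
    rintro _ ⟨v, rfl⟩ u hu
    rw [hUr] at hu
    obtain ⟨g, rfl⟩ := hu
    have hT := congrArg Matrix.transpose hrad
    rw [transpose_mul, transpose_mul, transpose_transpose, transpose_zero,
      (Points.qR_symm (isSign_symM ω).1).eq] at hT
    simp only [mulVecLin_apply]
    rw [← vecMul_transpose, ← dotProduct_mulVec, mulVec_mulVec, mulVec_mulVec, hR,
      Matrix.mul_assoc, hT, zero_mulVec, dotProduct_zero]
  obtain ⟨K, hKW, hKd, hKr⟩ := exists_radical_near (Points.qR B) U W K₀ (a := a) hK₀ hradK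
    (by omega)
  have hu : IsUnit (symM ℝ ω).det := by
    rw [← rc_symM, Points.det_rc]
    exact (Int.cast_ne_zero.2 hdet).isUnit
  have hBQ : symM ℝ ω * Points.qR B = 1 := by
    rw [Points.qR, rc_symM]
    exact Matrix.mul_nonsing_inv _ hu
  have hQi : Function.Injective (Points.qR B).mulVecLin := fun x y hxy => by
    have := congrArg (symM ℝ ω *ᵥ ·) hxy
    simpa [hBQ] using this
  refine ⟨K.map (Points.qR B).mulVecLin, ?_, ?_, ?_⟩
  · rw [← (Submodule.equivMapOfInjective _ hQi K).finrank_eq]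
    have hd : Module.finrank ℝ K₀ = c₀ := by
      rw [LinearMap.finrank_range_of_inj hRinj, Module.finrank_fintype_fun_eq_card, Fintype.card_fin]
    rw [hd] at hKd
    have h1 : (c₀ : ℝ) ≤ (Module.finrank ℝ K : ℝ) + 2 * a := by exact_mod_cast hKd
    have h2 : (c : ℝ) < (Module.finrank ℝ K : ℝ) + 1 := by linarith
    have h3 : c < Module.finrank ℝ K + 1 := by exact_mod_cast h2
    omega
  · rintro _ ⟨k, hk, rfl⟩ w hw
    exact hKr k hk w hw
  · rintro _ ⟨k, hk, rfl⟩ v hv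
    rw [mulVecLin_apply, mulVec_mulVec, hBQ, one_mulVec, dotProduct_comm]
    exact hv k (hKW hk)

end Exclude

open Exclude

/-- No cheap degenerate subspace, up to a negligible event. -/
theorem cheap_rare (δ : ℝ) (hδ : 0 < δ) :
    ∃ N : ℕ, ∀ (ι : Type) [Fintype ι] [DecidableEq ι], N ≤ Fintype.card ι →
      Pr (fun ω : Sym2 ι → Bool => (symM ℤ ω).det ≠ 0 ∧ Cheap δ (symM ℤ ω)) ≤
        (2 : ℝ) ^ (-2 * (Fintype.card ι : ℝ)) := by
  set η := min (δ / 8) (δ ^ 2 / 16) with hη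
  have hη0 : 0 < η := lt_min (by positivity) (by positivity)
  obtain ⟨N₁, hN₁⟩ := small_det_family η hη0
  refine ⟨max N₁ (⌈20 * (1 + δ) / δ ^ 2⌉₊), fun ι _ _ hn => ?_⟩
  set m := Fintype.card ι
  obtain ⟨F, hFc, hF⟩ := hN₁ ι (le_of_max_le_left hn)
  set c := ⌈(δ - 2 * η) * m⌉₊
  refine le_trans (Pr_mono (R := fun ω => ∃ W ∈ F, ∃ K : Submodule ℝ (ι → ℝ),
    c ≤ Module.finrank ℝ K ∧ K ≤ perp W ∧
      ∀ y ∈ K, ∀ v ∈ perp W, v ⬝ᵥ (symM ℝ ω *ᵥ y) = 0) ?_) ?_
  · rintro ω ⟨hdet, r, Z, hZ, hd, hrank⟩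
    obtain ⟨W, hWF, hW⟩ := hF r Z hZ hd
    exact ⟨W, hWF, radical_of_cheap ω hdet Z hZ hrank W hW (Nat.ceil_lt_add_one (by
      have : η ≤ δ / 8 := min_le_left _ _
      have : 0 ≤ δ - 2 * η := by linarith
      positivity))⟩
  refine (Pr_exists F _).trans ((sum_le_card_nsmul F _ _ fun W _ => Pr_radical_le (perp W) c).trans ?_)
  rw [nsmul_eq_mul]
  refine le_trans (mul_le_mul_of_nonneg_right hFc (by positivity)) ?_
  have hm : 20 * (1 + δ) / δ ^ 2 ≤ (m : ℝ) :=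
    le_trans (Nat.le_ceil _) (Nat.cast_le.2 (le_of_max_le_right hn))
  rw [div_le_iff₀ (by positivity)] at hm
  have hm0 : (0 : ℝ) < m := by
    by_contra hc'
    nlinarith [not_lt.1 hc']
  have hc : 3 * δ / 4 * m ≤ (c : ℝ) := by
    refine le_trans (mul_le_mul_of_nonneg_right ?_ hm0.le) (Nat.le_ceil _)
    linarith [min_le_left (δ / 8) (δ ^ 2 / 16)]
  have hch : (c.choose 2 : ℝ) = (c : ℝ) * ((c : ℝ) - 1) / 2 := Nat.cast_choose_two ..
  rw [show (1 / 2 : ℝ) ^ c.choose 2 = (2 : ℝ) ^ (-((c.choose 2 : ℕ) : ℝ)) by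
    rw [Real.rpow_neg two_pos.le, Real.rpow_natCast, one_div, inv_pow],
    ← Real.rpow_natCast 2 m, ← Real.rpow_add two_pos, ← Real.rpow_add two_pos]
  refine Real.rpow_le_rpow_of_exponent_le one_le_two ?_
  rw [hch]
  have hc1 : 1 ≤ 3 * δ / 4 * (m : ℝ) := by nlinarith
  have h2 : 3 * δ / 4 * m * (3 * δ / 4 * m - 1) ≤ (c : ℝ) * ((c : ℝ) - 1) :=
    mul_le_mul hc (by linarith) (by linarith) (by linarith)
  have h3 : η * (m : ℝ) ^ 2 ≤ δ ^ 2 / 16 * (m : ℝ) ^ 2 :=
    mul_le_mul_of_nonneg_right (min_le_right _ _) (sq_nonneg _)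
  nlinarith

end Vale.Agent.P160R
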