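import Vale.Agent.P160R.Cover
import Vale.Agent.P160R.Defs
import Vale.Agent.P160R.Family.Asymp

/-!
# Subspaces of small determinant are close to few subspaces
-/

namespace Vale.Agent.P160R

open Matrix Fam

/-- A penalty of `2 ^ (2 b)` per dimension bounds the distance. -/
lemma dist_bound {ι : Type} [Fintype ι] [DecidableEq ι] {η : ℝ} (hη : 0 < η) {r r' : ℕ}
    {Z : Matrix ι (Fin r) ℤ} {Z' : Matrix ι (Fin r') ℤ} (hZ' : (Z'ᵀ * Z').det ≠ 0) {A b m : ℕ}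
    (h : (rgram Z').det * ((2 : ℝ) ^ b) ^ (2 * dist (spanZ Z) (spanZ Z')) ≤ (2 : ℝ) ^ (A * m))
    (hA : 1 ≤ A) (hAb : (A : ℝ) ≤ η * b) :
    (dist (spanZ Z) (spanZ Z') : ℝ) ≤ η * m := by
  have hpos := rgram_det_pos hZ'
  have h1 : (1 : ℝ) ≤ (rgram Z').det := by
    rw [rgram_det] at hpos ⊢
    have : (0 : ℤ) < (Z'ᵀ * Z').det := by exact_mod_cast hpos
    exact_mod_cast this
  have h2 := le_trans (le_mul_of_one_le_left (by positivity) h1) h
  rw [← pow_mul, pow_le_pow_iff_right₀ one_lt_two] at h2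
  have h3 := (Nat.cast_le (α := ℝ)).2 h2
  push_cast at h3
  have hA1 : (1 : ℝ) ≤ A := Nat.one_le_cast.2 hA
  have hd0 : (0 : ℝ) ≤ dist (spanZ Z) (spanZ Z') := Nat.cast_nonneg _
  refine le_of_mul_le_mul_left ?_ (lt_of_lt_of_le one_pos hA1)
  nlinarith [mul_le_mul_of_nonneg_left hAb hd0, mul_le_mul_of_nonneg_left h3 hη.le,
    mul_nonneg hη.le (mul_nonneg (zero_le_one.trans hA1) (Nat.cast_nonneg (α := ℝ) m))]

/-- The gap between join and meet is the distance. -/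
lemma finrank_gap {ι : Type} [Fintype ι] {V W : Submodule ℝ (ι → ℝ)} {x : ℝ}
    (h : (Fam.dist V W : ℝ) ≤ x) :
    (Module.finrank ℝ (V ⊔ W : Submodule ℝ (ι → ℝ)) : ℝ) ≤
      (Module.finrank ℝ (V ⊓ W : Submodule ℝ (ι → ℝ)) : ℝ) + x := by
  rw [Fam.dist, Nat.cast_sub (Submodule.finrank_mono inf_le_sup)] at h
  linarith

/-- The counting lemma. -/
theorem small_det_family (η : ℝ) (hη : 0 < η) :
    ∃ N : ℕ, ∀ (ι : Type) [Fintype ι] [DecidableEq ι], N ≤ Fintype.card ι →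
      ∃ F : Finset (Submodule ℝ (ι → ℝ)),
        (F.card : ℝ) ≤ (2 : ℝ) ^ (η * (Fintype.card ι : ℝ) ^ 2) ∧
        ∀ (r : ℕ) (Z : Matrix ι (Fin r) ℤ), LinearIndependent ℚ (fun k i => (Z i k : ℚ)) →
          ((((Zᵀ * Z).det : ℤ)) : ℝ) ≤ (2 : ℝ) ^ (lBudget (Fintype.card ι) * Fintype.card ι) →
          ∃ W ∈ F,
            (Module.finrank ℝ
                (Submodule.span ℝ (Set.range fun k i => (Z i k : ℝ)) ⊔ W : Submodule ℝ (ι → ℝ)) :
              ℝ) ≤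
              (Module.finrank ℝ
                (Submodule.span ℝ (Set.range fun k i => (Z i k : ℝ)) ⊓ W : Submodule ℝ (ι → ℝ)) :
              ℝ) + η * Fintype.card ι := by
  classical
  obtain ⟨C, k, hC, hshort⟩ := count_short
  obtain ⟨N, hN⟩ := Filter.eventually_atTop.1 (eventually_size η C k hη hC)
  refine ⟨max N 1, fun ι _ _ hι => ?_⟩
  set m := Fintype.card ι with hm
  obtain ⟨hnice, hsize⟩ := hN m (le_trans (le_max_left _ _) hι)
  have : Nonempty ι := Fintype.card_pos_iff.1 (le_trans (le_max_right _ _) hι)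
  obtain ⟨P, hP⟩ : ∃ P, P = pOf η m := ⟨_, rfl⟩
  rw [← hP] at hnice hsize
  set Λ := ⌈2 * (C * Real.log ((m : ℝ) + 2) ^ k * ((P.D : ℝ) ^ 2 * P.Θ m + 1))⌉₊ with hΛ
  have hΘ : 0 ≤ P.Θ m := by rw [Params.Θ]; positivity
  have hcount : ∀ (M : Matrix ι ι ℝ), Sparse M P.D → ∀ (δ : ℕ) (N : Matrix ι ι ℤ), 0 < δ →
      toR N = (δ : ℝ) • M → ∃ S : Finset (ι → ℝ), S.card ≤ 2 ^ Λ ∧
        ∀ z : ι → ℤ, (∑ i, (M *ᵥ castVec z) i ^ 2) ≤ P.Θ m → (M *ᵥ castVec z) ∈ S := by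
    intro M hM δ N hδ hMN
    obtain ⟨S, hS, hmem⟩ := hshort ι M P.D hnice.D1 hM δ N hδ hMN (P.Θ m) hΘ
    refine ⟨S, ?_, fun z hz => hmem z hz⟩
    have h : (S.card : ℝ) ≤ (2 : ℝ) ^ Λ := by
      refine hS.trans ?_
      have e2 : (2 : ℝ) ^ Λ = Real.exp (Λ * Real.log 2) := by
        rw [Real.exp_nat_mul, Real.exp_log two_pos]
      rw [e2]
      refine Real.exp_le_exp.2 ?_
      have h1 := Nat.le_ceil (2 * (C * Real.log ((m : ℝ) + 2) ^ k * ((P.D : ℝ) ^ 2 * P.Θ m + 1)))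
      rw [← hΛ] at h1
      show C * Real.log ((m : ℝ) + 2) ^ k * ((P.D : ℝ) ^ 2 * P.Θ m + 1) ≤ _
      nlinarith [Real.log_two_gt_d9, Nat.cast_nonneg (α := ℝ) Λ]
    exact_mod_cast h
  obtain ⟨h1, h2, h3, h4, h5⟩ := hnice.sizes
  obtain ⟨F, hF, hFmem⟩ := regular_card P hnice.e12 hcount h1 h2 h3 h4 h5 hnice.m_le
  refine ⟨F.image fun M => LinearMap.range M.mulVecLin, ?_, fun r Z hZ hdet => ?_⟩
  · calc ((F.image fun M => LinearMap.range M.mulVecLin).card : ℝ) ≤ (F.card : ℝ) := by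
          exact_mod_cast Finset.card_image_le
      _ ≤ (2 : ℝ) ^ (P.Φ m (lamOf P) Λ : ℝ) := by
          rw [Real.rpow_natCast]; exact_mod_cast hF
      _ ≤ _ := Real.rpow_le_rpow_of_exponent_le one_le_two hsize
  · have h0 := det_ne_zero_of_indep Z hZ
    have hbound : (rgram Z).det ≤ (2 : ℝ) ^ (P.A * m) := by
      rw [rgram_det, ← Real.rpow_natCast]
      refine hdet.trans (Real.rpow_le_rpow_of_exponent_le one_le_two ?_)
      push_cast
      refine mul_le_mul_of_nonneg_right ?_ (Nat.cast_nonneg _)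
      rw [hP]
      show lBudget m ≤ ((⌈lBudget m⌉₊ + 1 : ℕ) : ℝ)
      push_cast
      linarith [Nat.le_ceil (lBudget m)]
    obtain ⟨r', Z', hZ', hmin, hs1, hs2⟩ := exists_regular P.D hnice.D1 Z h0
    have hD1 : (1 : ℝ) ≤ P.D := Nat.one_le_cast.2 hnice.D1
    have hpos := rgram_det_pos hZ'
    have hsmall : (rgram Z').det ≤ (2 : ℝ) ^ (P.A * m) := by
      refine le_trans ?_ (hmin.trans hbound)
      exact le_mul_of_one_le_right hpos.le (one_le_pow₀ hD1)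
    have hreg : P.Reg Z' := by
      refine ⟨hZ', ?_, hs1, hs2⟩
      rw [rgram_det] at hsmall hpos
      have : (((Z'ᵀ * Z').det.natAbs : ℕ) : ℝ) ≤ ((2 ^ (P.A * m) : ℕ) : ℝ) := by
        rw [Nat.cast_natAbs, abs_of_nonneg (by exact_mod_cast hpos.le)]
        exact_mod_cast hsmall
      exact_mod_cast this
    refine ⟨spanZ Z', Finset.mem_image.2 ⟨_, hFmem r' Z' hreg, (spanZ_eq_range hZ').symm⟩, ?_⟩
    refine finrank_gap (dist_bound hη hZ' (b := ⌈(aOf m : ℝ) / η⌉₊) (A := P.A) ?_ hnice.A1 ?_)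
    · refine le_trans ?_ (hmin.trans hbound)
      rw [hP]
      exact le_of_eq (by simp [pOf])
    · rw [hP]
      show (aOf m : ℝ) ≤ _
      have := Nat.le_ceil ((aOf m : ℝ) / η)
      rw [div_le_iff₀ hη] at this
      linarith

end Vale.Agent.P160R
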