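import Vale.Agent.P160R.Zeros.Split
import Vale.Agent.P160R.Zeros.Asymp

/-!
# Few zeros modulo every prime
-/

namespace Vale.Agent.P160R

open Finset Matrix Filter Zeros
open scoped Classical

/-- Kernel vectors modulo a prime or a small prime power have at most `C n / log n` zero
entries. -/
theorem few_zeros (ε : ℝ) (hε : 0 < ε) :
    ∃ (C : ℝ) (N : ℕ), 0 < C ∧ ∀ (ι : Type) [Fintype ι] [DecidableEq ι], N ≤ Fintype.card ι →
      Pr (fun ω : Sym2 ι → Bool => ∃ (p s : ℕ) (z : ι → ℤ), p.Prime ∧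
          ZeroMod p s (Fintype.card ι) ∧ (∃ i, ¬ (p : ℤ) ∣ z i) ∧
          (∀ i, ((p ^ s : ℕ) : ℤ) ∣ (symM ℤ ω).mulVec z i) ∧
          C * Fintype.card ι / Real.log (Fintype.card ι) <
            (Nat.card {i // ((p ^ s : ℕ) : ℤ) ∣ z i} : ℝ)) ≤
        (2 : ℝ) ^ (-(1 - ε) * Fintype.card ι) := by
  have h5 : ∀ᶠ n : ℕ in atTop, (5 : ℝ) ≤ 2 ^ (ε / 2 * n) := by
    filter_upwards [tendsto_natCast_atTop_atTop.eventually_ge_atTop (6 / ε)] with n hn
    rw [div_le_iff₀ hε] at hn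
    calc (5 : ℝ) ≤ (2 : ℝ) ^ (3 : ℝ) := by norm_num
      _ ≤ _ := Real.rpow_le_rpow_of_exponent_le (by norm_num) (by linarith)
  obtain ⟨N, hN⟩ := eventually_atTop.1 ((eventually_root4 11).and ((units_estimate (ε / 2)
    (by positivity)).and (defic_estimate.and (big_estimate.and (small_estimate.and h5)))))
  refine ⟨320, N, by norm_num, fun ι _ _ hn => ?_⟩
  obtain ⟨hL, hU, hDe, hB, hS, h5n⟩ := hN _ hn
  set n := Fintype.card ι
  refine le_trans (Pr_mono (R := fun ω : Sym2 ι → Bool => FewTwo ω ∨ FewOdd ω ∨ Defic ω ∨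
    BadBig (zMin n) ω ∨ BadSmall (zMin n) ω) ?_) ?_
  · rintro ω ⟨p, s, z, hp, hm, hu, hAz, hz⟩
    by_contra h
    simp only [not_or] at h
    obtain ⟨h2, h3, hD, hb, hs⟩ := h
    refine (split_cases hL h2 h3 hD hp hm hu hAz (Z := zMin n) ?_).elim hb hs
    have hl : 0 ≤ Real.log (n : ℝ) := Real.log_natCast_nonneg n
    exact Nat.succ_le_of_lt ((Nat.floor_lt (by positivity)).2 hz)
  have hmono : (2 : ℝ) ^ (-(n : ℝ)) ≤ (2 : ℝ) ^ (-(1 - ε / 2) * n) :=
    Real.rpow_le_rpow_of_exponent_le (by norm_num) (by nlinarith [Nat.cast_nonneg (α := ℝ) n])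
  refine ((Pr_or _ _).trans (add_le_add (fewTwo_prob.trans hU) ((Pr_or _ _).trans
    (add_le_add (fewOdd_prob.trans hU) ((Pr_or _ _).trans
      (add_le_add ((defic_prob.trans hDe).trans hmono) ((Pr_or _ _).trans
        (add_le_add ((badBig_prob (zMin n) (le_trans (by norm_num) hL)).trans (hB.trans hmono))
          ((badSmall_prob (zMin n) hL).trans (hS.trans hmono)))))))))).trans ?_
  calc _ = 5 * (2 : ℝ) ^ (-(1 - ε / 2) * n) := by ring
    _ ≤ 2 ^ (ε / 2 * n) * (2 : ℝ) ^ (-(1 - ε / 2) * n) := by gcongr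
    _ = _ := by rw [← Real.rpow_add two_pos]; ring_nf

end Vale.Agent.P160R
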