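import Vale.Agent.P160R.Five.Rare
import Vale.Agent.P160R.Zeros
import Vale.Agent.P160R.Moment.Kernel

/-!
# The moment of the number of medium primes of corank two
-/

namespace Vale.Agent.P160R

open Finset Matrix
open scoped Classical

variable {ι : Type} [Fintype ι] [DecidableEq ι]

lemma det_natAbs_sq_le {B : Matrix ι ι ℤ} (h : IsSign B) :
    (B.det.natAbs : ℝ) ^ 2 ≤ (Fintype.card ι : ℝ) ^ Fintype.card ι := by
  rw [Nat.cast_natAbs, Int.cast_abs, sq_abs]
  exact det_sq_le h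

lemma four_mul_hypPrimes_card_le {δ : ℝ} {B : Matrix ι ι ℤ} (hm : 2 ≤ Fintype.card ι)
    (hB : IsSign B) (hdet : B.det ≠ 0) :
    4 * (1 - δ) * (hypPrimes δ B).card ≤ (Fintype.card ι : ℝ) := by
  have h := card_primes_le (δ := δ) (e := 2) hm (Int.natAbs_ne_zero.2 hdet) (det_natAbs_sq_le hB)
    (hypPrimes δ B) (fun p hp => by
      simp only [hypPrimes, mem_filter, Nat.mem_primeFactors] at hp
      exact ⟨hp.1.1, hp.2.2.2, hp.2.1⟩)
  norm_num at h
  linarith

/-- The number of medium corank-two primes is at most about `m / 4`. -/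
theorem hypPrimes_card_le (ε : ℝ) (hε : 0 < ε) (hε1 : ε ≤ 1 / 4) :
    ∃ N : ℕ, ∀ (ι : Type) [Fintype ι] [DecidableEq ι] (B : Matrix ι ι ℤ),
      N ≤ Fintype.card ι → IsSign B → B.det ≠ 0 → ∀ ε' : ℝ, 0 < ε' → ε' ≤ ε →
        ((hypPrimes ε' B).card : ℝ) ≤ (1 / 4 + ε) * Fintype.card ι := by
  refine ⟨2, fun ι _ _ B hm hB hdet δ hδ0 hδ => ?_⟩
  have h := four_mul_hypPrimes_card_le (δ := δ) hm hB hdet
  have hs : (0 : ℝ) ≤ (hypPrimes δ B).card := Nat.cast_nonneg _
  have h1 : 4 * (1 - ε) * (hypPrimes δ B).card ≤ (Fintype.card ι : ℝ) :=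
    le_trans (mul_le_mul_of_nonneg_right (by linarith) hs) h
  have h2 := mul_le_mul_of_nonneg_left h1 (show (0 : ℝ) ≤ 1 / 4 + ε by linarith)
  nlinarith [mul_nonneg (mul_nonneg hε.le (show (0 : ℝ) ≤ 3 - 4 * ε by linarith)) hs]

/-- A chosen kernel vector modulo a prime. -/
noncomputable def kerVec (B : Matrix ι ι ℤ) (p : ℕ) : ι → ℤ :=
  if h : ∃ z : ι → ℤ, (∃ l, ¬ (p : ℤ) ∣ z l) ∧ ∀ l, (p : ℤ) ∣ B.mulVec z l then h.choose else 0

/-- The large primes of the determinant. -/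
noncomputable def bigPrimes (δ : ℝ) (M : ℕ) (B : Matrix ι ι ℤ) : Finset ℕ :=
  B.det.natAbs.primeFactors.filter fun p => (M : ℝ) ^ (1 - δ) < p

/-- The large primes at which a column is orthogonal to the chosen kernel vector. -/
noncomputable def hitPrimes (δ : ℝ) (M : ℕ) (B : Matrix ι ι ℤ) (x : ι → Bool) : Finset ℕ :=
  (bigPrimes δ M B).filter fun p => (p : ℤ) ∣ signVec x ⬝ᵥ kerVec B p

omit [DecidableEq ι] in
lemma kerVec_spec {B : Matrix ι ι ℤ} {p : ℕ}
    (h : ∃ z : ι → ℤ, (∃ l, ¬ (p : ℤ) ∣ z l) ∧ ∀ l, (p : ℤ) ∣ B.mulVec z l) :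
    (∃ l, ¬ (p : ℤ) ∣ kerVec B p l) ∧ ∀ l, (p : ℤ) ∣ B.mulVec (kerVec B p) l := by
  rw [kerVec, dif_pos h]
  exact h.choose_spec

/-- One good index loses few primes, and its column hits all the others. -/
lemma exists_good_index {δ θ : ℝ} {ω : Sym2 ι → Bool} (hm : 2 ≤ Fintype.card ι)
    (hz : ∀ p ∈ hypPrimes δ (symM ℤ ω), ∀ z : ι → ℤ, (∃ l, ¬ (p : ℤ) ∣ z l) →
      (∀ l, (p : ℤ) ∣ (symM ℤ ω).mulVec z l) →
      (Nat.card {l // (p : ℤ) ∣ z l} : ℝ) ≤ θ) :
    ∃ i : ι, (symM ℤ (restrictSigns Subtype.val ω : Sym2 {l // l ≠ i} → Bool)).det = 0 ∨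
      ((hypPrimes δ (symM ℤ ω)).card : ℝ) ≤
        (hypPrimes δ (symM ℤ ω)).card * θ / Fintype.card ι +
          (hitPrimes δ (Fintype.card ι)
            (symM ℤ (restrictSigns Subtype.val ω : Sym2 {l // l ≠ i} → Bool))
            (fun l => ω s(l.1, i))).card := by
  set B := symM ℤ ω with hB
  set S := hypPrimes δ B with hSdef
  have hS : ∀ p ∈ S, p.Prime ∧ corankMod p B = 2 ∧ (Fintype.card ι : ℝ) ^ (1 - δ) < p :=
    fun p hp => by
      simp only [hSdef, hypPrimes, mem_filter, Nat.mem_primeFactors] at hp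
      exact ⟨hp.1.1, hp.2.2.1, hp.2.1⟩
  choose z hz1 hz2 using fun p hp => (exists_kernel_of_corank_two (hS p hp).1 B (hS p hp).2.1).1
  let z' : ℕ → ι → ℤ := fun p => if h : p ∈ S then z p h else 0
  let bad : ι → Finset ℕ := fun i => S.filter fun p => (p : ℤ) ∣ z' p i
  have hsum : (∑ i : ι, ((bad i).card : ℝ)) ≤ S.card * θ := by
    have e : ∑ i : ι, (bad i).card = ∑ p ∈ S, (univ.filter fun i => (p : ℤ) ∣ z' p i).card := by
      simp only [bad, card_filter]
      exact sum_comm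
    rw [← Nat.cast_sum, e, Nat.cast_sum]
    refine (sum_le_sum fun p hp => ?_).trans_eq (by rw [sum_const, nsmul_eq_mul])
    have h1 := hz p hp (z p hp) (hz1 p hp) (hz2 p hp)
    rw [Nat.card_eq_fintype_card, Fintype.card_subtype] at h1
    simpa [z', hp] using h1
  have hne : (univ : Finset ι).Nonempty := univ_nonempty_iff.2 (Fintype.card_pos_iff.1 (by omega))
  have hmpos : (0 : ℝ) < Fintype.card ι := by exact_mod_cast (show 0 < Fintype.card ι by omega)
  obtain ⟨i, -, hi⟩ := exists_le_of_sum_le hne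
    (show ∑ i : ι, ((bad i).card : ℝ) ≤ ∑ _i : ι, S.card * θ / Fintype.card ι by
      rw [sum_const, card_univ, nsmul_eq_mul, mul_div_cancel₀ _ hmpos.ne']
      exact hsum)
  refine ⟨i, ?_⟩
  set ω' : Sym2 {l // l ≠ i} → Bool := restrictSigns Subtype.val ω
  rcases eq_or_ne (symM ℤ ω').det 0 with h0 | h0
  · exact Or.inl h0
  refine Or.inr ?_
  have hsub : S \ bad i ⊆ hitPrimes δ (Fintype.card ι) (symM ℤ ω') (fun l => ω s(l.1, i)) := by
    intro p hp
    simp only [mem_sdiff, bad, mem_filter, not_and] at hp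
    obtain ⟨hpS, hpi⟩ := hp
    obtain ⟨hpp, hpc, hpb⟩ := hS p hpS
    have hzi : ¬ (p : ℤ) ∣ z p hpS i := by simpa [z', hpS] using hpi hpS
    obtain ⟨k, hk1, hk2, hk3⟩ := (exists_kernel_of_corank_two hpp B hpc).2 i
    have hd : p ∣ (symM ℤ ω').det.natAbs := by
      rw [symM_restrict]
      exact dvd_det_minor hpp B i k hk1 hk3 hk2
    simp only [hitPrimes, bigPrimes, mem_filter, Nat.mem_primeFactors]
    refine ⟨⟨⟨hpp, hd, Int.natAbs_ne_zero.2 h0⟩, hpb⟩, ?_⟩
    have hw := (kerVec_spec (exists_kernel_of_dvd_det hpp _ hd)).2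
    generalize kerVec (symM ℤ ω') p = u at hw ⊢
    rw [symM_restrict] at hw
    exact dvd_column_dot hpp (isSign_symM ω).1 i (z p hpS) hzi (hz2 p hpS) u hw
  have h1 : S.card ≤ (bad i).card +
      (hitPrimes δ (Fintype.card ι) (symM ℤ ω') (fun l => ω s(l.1, i))).card := by
    have := card_le_card hsub
    have h2 := le_card_sdiff (bad i) S
    omega
  have h1' : (S.card : ℝ) ≤ (bad i).card +
      (hitPrimes δ (Fintype.card ι) (symM ℤ ω') (fun l => ω s(l.1, i))).card := by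
    exact_mod_cast h1
  linarith

/-- The rare event for a minor, at the parameter `η`. -/
def ManyPoints (η : ℝ) (B : Matrix ι ι ℤ) : Prop :=
  ∃ (T : Finset ℕ) (w : ℕ → ι → ℤ), η * Fintype.card ι ≤ T.card ∧
    (∀ p ∈ T, p.Prime ∧ (Fintype.card ι : ℝ) ^ (9 / 10 : ℝ) < p ∧
      (∃ i, ¬ (p : ℤ) ∣ w p i) ∧ ∀ i, (p : ℤ) ∣ B.mulVec (w p) i) ∧
    (2 : ℝ) ^ (η * Fintype.card ι) <
      (Nat.card {x : ι → Bool // ∀ p ∈ T, (p : ℤ) ∣ signVec x ⬝ᵥ w p} : ℝ)

/-- The average of `2 ^ (hit primes)` over the columns, for one minor outside the rare event. -/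
lemma sum_hit_le {η : ℝ} {M : ℕ} (hη0 : 0 < η) (hη : η ≤ 1 / 10) (hM : 2 ≤ M)
    {B : Matrix ι ι ℤ} (hιM : Fintype.card ι ≤ M) (hB : IsSign B) (hdet : B.det ≠ 0)
    (hgood : ¬ ManyPoints η B) :
    ∑ x : ι → Bool, (2 : ℝ) ^ (hitPrimes η M B x).card ≤
      (2 : ℝ) ^ ((Fintype.card ι : ℝ) + η * M) + (2 : ℝ) ^ ((1 + 3 * η) * M) := by
  set P := bigPrimes η M B with hP
  set n := Fintype.card ι with hn
  have hnM : (n : ℝ) ≤ M := by exact_mod_cast hιM
  set big := P.powerset.filter fun T : Finset ℕ => η * (n : ℝ) ≤ T.card with hbig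
  have hpoint : ∀ x : ι → Bool, (2 : ℝ) ^ (hitPrimes η M B x).card ≤ (2 : ℝ) ^ (η * M) +
      (2 : ℝ) ^ P.card * ∑ T ∈ big,
        if ∀ p ∈ T, (p : ℤ) ∣ signVec x ⬝ᵥ kerVec B p then (1 : ℝ) else 0 := by
    intro x
    set H := hitPrimes η M B x with hH
    have hsum : 0 ≤ ∑ T ∈ big,
        if ∀ p ∈ T, (p : ℤ) ∣ signVec x ⬝ᵥ kerVec B p then (1 : ℝ) else 0 :=
      sum_nonneg fun T _ => by split_ifs <;> norm_num
    rcases lt_or_ge (H.card : ℝ) (η * n) with h | h
    · refine le_add_of_le_of_nonneg ?_ (mul_nonneg (by positivity) hsum)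
      rw [← Real.rpow_natCast]
      exact Real.rpow_le_rpow_of_exponent_le (by norm_num)
        (h.le.trans (mul_le_mul_of_nonneg_left hnM hη0.le))
    · refine le_add_of_nonneg_of_le (by positivity) ?_
      have hHP : H ⊆ P := filter_subset _ _
      refine le_trans (pow_le_pow_right₀ (by norm_num) (card_le_card hHP))
        (le_mul_of_one_le_right (by positivity) ?_)
      refine le_trans (le_of_eq ?_) (single_le_sum
        (fun T _ => by split_ifs <;> norm_num)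
        (mem_filter.2 ⟨mem_powerset.2 hHP, h⟩ : H ∈ big))
      rw [if_pos]
      intro p hp
      exact (mem_filter.1 hp).2
  have hcount : ∀ T ∈ big, (∑ x : ι → Bool,
      if ∀ p ∈ T, (p : ℤ) ∣ signVec x ⬝ᵥ kerVec B p then (1 : ℝ) else 0) ≤
        (2 : ℝ) ^ (η * M) := by
    intro T hT
    rw [sum_boole]
    obtain ⟨hTP, hTc⟩ := mem_filter.1 hT
    by_contra hlt
    refine hgood ⟨T, kerVec B, hTc, fun p hp => ?_, ?_⟩
    · have hp' := mem_powerset.1 hTP hp
      simp only [hP, bigPrimes, mem_filter, Nat.mem_primeFactors] at hp'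
      refine ⟨hp'.1.1, lt_of_le_of_lt ?_ hp'.2,
        kerVec_spec (exists_kernel_of_dvd_det hp'.1.1 B hp'.1.2.1)⟩
      refine (Real.rpow_le_rpow (Nat.cast_nonneg _) hnM (by norm_num)).trans ?_
      exact Real.rpow_le_rpow_of_exponent_le
        (by exact_mod_cast (show 1 ≤ M by omega)) (by linarith)
    · rw [Nat.card_eq_fintype_card, Fintype.card_subtype]
      exact lt_of_le_of_lt (Real.rpow_le_rpow_of_exponent_le (by norm_num)
        (mul_le_mul_of_nonneg_left hnM hη0.le)) (not_le.1 hlt)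
  refine (sum_le_sum fun x _ => hpoint x).trans ?_
  rw [sum_add_distrib, sum_const, card_univ, Fintype.card_fun, Fintype.card_bool, nsmul_eq_mul,
    ← mul_sum, sum_comm]
  refine add_le_add (le_of_eq ?_) ?_
  · push_cast
    rw [← hn, ← Real.rpow_natCast, ← Real.rpow_add (by norm_num)]
  have hPcard : (P.card : ℝ) * 2 ≤ (1 + 2 * η) * M := by
    have hn2 : ((B.det.natAbs : ℕ) : ℝ) ^ 2 ≤ (M : ℝ) ^ M := by
      refine (det_natAbs_sq_le hB).trans ((pow_le_pow_left₀ (Nat.cast_nonneg _)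
        (Nat.cast_le.2 hιM) _).trans (pow_le_pow_right₀ ?_ hιM))
      exact_mod_cast (show 1 ≤ M by omega)
    have h := card_primes_le (δ := η) (e := 1) hM (Int.natAbs_ne_zero.2 hdet) hn2 P (fun p hp => by
      simp only [hP, bigPrimes, mem_filter, Nat.mem_primeFactors] at hp
      exact ⟨hp.1.1, by rw [pow_one]; exact hp.1.2.1, hp.2⟩)
    simp only [Nat.cast_one] at h
    have hP0 : (0 : ℝ) ≤ P.card := Nat.cast_nonneg _
    have h1 := mul_le_mul_of_nonneg_left (show (P.card : ℝ) * (2 * (1 - η)) ≤ M by linarith)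
      (show (0 : ℝ) ≤ 1 + 2 * η by linarith)
    nlinarith [mul_nonneg (mul_nonneg hη0.le (show (0 : ℝ) ≤ 1 - 2 * η by linarith)) hP0]
  refine (mul_le_mul_of_nonneg_left (sum_le_sum hcount) (by positivity)).trans ?_
  rw [sum_const, nsmul_eq_mul]
  have hbigc : (big.card : ℝ) ≤ (2 : ℝ) ^ P.card := by
    have := card_le_card (filter_subset (fun T : Finset ℕ => η * (n : ℝ) ≤ T.card) P.powerset)
    rw [card_powerset] at this
    exact_mod_cast this
  refine (mul_le_mul_of_nonneg_left (mul_le_mul_of_nonneg_right hbigc (by positivity))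
    (by positivity)).trans ?_
  rw [← Real.rpow_natCast (2 : ℝ) P.card, ← Real.rpow_add (by norm_num),
    ← Real.rpow_add (by norm_num)]
  exact Real.rpow_le_rpow_of_exponent_le (by norm_num) (by linarith)

omit [DecidableEq ι] in
/-- The size conditions used in the moment bound. -/
lemma moment_parameters (ε C : ℝ) (hε : 0 < ε) :
    ∃ (η : ℝ) (N : ℕ), 0 < η ∧ η ≤ ε / 12 ∧ η ≤ 1 / 10 ∧ 4 ≤ N ∧
      ∀ m : ℕ, N ≤ m → C ≤ η * Real.log m ∧ 8 * (m : ℝ) ≤ (2 : ℝ) ^ (ε / 2 * m) := by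
  set η := min (ε / 12) (1 / 10)
  have hη : 0 < η := lt_min (by linarith) (by norm_num)
  have hb : (1 : ℝ) < (2 : ℝ) ^ (ε / 2) := Real.one_lt_rpow (by norm_num) (by linarith)
  obtain ⟨N₁, hN₁⟩ := Filter.eventually_atTop.1 (eventually_linear_le hb)
  obtain ⟨N₂, hN₂⟩ := exists_nat_ge (Real.exp (C / η))
  refine ⟨η, max 4 (max N₁ N₂), hη, min_le_left _ _, min_le_right _ _, le_max_left _ _,
    fun m hm => ?_⟩
  simp only [max_le_iff] at hm
  refine ⟨?_, ?_⟩
  · have h1 : C / η ≤ Real.log m := by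
      rw [← Real.log_exp (C / η)]
      exact Real.log_le_log (Real.exp_pos _) (hN₂.trans (Nat.cast_le.2 hm.2.2))
    rw [div_le_iff₀ hη] at h1
    linarith
  · rw [Real.rpow_mul_natCast (by norm_num)]
    exact hN₁ m hm.2.1
where
  eventually_linear_le {b : ℝ} (hb : 1 < b) : ∀ᶠ n : ℕ in Filter.atTop, 8 * (n : ℝ) ≤ b ^ n := by
    have h1 := (isLittleO_coe_const_pow_of_one_lt (R := ℝ) hb).def (show (0 : ℝ) < 1 / 8 by norm_num)
    filter_upwards [h1] with n hn
    rw [Real.norm_eq_abs, Real.norm_eq_abs, abs_of_nonneg (Nat.cast_nonneg _),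
      abs_of_nonneg (by positivity)] at hn
    linarith

omit [DecidableEq ι] in
/-- The rare event is negligible against the main term. -/
lemma rare_minor_le {ε : ℝ} {n m : ℕ} (hnR : (n : ℝ) + 1 = m) (hεm : 1 ≤ ε / 6 * (m : ℝ))
    (hlin : 8 * (m : ℝ) ≤ (2 : ℝ) ^ (ε / 2 * m)) (hm : (4 : ℝ) ≤ m) :
    (2 : ℝ) ^ ((1 / 2 : ℝ) * m) * (2 : ℝ) ^ (-2 * (n : ℝ)) ≤ (2 : ℝ) ^ (ε * m) / (4 * m) := by
  rw [le_div_iff₀ (by linarith)]
  refine le_trans (mul_le_mul_of_nonneg_left (show (4 * (m : ℝ)) ≤ (2 : ℝ) ^ (ε / 2 * m) by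
    linarith) (by positivity)) ?_
  rw [← Real.rpow_add (by norm_num), ← Real.rpow_add (by norm_num)]
  refine Real.rpow_le_rpow_of_exponent_le (by norm_num) ?_
  nlinarith

/-- The contribution of a minor outside the rare event. -/
lemma good_minor_le {ε η : ℝ} {m : ℕ} (hη0 : 0 < η) (hη : η ≤ 1 / 10) (hηε : η ≤ ε / 12)
    (hm : 2 ≤ m) (hιm : Fintype.card ι ≤ m) {B : Matrix ι ι ℤ} (hB : IsSign B) (hdet : B.det ≠ 0)
    (hgood : ¬ ManyPoints η B) (hεm : 1 ≤ ε / 6 * (m : ℝ))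
    (hlin : 8 * (m : ℝ) ≤ (2 : ℝ) ^ (ε / 2 * m)) :
    2 * ((2 : ℝ) ^ (η * m) * ∑ x : ι → Bool, (2 : ℝ) ^ (hitPrimes η m B x).card) ≤
      (2 : ℝ) ^ (ε * m) / (4 * m) * (2 : ℝ) ^ m := by
  have hsum := sum_hit_le (η := η) (M := m) hη0 hη hm hιm hB hdet hgood
  have hnm : (Fintype.card ι : ℝ) ≤ m := by exact_mod_cast hιm
  have hm0 : (0 : ℝ) < m := by exact_mod_cast (show 0 < m by omega)
  have e1 : (2 : ℝ) ^ ((Fintype.card ι : ℝ) + η * m) ≤ (2 : ℝ) ^ ((1 + 3 * η) * m) :=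
    Real.rpow_le_rpow_of_exponent_le (by norm_num) (by nlinarith)
  refine le_trans (mul_le_mul_of_nonneg_left (mul_le_mul_of_nonneg_left
    (hsum.trans (add_le_add e1 le_rfl)) (show (0 : ℝ) ≤ (2 : ℝ) ^ (η * m) by positivity))
    (show (0 : ℝ) ≤ 2 by norm_num)) ?_
  rw [div_mul_eq_mul_div, le_div_iff₀ (by positivity)]
  have h16 : 16 * (m : ℝ) ≤ (2 : ℝ) ^ (ε / 2 * m + 1) := by
    rw [Real.rpow_add (by norm_num), Real.rpow_one]
    linarith
  have hkey : (2 : ℝ) ^ (η * m) * (2 : ℝ) ^ ((1 + 3 * η) * m) * (16 * m) ≤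
      (2 : ℝ) ^ (ε * m) * (2 : ℝ) ^ m := by
    refine le_trans (mul_le_mul_of_nonneg_left h16 (by positivity)) ?_
    rw [← Real.rpow_natCast (2 : ℝ) m, ← Real.rpow_add (by norm_num),
      ← Real.rpow_add (by norm_num), ← Real.rpow_add (by norm_num)]
    refine Real.rpow_le_rpow_of_exponent_le (by norm_num) ?_
    nlinarith [mul_le_mul_of_nonneg_right hηε hm0.le]
  linarith

/-- Moment bound, in terms of the singularity of the principal minors. -/
theorem hyp_moment (ε : ℝ) (hε : 0 < ε) :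
    ∃ (ε' : ℝ) (N : ℕ), 0 < ε' ∧ ε' ≤ ε ∧
      ∀ (ι : Type) [Fintype ι] [DecidableEq ι], N ≤ Fintype.card ι →
        Ex (fun ω : Sym2 ι → Bool => if (symM ℤ ω).det = 0 then 0
            else (2 : ℝ) ^ ((hypPrimes ε' (symM ℤ ω)).card : ℝ)) ≤
          (2 : ℝ) ^ (ε * Fintype.card ι) +
          (2 : ℝ) ^ ((1 / 4 + ε) * Fintype.card ι) *
            ∑ i : ι, Pr (fun ω : Sym2 {l // l ≠ i} → Bool => (symM ℤ ω).det = 0) := by
  set ε₀ := min ε (1 / 4) with hε₀
  have hε₀0 : 0 < ε₀ := lt_min hε (by norm_num)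
  obtain ⟨C, Nz, hC, hzero⟩ := few_zeros ε₀ hε₀0
  obtain ⟨η, Nη, hη, hηε, hη10, hNη4, hlarge⟩ := moment_parameters ε C hε
  obtain ⟨Nc, hcard⟩ := hypPrimes_card_le ε₀ hε₀0 (min_le_right _ _)
  obtain ⟨Na, hrare⟩ := Five.many_points_rare η η hη hη
  obtain ⟨N6, hN6'⟩ := exists_nat_ge (6 / ε)
  have hN6 : 1 ≤ ε / 6 * (N6 : ℝ) := by
    rw [div_le_iff₀ hε] at hN6'
    linarith
  refine ⟨η, max (max Nz Nη) (max Nc (max (Na + 1) N6)), hη, by linarith, fun ι _ _ hm => ?_⟩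
  simp only [max_le_iff] at hm
  obtain ⟨hlog, hlin⟩ := hlarge _ hm.1.2
  have hlarge1 : 1 ≤ ε / 6 * (Fintype.card ι : ℝ) := hN6.trans (mul_le_mul_of_nonneg_left (Nat.cast_le.2 hm.2.2.2) (by positivity))
  set m := Fintype.card ι with hmdef
  have hm4 : 4 ≤ m := hNη4.trans hm.1.2
  have hmR : (4 : ℝ) ≤ m := by exact_mod_cast hm4
  set A := (2 : ℝ) ^ ((1 / 4 + ε₀) * m) with hA
  let bad : (Sym2 ι → Bool) → Prop := fun ω => ∃ (p s : ℕ) (z : ι → ℤ), p.Prime ∧
    ZeroMod p s m ∧ (∃ i, ¬ (p : ℤ) ∣ z i) ∧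
    (∀ i, ((p ^ s : ℕ) : ℤ) ∣ (symM ℤ ω).mulVec z i) ∧
    C * m / Real.log m < (Nat.card {i // ((p ^ s : ℕ) : ℤ) ∣ z i} : ℝ)
  let g : ∀ i : ι, (Sym2 {l // l ≠ i} → Bool) → ({l // l ≠ i} → Bool) → Bool → ℝ :=
    fun i ω' x _ => if (symM ℤ ω').det = 0 ∨ ManyPoints η (symM ℤ ω') then A
      else (2 : ℝ) ^ (η * m) * (2 : ℝ) ^ (hitPrimes η m (symM ℤ ω') x).card
  have hg0 : ∀ i ω' x b, 0 ≤ g i ω' x b := fun i ω' x b => by
    simp only [g]; split_ifs <;> positivity
  have hpoint : ∀ ω : Sym2 ι → Bool, (if (symM ℤ ω).det = 0 then (0 : ℝ)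
      else (2 : ℝ) ^ ((hypPrimes η (symM ℤ ω)).card : ℝ)) ≤ A * (if bad ω then 1 else 0) +
        ∑ i, g i (restrictSigns Subtype.val ω) (fun l => ω s(l.1, i)) (ω s(i, i)) := by
    intro ω
    have hG : 0 ≤ ∑ i, g i (restrictSigns Subtype.val ω) (fun l => ω s(l.1, i)) (ω s(i, i)) :=
      sum_nonneg fun i _ => hg0 i _ _ (ω s(i, i))
    have hA0 : 0 ≤ A := by positivity
    by_cases hd : (symM ℤ ω).det = 0
    · rw [if_pos hd]
      positivity
    rw [if_neg hd]
    have hS4 := four_mul_hypPrimes_card_le (δ := η) (by omega) (isSign_symM ω) hd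
    set s := ((hypPrimes η (symM ℤ ω)).card : ℝ) with hsdef
    have hs0 : 0 ≤ s := Nat.cast_nonneg _
    have hsA : (2 : ℝ) ^ s ≤ A := by
      refine Real.rpow_le_rpow_of_exponent_le (by norm_num) ?_
      exact hcard ι (symM ℤ ω) hm.2.1 (isSign_symM ω) hd η hη (le_min (by linarith) (by linarith))
    by_cases hbad : bad ω
    · rw [if_pos hbad, mul_one]
      linarith
    rw [if_neg hbad, mul_zero, zero_add]
    obtain ⟨i, hi⟩ := exists_good_index (ω := ω) (δ := η) (θ := C * m / Real.log m) (by omega)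
      (fun p hp z hz1 hz2 => by
        simp only [hypPrimes, mem_filter, Nat.mem_primeFactors] at hp
        by_contra hcon
        refine hbad ⟨p, 1, z, hp.1.1, ⟨le_rfl, ?_, Or.inl rfl⟩, hz1, by simpa using hz2, ?_⟩
        · have hp1 : (m : ℝ) ^ (1 - η) < p := hp.2.1
          have h2 : ((m : ℝ) ^ (1 - η)) ^ 5 ≤ (p : ℝ) ^ 5 :=
            pow_le_pow_left₀ (by positivity) hp1.le 5
          have h3 : (m : ℝ) ^ (2 : ℕ) ≤ ((m : ℝ) ^ (1 - η)) ^ 5 := by
            rw [← Real.rpow_mul_natCast (by positivity), ← Real.rpow_natCast]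
            refine Real.rpow_le_rpow_of_exponent_le (by linarith) ?_
            push_cast
            linarith
          have h4 : ((m ^ 2 : ℕ) : ℝ) ≤ ((32 * (p ^ 1) ^ 5 : ℕ) : ℝ) := by
            push_cast
            simp only [pow_one]
            nlinarith [pow_nonneg (Nat.cast_nonneg (α := ℝ) p) 5]
          exact_mod_cast h4
        · simp only [pow_one]
          exact lt_of_not_ge hcon)
    refine le_trans ?_ (single_le_sum (fun j _ => hg0 j _ _ (ω s(j, j))) (mem_univ i))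
    simp only [g]
    split_ifs with h0
    · exact hsA
    have hcount := hi.resolve_left (not_or.1 h0).1
    rw [← Real.rpow_natCast (2 : ℝ) (hitPrimes _ _ _ _).card, ← Real.rpow_add (by norm_num)]
    refine Real.rpow_le_rpow_of_exponent_le (by norm_num) (hcount.trans (add_le_add ?_ le_rfl))
    rw [← hsdef, ← hmdef]
    have hlm : 0 < Real.log (m : ℝ) := Real.log_pos (by linarith)
    have hsm : s ≤ m := by
      nlinarith [mul_le_mul_of_nonneg_right (show (3 : ℝ) ≤ 4 * (1 - η) by linarith) hs0]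
    rw [show s * (C * m / Real.log m) / m = C / Real.log m * s by field_simp]
    refine mul_le_mul ?_ hsm hs0 hη.le
    rw [div_le_iff₀ hlm]
    linarith
  refine (Ex_mono hpoint).trans ?_
  have hadd : ∀ (u : (Sym2 ι → Bool) → ℝ) (v : ι → (Sym2 ι → Bool) → ℝ),
      Ex (fun ω => A * u ω + ∑ i, v i ω) = A * Ex u + ∑ i, Ex (v i) := by
    intro u v
    simp only [Ex, sum_add_distrib, ← mul_sum, ← Finset.sum_div, add_div, mul_div_assoc]
    rw [sum_comm]
  rw [hadd, ← Pr_eq_Ex]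
  set R := (2 : ℝ) ^ (ε * m) with hR
  have hR1 : 1 ≤ R := Real.one_le_rpow (by norm_num) (by positivity)
  have hfirst : A * Pr bad ≤ R / 2 := by
    refine (mul_le_mul_of_nonneg_left (hzero ι hm.1.1) (by positivity)).trans ?_
    rw [hA, ← Real.rpow_add (by norm_num)]
    have h1 : (1 / 4 + ε₀) * (m : ℝ) + -(1 - ε₀) * m ≤ -1 := by
      nlinarith [mul_le_mul_of_nonneg_right (min_le_right ε (1 / 4 : ℝ)) (show (0 : ℝ) ≤ m by linarith)]
    refine (Real.rpow_le_rpow_of_exponent_le (by norm_num) h1).trans ?_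
    rw [Real.rpow_neg_one]
    linarith
  have hone : ∀ i : ι, Ex (fun ω : Sym2 ι → Bool =>
      g i (restrictSigns Subtype.val ω) (fun l => ω s(l.1, i)) (ω s(i, i))) ≤
        (2 : ℝ) ^ ((1 / 4 + ε) * m) *
          Pr (fun ω : Sym2 {l // l ≠ i} → Bool => (symM ℤ ω).det = 0) + R / (2 * m) := by
    intro i
    have hκ : Fintype.card {l // l ≠ i} + 1 = m := by
      rw [hmdef]
      simp only [ne_eq, Fintype.card_subtype_compl, Fintype.card_subtype_eq]
      omega
    rw [Ex_split i (g i), ← hmdef]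
    set n := Fintype.card {l // l ≠ i}
    have hnR : (n : ℝ) + 1 = m := by exact_mod_cast hκ
    have h2m : (2 : ℝ) ^ m = 2 ^ n * 2 := by rw [← hκ, pow_succ]
    have hA2 : A ≤ (2 : ℝ) ^ ((1 / 2 : ℝ) * m) :=
      Real.rpow_le_rpow_of_exponent_le (by norm_num)
        (mul_le_mul_of_nonneg_right (by linarith [min_le_right ε (1 / 4 : ℝ)]) (by linarith))
    have hle : ∀ ω' : Sym2 {l // l ≠ i} → Bool,
        (∑ x : {l // l ≠ i} → Bool, (g i ω' x true + g i ω' x false)) / (2 : ℝ) ^ m ≤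
          A * (if (symM ℤ ω').det = 0 then 1 else 0) +
          (A * (if (symM ℤ ω').det ≠ 0 ∧ ManyPoints η (symM ℤ ω') then 1 else 0) +
            R / (4 * m)) := by
      intro ω'
      have hR0 : 0 ≤ R / (4 * m) := by positivity
      rw [div_le_iff₀ (by positivity)]
      simp only [g, ← two_mul, ← mul_sum]
      by_cases h0 : (symM ℤ ω').det = 0 ∨ ManyPoints η (symM ℤ ω')
      · simp only [if_pos h0, sum_const, card_univ, Fintype.card_fun, Fintype.card_bool,
          nsmul_eq_mul]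
        push_cast
        rw [h2m]
        have hA0 : 0 ≤ A := by positivity
        have h1 : A ≤ A * (if (symM ℤ ω').det = 0 then 1 else 0) +
            (A * (if (symM ℤ ω').det ≠ 0 ∧ ManyPoints η (symM ℤ ω') then 1 else 0) +
              R / (4 * m)) := by
          by_cases hd : (symM ℤ ω').det = 0
          · simp only [hd, ne_eq, not_true_eq_false, false_and, if_true, if_false, mul_one,
              mul_zero, zero_add]
            linarith
          · have hmp : ManyPoints η (symM ℤ ω') := h0.resolve_left hd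
            simp only [hd, hmp, ne_eq, not_false_eq_true, and_self, if_true, if_false, mul_one,
              mul_zero, zero_add]
            linarith
        have := mul_le_mul_of_nonneg_right h1 (show (0 : ℝ) ≤ 2 ^ n * 2 by positivity)
        linarith
      · obtain ⟨hd, hmp⟩ := not_or.1 h0
        simp only [hd, hmp, or_self, and_false, if_false, mul_zero, zero_add, ← mul_sum]
        exact good_minor_le hη hη10 hηε (by omega) (by omega) (isSign_symM ω') hd hmp hlarge1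
          (hlarge _ hm.1.2).2
    refine (Ex_mono hle).trans ?_
    have hEx : ∀ (c : ℝ) (u v : (Sym2 {l // l ≠ i} → Bool) → ℝ),
        Ex (fun ω => A * u ω + (A * v ω + c)) = A * Ex u + (A * Ex v + c) := by
      intro c u v
      simp only [Ex, sum_add_distrib, ← mul_sum, add_div, sum_const, card_univ, Fintype.card_fun,
        Fintype.card_bool, nsmul_eq_mul]
      push_cast
      field_simp
    have hPr : ∀ (Q : (Sym2 {l // l ≠ i} → Bool) → Prop) [DecidablePred Q],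
        Ex (fun ω => if Q ω then (1 : ℝ) else 0) = Pr Q := fun Q _ => by
      rw [Pr_eq_Ex]; congr! 3
    rw [hEx, hPr (fun ω => (symM ℤ ω).det = 0),
      hPr (fun ω => (symM ℤ ω).det ≠ 0 ∧ ManyPoints η (symM ℤ ω))]
    refine add_le_add (mul_le_mul_of_nonneg_right ?_ (Pr_nonneg _)) ?_
    · refine Real.rpow_le_rpow_of_exponent_le (by norm_num) ?_
      exact mul_le_mul_of_nonneg_right (by linarith [min_le_left ε (1 / 4 : ℝ)]) (by linarith)
    have h1 : A * Pr (fun ω : Sym2 {l // l ≠ i} → Bool =>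
        (symM ℤ ω).det ≠ 0 ∧ ManyPoints η (symM ℤ ω)) ≤
        (2 : ℝ) ^ ((1 / 2 : ℝ) * m) * (2 : ℝ) ^ (-2 * (n : ℝ)) :=
      mul_le_mul hA2 (hrare {l // l ≠ i} (by omega)) (Pr_nonneg _) (by positivity)
    have h2 := rare_minor_le hnR hlarge1 hlin (by linarith)
    have e : R / (4 * m) + R / (4 * m) = R / (2 * m) := by ring
    rw [← e]
    exact add_le_add (h1.trans h2) le_rfl
  refine (add_le_add hfirst (sum_le_sum fun i _ => hone i)).trans (le_of_eq ?_)
  rw [sum_add_distrib, ← mul_sum, sum_const, card_univ, nsmul_eq_mul, ← hmdef]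
  field_simp
  ring

end Vale.Agent.P160R
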