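import Vale.Agent.P160R.Cover
import Vale.Agent.P160R.Defs
import Vale.Agent.P160R.Points.Rank
import Vale.Agent.P160R.Points.Asymp

/-!
# Few cube points in one almost integral lattice
-/

namespace Vale.Agent.P160R

open Finset Matrix Points
open scoped Classical

namespace Points

variable {ι : Type} [Fintype ι] [DecidableEq ι]

/-- A small sublattice of a lattice of small weight has small rank. -/
lemma rank_le_of_not_cheap {B : Matrix ι ι ℤ} (hB : B.IsSymm) (hdet : B.det ≠ 0) {δ C s : ℝ}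
    (hs : 1 ≤ s) (hlog : 0 < Real.log s) (hδ : (C + 1) ≤ δ * Real.log s)
    (hm : 1 ≤ Fintype.card ι) (hsm : s ^ 4 ≤ (Fintype.card ι : ℝ) ^ (1 / 10 : ℝ))
    (hbig : 2 ≤ s) (hL2 : s ^ 2 = (2 : ℝ) ^ lBudget (Fintype.card ι))
    (hsmall : ¬ SmallSpace δ B) (hcheap : ¬ Cheap δ B)
    {L : AddSubgroup (ι → ℤ)} (hL : LatW B (C * Fintype.card ι) L)
    {r : ℕ} (X : Matrix ι (Fin r) ℤ) (hX : LinearIndependent ℚ fun c i => (X i c : ℚ))
    (hXL : ∀ c, (fun i => X i c) ∈ L) (hgram : ((rc X)ᵀ * maj B s⁻¹ * rc X).det ≤ 2) :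
    (r : ℝ) ≤ 7 * δ * Fintype.card ι := by
  have hs0 : 0 < s := lt_of_lt_of_le one_pos hs
  have hm' : (1 : ℝ) ≤ Fintype.card ι := by exact_mod_cast hm
  obtain ⟨H, k, hk, hkδ, hH⟩ := exists_good_space hB hdet hsmall (t := s ^ 2) (by positivity)
    (by rwa [← pow_mul])
  obtain ⟨c₀, r₀, hcr, hrank, hineq⟩ := form_rank_bound hB hdet hs hL H hk hH X hX hXL hgram
  have hrm : r ≤ Fintype.card ι := by
    simpa using hX.fintype_card_le_finrank
  have hXz : ∀ c : Fin r → ℤ, X *ᵥ c = 0 → c = 0 := fun c hc => funext fun j => by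
    have h3 := Fintype.linearIndependent_iff.1 hX (fun c' => (c c' : ℚ)) (by
      funext i
      rw [Finset.sum_apply]
      have := congrArg (Int.cast : ℤ → ℚ) (congrFun hc i)
      simpa [Matrix.mulVec, dotProduct, mul_comm] using this) j
    exact_mod_cast h3
  have hc₀ : (c₀ : ℝ) < δ * Fintype.card ι := by
    by_contra hcon
    refine hcheap ⟨r, X, hX, ?_, ?_⟩
    · have h1 := (gram_le_maj B (inv_pos.2 hs0) X hXz).trans hgram
      rw [Fintype.card_fin, inv_pow, inv_mul_le_iff₀ (by positivity), ← rc_transpose, ← rc_mul,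
        det_rc] at h1
      refine h1.trans ?_
      calc s ^ r * 2 ≤ s ^ Fintype.card ι * s ^ Fintype.card ι :=
            mul_le_mul (pow_le_pow_right₀ hs hrm)
              (hbig.trans (le_self_pow₀ hs (by omega))) two_pos.le (by positivity)
        _ = _ := by rw [← pow_add, ← two_mul, pow_mul, hL2, Real.rpow_mul_natCast two_pos.le]
    · rw [hrank, ← hcr]
      push_cast
      linarith
  have hl := Real.log_le_log (by positivity) hineq
  rw [Real.log_mul (Real.exp_ne_zero _) (by positivity), Real.log_exp,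
    Real.log_mul two_ne_zero (by positivity), Real.log_pow, Real.log_pow] at hl
  push_cast at hl
  have h2 : Real.log 2 ≤ Fintype.card ι := by linarith [Real.log_two_lt_d9]
  have hr0 : (r₀ : ℝ) ≤ 6 * δ * Fintype.card ι := by
    by_contra hcon
    have h6 : (δ * Fintype.card ι) * Real.log s ≤ ((r₀ : ℝ) - 4 * k - c₀) * Real.log s :=
      mul_le_mul_of_nonneg_right (by linarith) hlog.le
    have h7 : (δ * Fintype.card ι) * Real.log s <
        ((r₀ : ℝ) - 4 * k - c₀) * Real.log s :=
      mul_lt_mul_of_pos_right (by linarith) hlog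
    nlinarith
  rw [← hcr]
  push_cast
  linarith

omit [DecidableEq ι] in
/-- The cube points of one translate of a sublattice. -/
lemma card_translate_le {d r : ℕ} (W : Matrix ι (Fin d) ℤ) (Z : Matrix (Fin d) (Fin r) ℤ)
    (y : Fin d → ℤ) (A : Finset (ι → Bool))
    (hA : ∀ x ∈ A, ∃ v, W *ᵥ v = signVec x ∧ (fun i => ((v i - y i : ℤ) : ℚ)) ∈
      Submodule.span ℚ (Set.range fun c i => (Z i c : ℚ))) :
    A.card ≤ 2 ^ r := by
  refine card_cube_le ((Submodule.span ℚ (Set.range fun c i => (Z i c : ℚ))).map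
    (W.map (Int.cast : ℤ → ℚ)).mulVecLin) ?_ (fun i => ((W *ᵥ y) i : ℚ)) A fun x hx => ?_
  · refine (Submodule.finrank_map_le _ _).trans ((finrank_range_le_card _).trans (by simp))
  · obtain ⟨v, hv, hmem⟩ := hA x hx
    refine Submodule.mem_map.2 ⟨_, hmem, funext fun i => ?_⟩
    have h := congrArg (Int.cast : ℤ → ℚ) (congrFun hv i)
    simp only [signVec] at h
    push_cast at h
    rw [← h]
    simp [Matrix.mulVec, dotProduct, mul_sub]

end Points

/-- The count of cube points in one lattice. -/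
theorem points_le (ε C : ℝ) (hε : 0 < ε) (hC : 0 < C) :
    ∃ (δ : ℝ) (N : ℕ), 0 < δ ∧ ∀ (ι : Type) [Fintype ι] [DecidableEq ι] (B : Matrix ι ι ℤ),
      N ≤ Fintype.card ι → IsSign B → B.det ≠ 0 → ¬ SmallSpace δ B → ¬ Cheap δ B →
      ∀ L : AddSubgroup (ι → ℤ), LatW B (C * Fintype.card ι) L →
        (Nat.card {x : ι → Bool // signVec x ∈ L ∧
            ∑ i, ((qVec B (signVec x) i : ℚ) : ℝ) ^ 2 ≤ C * Fintype.card ι} : ℝ) ≤
          (2 : ℝ) ^ (ε * Fintype.card ι) := by
  set δ := ε / 14 with hδdef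
  have hδ : 0 < δ := by positivity
  obtain ⟨C₁, k₁, hC₁, hcov⟩ := short_vectors_cover
  have hl2 := Real.log_pos one_lt_two
  obtain ⟨N, hN⟩ := Filter.eventually_atTop.1
    (((eventually_slope_le.and (tendsto_slope.eventually_ge_atTop 2)).and
      ((Real.tendsto_log_atTop.comp tendsto_slope).eventually_ge_atTop ((C + 1) / δ))).and
      ((eventually_cover_le k₁ C₁ (C + 1) hC₁ (by positivity)
        (show 0 < ε / 2 * Real.log 2 by positivity)).and (Filter.eventually_ge_atTop 1)))
  refine ⟨δ, N, hδ, ?_⟩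
  intro ι _ _ B hn hB hdet hsmall hcheap L hL
  set m := Fintype.card ι
  obtain ⟨⟨⟨hs4, hs2⟩, hlogs⟩, hcount, hm1⟩ := hN m hn
  simp only [Function.comp_apply] at hlogs
  set s := slope m with hsdef
  have hs0 : 0 < s := slope_pos m
  have hlog : 0 < Real.log s := lt_of_lt_of_le (by positivity) hlogs
  obtain ⟨d, b⟩ := Submodule.basisOfPid (Pi.basisFun ℤ ι) (AddSubgroup.toIntSubmodule L)
  have hdm : d ≤ m := by
    have h1 := Submodule.finrank_le (AddSubgroup.toIntSubmodule L)
    rw [Module.finrank_eq_card_basis b, Module.finrank_fintype_fun_eq_card, Fintype.card_fin] at h1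
    exact h1
  set W : Matrix ι (Fin d) ℤ := Matrix.of fun i j => (b j : ι → ℤ) i with hW
  have hWv : ∀ v : Fin d → ℤ, W *ᵥ v = ((∑ j, v j • b j : AddSubgroup.toIntSubmodule L) : ι → ℤ) := by
    intro v
    funext i
    simp [W, Matrix.mulVec, dotProduct, Finset.sum_apply, mul_comm]
  have hWinj : ∀ v, W *ᵥ v = 0 → v = 0 := fun v hv => funext fun j => by
    rw [hWv] at hv
    exact Fintype.linearIndependent_iff.1 b.linearIndependent v (Subtype.ext hv) j
  have hWr := (gram_pos W hWinj).2.2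
  set G := (rc W)ᵀ * maj B s⁻¹ * rc W
  obtain ⟨r, Z, F, hZ, hdetZ, hF, hcover⟩ := hcov d G (maj_pos B (inv_pos.2 hs0) _ hWr)
    ((C + 1) * m / s) (by positivity)
  set X := W * Z with hXdef
  have hX : LinearIndependent ℚ fun c i => (X i c : ℚ) := by
    rw [Fintype.linearIndependent_iff] at hZ ⊢
    intro g hg
    refine hZ g (funext fun j => ?_)
    set u : Fin d → ℚ := ∑ c, g c • fun i => (Z i c : ℚ)
    have h0 : rc W *ᵥ (fun j => (u j : ℝ)) = 0 := by
      funext i
      have h := congrArg (Rat.cast : ℚ → ℝ) (congrFun hg i)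
      simp only [Finset.sum_apply, Pi.smul_apply, smul_eq_mul, Pi.zero_apply, Rat.cast_sum,
        Rat.cast_mul, Rat.cast_intCast, Rat.cast_zero] at h
      rw [Pi.zero_apply, ← h]
      simp only [u, rc, Matrix.mulVec, dotProduct, Matrix.map_apply, Finset.sum_apply,
        Pi.smul_apply, smul_eq_mul, Rat.cast_sum, Rat.cast_mul, Rat.cast_intCast, X,
        Matrix.mul_apply, Int.cast_sum, Int.cast_mul, mul_sum]
      rw [sum_comm]
      exact sum_congr rfl fun c _ => sum_congr rfl fun l _ => by ring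
    have := congrFun (hWr _ h0) j
    simpa using this
  have hXL : ∀ c, (fun i => X i c) ∈ L := fun c => by
    have e : (fun i => X i c) = W *ᵥ fun j => Z j c := rfl
    rw [e, hWv]
    exact SetLike.coe_mem _
  have hgram : ((rc X)ᵀ * maj B s⁻¹ * rc X).det ≤ 2 := by
    refine le_of_eq_of_le ?_ hdetZ
    rw [hXdef, rc_mul, transpose_mul]
    simp only [G, Matrix.mul_assoc]
    rfl
  have hr : (r : ℝ) ≤ ε / 2 * m := by
    have := rank_le_of_not_cheap hB.1 hdet (one_le_slope m) hlog
      (by rw [div_le_iff₀ hδ] at hlogs; linarith) hm1 hs4 hs2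
      (by
        show Points.slope m ^ 2 = (2 : ℝ) ^ lBudget m
        rw [Points.slope, ← Real.rpow_mul_natCast two_pos.le]
        norm_num)
      hsmall hcheap hL X hX hXL hgram
    rw [hδdef] at this
    linarith
  rw [Nat.card_eq_fintype_card, Fintype.card_subtype]
  set A := (univ : Finset (ι → Bool)).filter fun x => signVec x ∈ L ∧
    ∑ i, ((qVec B (signVec x) i : ℚ) : ℝ) ^ 2 ≤ C * m
  have hAF : A.card ≤ F.card * 2 ^ r := by
    refine le_trans (card_le_card (t := F.biUnion fun y => A.filter fun x =>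
      ∃ v, W *ᵥ v = signVec x ∧ (fun i => ((v i - y i : ℤ) : ℚ)) ∈
        Submodule.span ℚ (Set.range fun c i => (Z i c : ℚ))) ?_) ?_
    · intro x hx
      obtain ⟨hxL, hxq⟩ := (mem_filter.1 hx).2
      set v : Fin d → ℤ := ⇑(b.repr ⟨signVec x, hxL⟩)
      have hv : W *ᵥ v = signVec x := by rw [hWv, b.sum_repr]
      obtain ⟨y, hy, hmem⟩ := hcover v (by
        rw [form_pull]
        have e : rc W *ᵥ (fun i => (v i : ℝ)) = fun i => (signVec x i : ℝ) := by
          funext i
          have := congrArg (Int.cast : ℤ → ℝ) (congrFun hv i)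
          simpa [rc, Matrix.mulVec, dotProduct] using this
        rw [e, maj_form, dot_self, dot_self, add_comm C 1, add_mul, one_mul, inv_mul_eq_div]
        gcongr
        · refine le_of_eq ?_
          simp [signVec, m]
        · refine le_of_eq_of_le (sum_congr rfl fun i _ => ?_) hxq
          rw [qVec_cast])
      exact mem_biUnion.2 ⟨y, hy, mem_filter.2 ⟨hx, v, hv, hmem⟩⟩
    · refine card_biUnion_le_card_mul _ _ _ fun y _ => ?_
      exact card_translate_le W Z y _ fun x hx => (mem_filter.1 hx).2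
  calc (A.card : ℝ) ≤ (F.card : ℝ) * 2 ^ r := by exact_mod_cast hAF
    _ ≤ Real.exp (ε / 2 * Real.log 2 * m) * (2 : ℝ) ^ (ε / 2 * m) := by
        refine mul_le_mul (hF.trans (Real.exp_le_exp.2 (le_trans ?_ hcount))) ?_ (by positivity)
          (by positivity)
        · have hd : (d : ℝ) ≤ m := Nat.cast_le.2 hdm
          have hl0 : 0 ≤ Real.log ((d : ℝ) + 2) := Real.log_nonneg (by linarith [Nat.cast_nonneg (α := ℝ) d])
          gcongr
        · rw [← Real.rpow_natCast]
          exact Real.rpow_le_rpow_of_exponent_le one_le_two hr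
    _ = (2 : ℝ) ^ (ε * m) := by
        rw [Real.rpow_def_of_pos two_pos, Real.rpow_def_of_pos two_pos, ← Real.exp_add]
        ring_nf

end Vale.Agent.P160R
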