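import Vale.Agent.P160R.Basic
import Vale.Agent.P160R.SmallEig.Count
import Vale.Agent.P160R.SmallEig.Pivot

/-!
# Few small singular values
-/

namespace Vale.Agent.P160R

open Finset Matrix SmallEig
open scoped Classical

namespace SmallEig

variable {ι : Type} [Fintype ι]

/-- The entries of the real sign matrix. -/
lemma symM_real (ω : Sym2 ι → Bool) (u : ι → ℝ) (i : ι) :
    ((symM ℤ ω).map (Int.cast : ℤ → ℝ)).mulVec u i = ∑ j, sgn (ω s(i, j)) * u j := by
  simp only [Matrix.mulVec, dotProduct, symM, Matrix.map_apply, Matrix.of_apply]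
  refine sum_congr rfl fun j _ => ?_
  cases ω s(i, j) <;> simp [sgn]

/-- A small subspace gives a pivot sequence with all columns near the spans. -/
lemma exists_near_pivots [DecidableEq ι] (o : ι → ℕ) (ho : Function.Injective o) (C : Finset ι) {h q k : ℕ}
    (h0 : 0 < h) {ε : ℝ} (hε : 0 ≤ ε) (hεk : ε * Fintype.card ι < (k : ℝ) / 2 * h)
    (ω : Sym2 ι → Bool) (V : Submodule ℝ (ι → ℝ))
    (hV : (h + q + (Fintype.card ι - C.card) : ℕ) ≤ Module.finrank ℝ V)
    (hsmall : ∀ u ∈ V, ∑ i, ((symM ℤ ω).map (Int.cast : ℤ → ℝ)).mulVec u i ^ 2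
      ≤ ε * ∑ i, u i ^ 2) :
    ∃ d : Fin q → ι, StrictMono (o ∘ d) ∧ ∀ t, Near C d k t ω := by
  classical
  set P : (ι → ℝ) →ₗ[ℝ] ({i // i ∉ C} → ℝ) :=
    LinearMap.pi fun i : {i // i ∉ C} => LinearMap.proj i.1
  set W := V ⊓ LinearMap.ker P
  have hW : h + q ≤ Module.finrank ℝ W := by
    have h1 := Submodule.finrank_sup_add_finrank_inf_eq V (LinearMap.ker P)
    have h2 := Submodule.finrank_le (V ⊔ LinearMap.ker P)
    have h3 := LinearMap.finrank_range_add_finrank_ker P
    have h4 := Submodule.finrank_le (LinearMap.range P)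
    have h5 : Fintype.card {i // i ∉ C} = Fintype.card ι - C.card := by
      rw [Fintype.card_subtype_compl, Fintype.card_coe]
    rw [Module.finrank_fintype_fun_eq_card] at h2 h3 h4
    change h + q ≤ Module.finrank ℝ W
    simp only [W] at *
    omega
  obtain ⟨d, hd, hv⟩ := exists_pivots o ho h0 q W hW
  refine ⟨d, hd, fun t => ?_⟩
  obtain ⟨u, huW, hne, hbig, hzero⟩ := hv t
  obtain ⟨huV, huC⟩ := Submodule.mem_inf.1 huW
  set v : ι → ℝ := fun j => if j = d t then 0 else -u j / u (d t) with hv'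
  refine ⟨v, fun j hj => ?_, ?_⟩
  · simp only [hv'] at hj
    split_ifs at hj with hjt
    · exact absurd rfl hj
    have huj : u j ≠ 0 := fun hz => hj (by simp [hz])
    refine ⟨?_, fun s hs => ?_⟩
    · by_contra hjC
      exact huj (congrFun (LinearMap.mem_ker.1 huC) ⟨j, hjC⟩)
    · rintro rfl
      rcases hs.lt_or_eq with hlt | rfl
      · exact huj (hzero s hlt)
      · exact hjt rfl
  · have key : ∀ i, sgn (ω s(i, d t)) - ∑ j, v j * sgn (ω s(i, j))
        = ((symM ℤ ω).map (Int.cast : ℤ → ℝ)).mulVec u i / u (d t) := fun i => by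
      rw [symM_real, sum_div]
      have e : ∀ j, sgn (ω s(i, j)) * u j / u (d t)
          = (if j = d t then sgn (ω s(i, d t)) else 0) - v j * sgn (ω s(i, j)) := fun j => by
        simp only [hv']
        split_ifs with hj
        · subst hj
          field_simp
          ring
        · ring
      simp only [e, sum_sub_distrib, sum_ite_eq', mem_univ, if_true]
    simp only [key, div_pow, ← sum_div]
    have hu2 : 0 < u (d t) ^ 2 := by positivity
    rw [div_lt_iff₀ hu2]
    refine lt_of_le_of_lt (le_trans ?_ (hsmall u huV)) ?_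
    · rw [← Finset.sum_subtype (univ.filter fun i => ∀ s, i ≠ d s) (by simp)
        fun i => ((symM ℤ ω).map (Int.cast : ℤ → ℝ)).mulVec u i ^ 2]
      exact sum_le_sum_of_subset_of_nonneg (subset_univ _) fun i _ _ => sq_nonneg _
    · have hh : (0:ℝ) < h := Nat.cast_pos.2 h0
      refine lt_of_mul_lt_mul_right ?_ hh.le
      calc (ε * ∑ i, u i ^ 2) * h = ε * ((h:ℝ) * ∑ i, u i ^ 2) := by ring
        _ ≤ ε * (Fintype.card ι * u (d t) ^ 2) := mul_le_mul_of_nonneg_left hbig hε
        _ = ε * Fintype.card ι * u (d t) ^ 2 := by ring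
        _ < (k : ℝ) / 2 * h * u (d t) ^ 2 := mul_lt_mul_of_pos_right hεk hu2
        _ = (k : ℝ) / 2 * u (d t) ^ 2 * h := by ring

/-- A small subspace is unlikely. -/
lemma Pr_small_le [DecidableEq ι] (δ : ℝ) {g h q k : ℕ} (h0 : 0 < h) (k0 : 0 < k)
    (hg : g ≤ Fintype.card ι) (hgk : q + k ≤ g)
    (hdim : ((h + q + g : ℕ) : ℝ) ≤ δ * Fintype.card ι) {ε : ℝ} (hε : 0 ≤ ε)
    (hεm : (Fintype.card ι : ℝ) ^ (1 / 10 : ℝ) ≤ ε)
    (hεk : ε * Fintype.card ι < (k : ℝ) / 2 * h) :
    Pr (fun ω : Sym2 ι → Bool => SmallSpace δ (symM ℤ ω)) ≤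
      ((Fintype.card ι).choose q : ℝ) * (8 / (k : ℝ)) ^ q := by
  obtain ⟨C, -, hC⟩ := exists_subset_card_eq (s := (univ : Finset ι))
    (n := Fintype.card ι - g) (by simp)
  set o : ι → ℕ := fun i => (Fintype.equivFin ι i : ℕ)
  have ho : Function.Injective o := Fin.val_injective.comp (Fintype.equivFin ι).injective
  set T := (univ : Finset (Fin q → ι)).filter fun (d : Fin q → ι) => StrictMono (o ∘ d)
  have hT : T.card ≤ (Fintype.card ι).choose q := by
    rw [← card_univ, ← card_powersetCard]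
    refine card_le_card_of_injOn (fun d => univ.image d) (fun d hd => ?_) fun d hd d' hd' he => ?_
    · have := ((mem_filter.1 hd).2).injective.of_comp
      simp [card_image_of_injective _ this]
    · have h1 : Set.range (o ∘ d) = Set.range (o ∘ d') := by
        rw [Set.range_comp, Set.range_comp]
        congr 1
        simpa using congrArg (fun s : Finset ι => (s : Set ι)) he
      have := (StrictMono.range_inj (mem_filter.1 hd).2 (mem_filter.1 hd').2).1 h1
      exact ho.comp_left this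
  refine le_trans (Pr_mono (R := fun ω => ∃ d ∈ T, ∀ t, Near C d k t ω) ?_) ?_
  · rintro ω ⟨V, hV, hsmall⟩
    obtain ⟨d, hd, hn⟩ := exists_near_pivots o ho C (q := q) (k := k) h0 hε hεk ω V
      (by
        rw [hC]
        have : ((h + q + g : ℕ) : ℝ) ≤ Module.finrank ℝ V := hdim.trans hV
        have := (Nat.cast_le (α := ℝ)).1 this
        omega)
      fun u hu => (hsmall u hu).trans (mul_le_mul_of_nonneg_right hεm (by positivity))
    exact ⟨d, mem_filter.2 ⟨mem_univ _, hd⟩, hn⟩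
  · refine (Pr_exists T fun d ω => ∀ t, Near C d k t ω).trans ?_
    refine (sum_le_card_nsmul T _ ((8 / (k : ℝ)) ^ q) fun d hd => ?_).trans ?_
    · rw [Pr_eq, div_pow, div_le_div_iff₀ (by positivity) (by positivity)]
      have := card_near_le (k := k) C d ((mem_filter.1 hd).2).injective.of_comp
        (by rw [hC]; omega)
      convert Nat.cast_le (α := ℝ).2 this using 1 <;> push_cast <;> congr
    · rw [nsmul_eq_mul]
      gcongr

/-- The union bound beats every exponential. -/
lemma choose_mul_pow_le {m q k : ℕ} {δ : ℝ} (hδ : 0 < δ) (hq : δ * m / 16 ≤ q)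
    (hk : δ * m / 4 ≤ k) (hbig : Real.exp 1 * (32 / δ) * Real.exp (32 / δ) ≤ δ * m / 16) :
    (m.choose q : ℝ) * (8 / (k : ℝ)) ^ q ≤ (2:ℝ) ^ (-2 * (m : ℝ)) := by
  have hm : (0:ℝ) < δ * m / 16 := lt_of_lt_of_le (by positivity) hbig
  have hm4 : (0:ℝ) < δ * m / 4 := by linarith
  have hm0 : (0:ℝ) < m := by
    by_contra hc
    nlinarith [not_lt.1 hc]
  have hq0 : (0:ℝ) < q := hm.trans_le hq
  calc (m.choose q : ℝ) * (8 / (k : ℝ)) ^ q
      ≤ (m : ℝ) ^ q / q.factorial * (32 / (δ * m)) ^ q := by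
        refine mul_le_mul (Nat.choose_le_pow_div q m) (pow_le_pow_left₀ (by positivity) ?_ q)
          (by positivity) (by positivity)
        calc 8 / (k : ℝ) ≤ 8 / (δ * m / 4) := by gcongr
          _ = 32 / (δ * m) := by field_simp; ring
    _ = (32 / δ / q) ^ q * ((q : ℝ) ^ q / q.factorial) := by
        rw [div_mul_eq_mul_div, ← mul_pow, mul_div_assoc' ((32 / δ / (q : ℝ)) ^ q), ← mul_pow]
        congr 2
        field_simp
    _ ≤ (32 / δ / q) ^ q * Real.exp q := by
        gcongr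
        exact Real.pow_div_factorial_le_exp _ hq0.le q
    _ = (Real.exp 1 * (32 / δ) / q) ^ q := by
        rw [← Real.exp_one_pow q, ← mul_pow]
        congr 1
        ring
    _ ≤ Real.exp (-(32 / δ)) ^ q := by
        refine pow_le_pow_left₀ (by positivity) ?_ q
        rw [div_le_iff₀ hq0, Real.exp_neg, inv_mul_eq_div, le_div_iff₀ (Real.exp_pos _)]
        linarith
    _ = Real.exp (-(32 / δ) * q) := by rw [← Real.exp_nat_mul, mul_comm]
    _ ≤ (2:ℝ) ^ (-2 * (m : ℝ)) := by
        rw [Real.rpow_def_of_pos two_pos, Real.exp_le_exp]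
        have h1 : 2 * (m : ℝ) ≤ 32 / δ * q := by
          calc 2 * (m : ℝ) = 32 / δ * (δ * m / 16) := by field_simp; ring
            _ ≤ _ := by gcongr
        have h2 := Real.log_two_lt_d9
        nlinarith

end SmallEig

/-- A sign matrix rarely has linearly many small singular values. -/
theorem small_space_rare (δ : ℝ) (hδ : 0 < δ) :
    ∃ N : ℕ, ∀ (ι : Type) [Fintype ι] [DecidableEq ι], N ≤ Fintype.card ι →
      Pr (fun ω : Sym2 ι → Bool => SmallSpace δ (symM ℤ ω)) ≤
        (2 : ℝ) ^ (-2 * (Fintype.card ι : ℝ)) := by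
  set η := min δ 1 with hη
  have hη0 : 0 < η := lt_min hδ one_pos
  have hpow := ((tendsto_rpow_atTop (show (0:ℝ) < 9 / 10 by norm_num)).comp
      (tendsto_natCast_atTop_atTop (R := ℝ))).eventually_gt_atTop (128 / η ^ 2)
  have hexp := ((Filter.tendsto_id.const_mul_atTop (show (0:ℝ) < η / 16 by positivity)).comp
      (tendsto_natCast_atTop_atTop (R := ℝ))).eventually_ge_atTop
        (max 1 (Real.exp 1 * (32 / η) * Real.exp (32 / η)))
  obtain ⟨N, hN⟩ := Filter.eventually_atTop.1 (hpow.and hexp)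
  refine ⟨N, fun ι _ _ hι => ?_⟩
  set m := Fintype.card ι with hm
  obtain ⟨hp, he⟩ := hN m hι
  simp only [Function.comp_apply, id_eq] at hp he
  have he1 : 1 ≤ η / 16 * m := le_of_max_le_left he
  have hm0 : (0:ℝ) < m := by
    by_contra hc
    nlinarith [not_lt.1 hc]
  set g := ⌊η * m / 2⌋₊
  set q := ⌊η * m / 8⌋₊
  have hg1 : (g : ℝ) ≤ η * m / 2 := Nat.floor_le (by positivity)
  have hg2 : η * m / 2 < g + 1 := Nat.lt_floor_add_one _
  have hq1 : (q : ℝ) ≤ η * m / 8 := Nat.floor_le (by positivity)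
  have hq2 : η * m / 8 < q + 1 := Nat.lt_floor_add_one _
  have hqg : q ≤ g := Nat.floor_le_floor (by nlinarith)
  have hk2 : η * m / 4 ≤ ((g - q : ℕ) : ℝ) := by
    rw [Nat.cast_sub hqg]
    linarith
  have hηm1 : η * m ≤ m := mul_le_of_le_one_left hm0.le (min_le_right _ _)
  have hεk : (m : ℝ) ^ (1 / 10 : ℝ) * m < ((g - q : ℕ) : ℝ) / 2 * q := by
    have h1 : (m : ℝ) ^ (1 / 10 : ℝ) * (m : ℝ) ^ (9 / 10 : ℝ) = m := by
      rw [← Real.rpow_add hm0]
      norm_num
    have h3 : (m : ℝ) ^ (1 / 10 : ℝ) * 128 < η ^ 2 * m := by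
      calc (m : ℝ) ^ (1 / 10 : ℝ) * 128
          = η ^ 2 * ((m : ℝ) ^ (1 / 10 : ℝ) * (128 / η ^ 2)) := by field_simp
        _ < η ^ 2 * ((m : ℝ) ^ (1 / 10 : ℝ) * (m : ℝ) ^ (9 / 10 : ℝ)) := by gcongr
        _ = _ := by rw [h1]
    have h4 : η * m / 4 / 2 * (η * m / 16) ≤ ((g - q : ℕ) : ℝ) / 2 * q := by
      gcongr
      linarith
    nlinarith
  refine (Pr_small_le δ (g := g) (h := q) (q := q) (k := g - q) ?_ ?_ ?_ ?_ ?_
    (Real.rpow_nonneg hm0.le _) le_rfl hεk).trans
    (choose_mul_pow_le hη0 (by linarith) hk2 (by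
      have := le_of_max_le_right he
      linarith))
  · exact Nat.pos_of_ne_zero fun h => by rw [h, Nat.cast_zero] at hq2; linarith
  · exact Nat.pos_of_ne_zero fun h => by rw [h, Nat.cast_zero] at hk2; linarith
  · exact Nat.cast_le.1 (show (g : ℝ) ≤ m by linarith)
  · omega
  · push_cast
    have : η * m ≤ δ * m := mul_le_mul_of_nonneg_right (min_le_left _ _) hm0.le
    linarith

end Vale.Agent.P160R
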