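import Vale.Agent.P160R.Norm
import Vale.Agent.P160R.SmallEig
import Vale.Agent.P160R.Code
import Vale.Agent.P160R.Exclude
import Vale.Agent.P160R.Points
import Vale.Agent.P160R.Moment
import Vale.Agent.P160R.Growth

/-!
# Assembly: the exponential rate is `1 / 2`
-/

namespace Vale.Agent.P160R

open Filter Finset Matrix
open scoped Classical Topology

/-- The singularity probability of order `n`. -/
noncomputable def qSing (n : ℕ) : ℝ :=
  Pr fun ω : Sym2 (Fin n) → Bool => (symM ℝ ω).det = 0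

/-- The probability of corank exactly one. -/
noncomputable def qOne (n : ℕ) : ℝ :=
  Pr fun ω : Sym2 (Fin n) → Bool => (symM ℚ ω).rank + 1 = n

theorem qSing_nonneg (n : ℕ) : 0 ≤ qSing n := Pr_nonneg _

theorem qSing_le_one (n : ℕ) : qSing n ≤ 1 := Pr_le_one _

variable {ι : Type} [Fintype ι] [DecidableEq ι]

theorem symM_map {R S : Type} [Ring R] [Ring S] (f : R →+* S) (ω : Sym2 ι → Bool) :
    (symM R ω).map f = symM S ω := by
  ext i j
  simp only [symM, Matrix.map_apply, Matrix.of_apply]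
  split <;> simp

theorem det_symM_cast {R : Type} [CommRing R] (ω : Sym2 ι → Bool) :
    (symM R ω).det = ((symM ℤ ω).det : R) := by
  rw [← symM_map (Int.castRingHom R) ω]
  exact ((Int.castRingHom R).map_det _).symm

theorem det_real_iff (ω : Sym2 ι → Bool) : (symM ℝ ω).det = 0 ↔ (symM ℤ ω).det = 0 := by
  rw [det_symM_cast]; exact_mod_cast Iff.rfl

theorem rank_lt_of_singular (ω : Sym2 ι → Bool) (h : (symM ℤ ω).det = 0) :
    (symM ℚ ω).rank < Fintype.card ι := by
  have h0 : (symM ℚ ω).det = 0 := by rw [det_symM_cast, h, Int.cast_zero]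
  refine lt_of_le_of_ne (Matrix.rank_le_card_width _) fun he => ?_
  obtain ⟨v, hv, hAv⟩ := Matrix.exists_mulVec_eq_zero_iff.2 h0
  have hs : Function.Surjective (symM ℚ ω).mulVecLin := by
    rw [← LinearMap.range_eq_top]
    refine Submodule.eq_top_of_finrank_eq ?_
    rw [Module.finrank_fintype_fun_eq_card]
    exact he
  have hi := LinearMap.injective_iff_surjective.2 hs
  exact hv (hi (by simp [hAv]))

theorem Pr_det_eq_qSing (κ : Type) [Fintype κ] [DecidableEq κ] :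
    Pr (fun ω : Sym2 κ → Bool => (symM ℤ ω).det = 0) = qSing (Fintype.card κ) := by
  rw [qSing, ← Pr_restrict (Fintype.equivFin κ).toEmbedding
    (fun ω : Sym2 κ → Bool => (symM ℤ ω).det = 0)]
  congr 1
  funext ω
  rw [symM_restrict, det_real_iff]
  exact propext (Iff.of_eq (by
    congr 1
    exact Matrix.det_submatrix_equiv_self (Fintype.equivFin κ) _))

theorem Pr_corank_one_eq (κ : Type) [Fintype κ] [DecidableEq κ] :
    Pr (fun ω : Sym2 κ → Bool => (symM ℚ ω).rank + 1 = Fintype.card κ) =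
      qOne (Fintype.card κ) := by
  rw [qOne, ← Pr_restrict (Fintype.equivFin κ).toEmbedding
    (fun ω : Sym2 κ → Bool => (symM ℚ ω).rank + 1 = Fintype.card κ)]
  congr 1
  funext ω
  rw [symM_restrict]
  congr 2
  exact Matrix.rank_submatrix _ (Fintype.equivFin κ) (Fintype.equivFin κ)

/-- Reduction to corank one. -/
theorem qSing_of_qOne {ρ : ℝ} (hρ : 1 / 2 ≤ ρ)
    (h : ∀ ε > 0, ∀ᶠ n : ℕ in atTop, qOne n ≤ (ρ + ε) ^ n) :
    ∀ ε > 0, ∀ᶠ n : ℕ in atTop, qSing n ≤ (ρ + ε) ^ n := by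
  intro ε hε
  rcases le_or_gt 1 (ρ + ε) with hbig | hsmall
  · exact Eventually.of_forall fun n => (qSing_le_one n).trans (one_le_pow₀ hbig)
  set r := ρ + ε / 4 with hr
  have hr0 : 0 < r := by linarith
  obtain ⟨η, hη0, hηr⟩ : ∃ η : ℝ, 0 < η ∧ (2 : ℝ) ^ η * r ^ (1 - η) < ρ + ε / 2 := by
    have hc : ContinuousAt (fun η : ℝ => (2 : ℝ) ^ η * r ^ (1 - η)) 0 :=
      ((Real.continuous_const_rpow (by norm_num)).continuousAt).mul
        (((Real.continuous_const_rpow hr0.ne').continuousAt).comp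
          (continuous_const.sub continuous_id).continuousAt)
    have h0 : (2 : ℝ) ^ (0 : ℝ) * r ^ (1 - (0 : ℝ)) < ρ + ε / 2 := by simp; linarith
    obtain ⟨e, he, hball⟩ := Metric.eventually_nhds_iff.1 (hc.eventually_lt_const h0)
    exact ⟨e / 2, by linarith, hball (by rw [Real.dist_eq, sub_zero, abs_of_pos] <;> linarith)⟩
  obtain ⟨δ₀, hδ₀, hch⟩ := choose_small_rate η hη0
  set δ := min (min δ₀ η) (1 / 2)
  have hδ : 0 < δ := lt_min (lt_min hδ₀ hη0) (by norm_num)
  obtain ⟨N₀, hN₀⟩ := eventually_atTop.1 (h (ε / 4) (by linarith))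
  have hlarge : ∀ᶠ n : ℕ in atTop,
      (2 : ℝ) ^ n * (1 / 2) ^ (⌈δ * n⌉₊.choose 2) ≤ (1 / 2) ^ n := by
    filter_upwards [(tendsto_natCast_atTop_atTop (R := ℝ)).eventually_ge_atTop (8 / δ ^ 2),
      eventually_gt_atTop 0] with n hn hn0
    have hn0' : (0 : ℝ) < n := by exact_mod_cast hn0
    have hc : δ * n ≤ (⌈δ * n⌉₊ : ℝ) := Nat.le_ceil _
    have hd : δ ≤ 1 / 2 := min_le_right _ _
    have h8 : 8 ≤ δ ^ 2 * n := by
      rw [div_le_iff₀ (by positivity)] at hn; linarith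
    have h2n : 2 * n ≤ ⌈δ * n⌉₊.choose 2 := by
      have : (2 * n : ℝ) ≤ ((⌈δ * n⌉₊.choose 2 : ℕ) : ℝ) := by
        rw [Nat.cast_choose_two]
        have h16 : (16 : ℝ) ≤ δ * n := by nlinarith
        nlinarith
      exact_mod_cast this
    calc (2 : ℝ) ^ n * (1 / 2) ^ (⌈δ * n⌉₊.choose 2) ≤ (2 : ℝ) ^ n * (1 / 2) ^ (2 * n) :=
          mul_le_mul_of_nonneg_left (pow_le_pow_of_le_one (by norm_num) (by norm_num) h2n)
            (by positivity)
      _ = _ := by rw [pow_mul, ← mul_pow]; norm_num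
  filter_upwards [hlarge, eventually_gt_atTop 0,
    eventually_mul_pow_le (b := ρ + ε) (show (0 : ℝ) ≤ ρ + ε / 2 by linarith) (by linarith) 2,
    eventually_ge_atTop (2 * N₀)] with n hn hn0 hgrow hnN
  set K := ⌈δ * (n : ℝ)⌉₊ with hK
  let sets : Finset (Finset (Fin n)) :=
    (univ : Finset (Finset (Fin n))).filter fun S => n + 1 ≤ S.card + K ∧ S.card ≤ n
  have hcover : ∀ ω : Sym2 (Fin n) → Bool, (symM ℝ ω).det = 0 →
      ((symM ℚ ω).rank + K ≤ n) ∨ ∃ S ∈ sets,
        (symM ℚ (restrictSigns (fun i : {i // i ∈ S} => i.1) ω)).rank + 1 = S.card := by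
    intro ω hω
    rw [or_iff_not_imp_left]
    intro hK'
    have hlt := rank_lt_of_singular ω ((det_real_iff ω).1 hω)
    rw [Fintype.card_fin] at hlt
    have hsym : (symM ℚ ω).IsSymm := Matrix.ext fun i j => by simp [symM, Sym2.eq_swap]
    obtain ⟨S, hS, hSr⟩ := exists_corank_one_principal (symM ℚ ω) hsym (n - (symM ℚ ω).rank)
      (by omega) (by rw [Fintype.card_fin]; omega)
    rw [Fintype.card_fin] at hS
    refine ⟨S, mem_filter.2 ⟨mem_univ _, by omega, by omega⟩, ?_⟩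
    rw [symM_restrict]
    exact hSr
  have hbig : Pr (fun ω : Sym2 (Fin n) → Bool => (symM ℚ ω).rank + K ≤ n) ≤ (1 / 2) ^ n := by
    refine le_trans ?_ hn
    have h1 := corank_rat_le (ι := Fin n) K
    simp only [Fintype.card_fin] at h1
    refine h1.trans (mul_le_mul_of_nonneg_right ?_ (by positivity))
    exact_mod_cast Nat.choose_le_two_pow n K
  have hterm : ∀ S ∈ sets, Pr (fun ω : Sym2 (Fin n) → Bool =>
      (symM ℚ (restrictSigns (fun i : {i // i ∈ S} => i.1) ω)).rank + 1 = S.card) ≤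
        r ^ ((1 - η) * (n : ℝ)) := by
    intro S hS
    simp only [sets, mem_filter, mem_univ, true_and] at hS
    have e := Pr_restrict (ι := Fin n) (Function.Embedding.subtype fun i => i ∈ S)
      (fun ω : Sym2 {i // i ∈ S} → Bool => (symM ℚ ω).rank + 1 = S.card)
    have e' := Pr_corank_one_eq {i // i ∈ S}
    rw [Fintype.card_coe] at e'
    refine le_trans (le_of_eq (e.trans e')) ?_
    have hKn : (K : ℝ) < δ * n + 1 := Nat.ceil_lt_add_one (by positivity)
    have hS1 : (n : ℝ) + 1 ≤ (S.card : ℝ) + K := by exact_mod_cast hS.1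
    have hdη : δ * (n : ℝ) ≤ η * n :=
      mul_le_mul_of_nonneg_right ((min_le_left _ _).trans (min_le_right _ _)) (Nat.cast_nonneg n)
    have hd2 : δ * (n : ℝ) ≤ 1 / 2 * n :=
      mul_le_mul_of_nonneg_right (min_le_right _ _) (Nat.cast_nonneg n)
    have hNS : N₀ ≤ S.card := by
      have h2 : (2 * N₀ : ℝ) ≤ n := by exact_mod_cast hnN
      have : (N₀ : ℝ) ≤ S.card := by linarith
      exact_mod_cast this
    refine (hN₀ _ hNS).trans ?_
    rw [← hr, ← Real.rpow_natCast r S.card]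
    exact Real.rpow_le_rpow_of_exponent_ge hr0 (by linarith) (by nlinarith)
  have hcard : (sets.card : ℝ) ≤ ((n : ℝ) + 1) * (2 : ℝ) ^ (η * (n : ℝ)) := by
    have hsub : sets ⊆ (range K).biUnion fun j =>
        ((univ : Finset (Fin n)).powersetCard j).image compl := by
      intro S hS
      simp only [sets, mem_filter, mem_univ, true_and] at hS
      refine mem_biUnion.2 ⟨n - S.card, mem_range.2 (by omega), mem_image.2 ⟨Sᶜ, ?_, compl_compl S⟩⟩
      exact mem_powersetCard.2 ⟨subset_univ _, by rw [card_compl, Fintype.card_fin]⟩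
    refine (Nat.cast_le.2 ((card_le_card hsub).trans card_biUnion_le)).trans ?_
    push_cast
    refine (Finset.sum_le_sum (g := fun _ => (2 : ℝ) ^ (η * (n : ℝ))) fun j hj => ?_).trans ?_
    · refine (Nat.cast_le.2 card_image_le).trans ?_
      rw [card_powersetCard, card_univ, Fintype.card_fin]
      refine hch n j ?_
      have hjK : (j : ℝ) + 1 ≤ K := by exact_mod_cast mem_range.1 hj
      have hKn : (K : ℝ) < δ * n + 1 := Nat.ceil_lt_add_one (by positivity)
      have : δ * (n : ℝ) ≤ δ₀ * n :=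
        mul_le_mul_of_nonneg_right ((min_le_left _ _).trans (min_le_left _ _)) (Nat.cast_nonneg n)
      linarith
    · rw [Finset.sum_const, card_range, nsmul_eq_mul]
      refine mul_le_mul_of_nonneg_right ?_ (by positivity)
      have hKn : (K : ℝ) < δ * n + 1 := Nat.ceil_lt_add_one (by positivity)
      have hd2 : δ * (n : ℝ) ≤ 1 / 2 * n :=
        mul_le_mul_of_nonneg_right (min_le_right _ _) (Nat.cast_nonneg n)
      have : (0 : ℝ) ≤ n := Nat.cast_nonneg n
      linarith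
  have hpow : (2 : ℝ) ^ (η * (n : ℝ)) * r ^ ((1 - η) * (n : ℝ)) ≤ (ρ + ε / 2) ^ n := by
    rw [Real.rpow_mul_natCast (by norm_num), Real.rpow_mul_natCast hr0.le, ← mul_pow]
    exact pow_le_pow_left₀ (by positivity) hηr.le n
  have hhalf : ((1 : ℝ) / 2) ^ n ≤ (ρ + ε / 2) ^ n :=
    pow_le_pow_left₀ (by norm_num) (by linarith) n
  calc qSing n ≤ Pr (fun ω : Sym2 (Fin n) → Bool => (symM ℚ ω).rank + K ≤ n) +
        Pr (fun ω : Sym2 (Fin n) → Bool => ∃ S ∈ sets,
          (symM ℚ (restrictSigns (fun i : {i // i ∈ S} => i.1) ω)).rank + 1 = S.card) :=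
        (Pr_mono hcover).trans (Pr_or _ _)
    _ ≤ (1 / 2) ^ n + ∑ S ∈ sets, r ^ ((1 - η) * (n : ℝ)) :=
        add_le_add hbig ((Pr_exists _ _).trans (Finset.sum_le_sum hterm))
    _ ≤ (ρ + ε / 2) ^ n + ((n : ℝ) + 1) * (ρ + ε / 2) ^ n := by
        rw [Finset.sum_const, nsmul_eq_mul]
        refine add_le_add hhalf ?_
        refine (mul_le_mul_of_nonneg_right hcard (by positivity)).trans ?_
        rw [mul_assoc]
        exact mul_le_mul_of_nonneg_left hpow (by positivity)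
    _ ≤ 2 * ((n : ℝ) + 1) * (ρ + ε / 2) ^ n := by
        have h0 : (0 : ℝ) ≤ (ρ + ε / 2) ^ n := pow_nonneg (by linarith) n
        nlinarith [mul_nonneg (Nat.cast_nonneg (α := ℝ) n) h0]
    _ ≤ _ := hgrow

/-- An integer primitive kernel vector. -/
theorem exists_primitive_kernel (A : Matrix ι ι ℤ) (h : A.det = 0) :
    ∃ z : ι → ℤ, A.mulVec z = 0 ∧ Finset.univ.gcd z = 1 := by
  obtain ⟨v, hv, hAv⟩ := Matrix.exists_mulVec_eq_zero_iff.2 h
  obtain ⟨i, hi⟩ := Function.ne_iff.1 hv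
  obtain ⟨z, hz, hg⟩ := Finset.extract_gcd v ⟨i, Finset.mem_univ i⟩
  have hg0 : Finset.univ.gcd v ≠ 0 := fun h0 => hi (Finset.gcd_eq_zero_iff.1 h0 i (mem_univ i))
  refine ⟨z, ?_, hg⟩
  have hvz : v = (Finset.univ.gcd v) • z := funext fun l => by simpa using hz l (mem_univ l)
  rw [hvz, Matrix.mulVec_smul] at hAv
  exact (smul_eq_zero.1 hAv).resolve_left hg0

/-- The column event at one pivot. -/
def GoodColumn (C : ℝ) (B : Matrix ι ι ℤ) (x : ι → Bool) : Prop :=
  B.det ≠ 0 ∧ (qForm B (signVec x) (signVec x)).den = 1 ∧ Budget C B (signVec x) ∧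
    ∑ i, ((qVec B (signVec x) i : ℚ) : ℝ) ^ 2 ≤ C * Fintype.card ι

theorem budget_mono {C C' : ℝ} (h : C ≤ C') {B : Matrix ι ι ℤ} {x : ι → ℤ} (hb : Budget C B x) :
    Budget C' B x := by
  refine ⟨hb.1.trans ?_, hb.2.trans (mul_le_mul_of_nonneg_right h (Nat.cast_nonneg _))⟩
  exact div_le_div_of_nonneg_right (mul_le_mul_of_nonneg_right h (Nat.cast_nonneg _))
    (Real.log_natCast_nonneg _)

/-- Few good columns outside three negligible events. -/
theorem few_good_columns (ε C : ℝ) (hε : 0 < ε) (hC : 0 < C) :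
    ∃ (δ : ℝ) (N : ℕ), 0 < δ ∧ ∀ (κ : Type) [Fintype κ] [DecidableEq κ] (B : Matrix κ κ ℤ),
      N ≤ Fintype.card κ → IsSign B → B.det ≠ 0 → FewSmallClasses B → ¬ SmallSpace δ B →
        ¬ Cheap δ B → (Nat.card {x : κ → Bool // GoodColumn C B x} : ℝ) ≤
          (2 : ℝ) ^ (2 * ε * Fintype.card κ + ((hypPrimes ε B).card : ℝ)) := by
  obtain ⟨C', N₁, hC', hcode⟩ := exists_code ε C hε hC
  obtain ⟨δ, N₂, hδ, hpts⟩ := points_le ε (max C C') hε (lt_max_of_lt_left hC)
  refine ⟨δ, max N₁ N₂, hδ, fun κ _ _ B hn hB hd hF hS hCh => ?_⟩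
  obtain ⟨S, hScard, hSW, hSmem⟩ := hcode κ B (le_of_max_le_left hn) hB hd hF
  have hw : ∀ L ∈ S, LatW B (max C C' * Fintype.card κ) L := fun L hL r Z hZ hne =>
    le_trans (Real.exp_le_exp.2 (neg_le_neg (mul_le_mul_of_nonneg_right (le_max_right _ _)
      (Nat.cast_nonneg _)))) (hSW L hL r Z hZ hne)
  have hsub : (univ.filter fun x : κ → Bool => GoodColumn C B x) ⊆ S.biUnion fun L =>
      univ.filter fun x : κ → Bool => signVec x ∈ L ∧
        ∑ i, ((qVec B (signVec x) i : ℚ) : ℝ) ^ 2 ≤ max C C' * Fintype.card κ := by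
    intro x hx
    obtain ⟨-, hden, hb, hnorm⟩ := (mem_filter.1 hx).2
    obtain ⟨L, hL, hxL⟩ := hSmem x hden hb
    exact mem_biUnion.2 ⟨L, hL, mem_filter.2 ⟨mem_univ _, hxL, hnorm.trans
      (mul_le_mul_of_nonneg_right (le_max_left _ _) (Nat.cast_nonneg _))⟩⟩
  rw [Nat.card_eq_fintype_card, Fintype.card_subtype]
  refine (Nat.cast_le.2 ((card_le_card hsub).trans card_biUnion_le)).trans ?_
  push_cast
  refine (Finset.sum_le_sum (g := fun _ => (2 : ℝ) ^ (ε * Fintype.card κ)) fun L hL => ?_).trans ?_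
  · have := hpts κ B (le_of_max_le_right hn) hB hd hS hCh L (hw L hL)
    rwa [Nat.card_eq_fintype_card, Fintype.card_subtype] at this
  · rw [Finset.sum_const, nsmul_eq_mul]
    refine (mul_le_mul_of_nonneg_right hScard (by positivity)).trans (le_of_eq ?_)
    rw [← Real.rpow_add (by norm_num)]
    ring_nf

/-- A corank-one matrix has many good columns, off two negligible events. -/
theorem many_good_columns (ε : ℝ) (hε : 0 < ε) :
    ∃ (θ C : ℝ) (N : ℕ), 0 < θ ∧ 0 < C ∧ ∀ n : ℕ, N ≤ n →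
      qOne n ≤ 2 * (2 : ℝ) ^ (-(1 - ε) * n) +
        (∑ j : Fin n, Pr fun ω : Sym2 (Fin n) → Bool =>
          GoodColumn C (symM ℤ (restrictSigns Subtype.val ω : Sym2 {i // i ≠ j} → Bool))
            (fun i => ω s(i.1, j))) / (θ * n) := by
  obtain ⟨θ, δ, hθ, hδ, N₁, hpiv⟩ := good_pivots ε hε
  obtain ⟨C₀, N₂, hC₀, hzero⟩ := few_zeros ε hε
  obtain ⟨C', N₃, hbud⟩ := exists_budget C₀ θ hθ
  set C := max C' (2 / δ)
  have hC : 0 < C := lt_max_of_lt_right (by positivity)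
  refine ⟨θ / 2, C, max (max N₁ N₂) (max N₃ 2), by positivity, hC, fun n hn => ?_⟩
  simp only [max_le_iff] at hn
  obtain ⟨⟨hn1, hn2⟩, hn3, hn4⟩ := hn
  set E₁ : (Sym2 (Fin n) → Bool) → Prop := fun ω => ∃ v : Fin n → ℝ, v ≠ 0 ∧
    (symM ℝ ω).mulVec v = 0 ∧ (Nat.card {i // δ * ∑ l, v l ^ 2 ≤ Fintype.card (Fin n) * v i ^ 2} :
      ℝ) < θ * Fintype.card (Fin n)
  set E₂ : (Sym2 (Fin n) → Bool) → Prop := fun ω => ∃ (p s : ℕ) (z : Fin n → ℤ), p.Prime ∧
    ZeroMod p s (Fintype.card (Fin n)) ∧ (∃ i, ¬ (p : ℤ) ∣ z i) ∧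
    (∀ i, ((p ^ s : ℕ) : ℤ) ∣ (symM ℤ ω).mulVec z i) ∧
    C₀ * Fintype.card (Fin n) / Real.log (Fintype.card (Fin n)) <
      (Nat.card {i // ((p ^ s : ℕ) : ℤ) ∣ z i} : ℝ)
  set J : Fin n → (Sym2 (Fin n) → Bool) → Prop := fun j ω =>
    GoodColumn C (symM ℤ (restrictSigns Subtype.val ω : Sym2 {i // i ≠ j} → Bool))
      (fun i => ω s(i.1, j))
  have hθn : (0 : ℝ) < θ / 2 * n := by
    have : (0 : ℝ) < n := by exact_mod_cast (show 0 < n by omega)
    positivity
  have hkey : ∀ ω : Sym2 (Fin n) → Bool, (symM ℚ ω).rank + 1 = n → ¬ E₁ ω → ¬ E₂ ω →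
      θ / 2 * n ≤ ((univ.filter fun j => J j ω).card : ℝ) := by
    intro ω hrk hE₁ hE₂
    have hdet : (symM ℤ ω).det = 0 := by
      by_contra hd
      have hu : IsUnit (symM ℚ ω) := by
        rw [Matrix.isUnit_iff_isUnit_det, isUnit_iff_ne_zero, det_symM_cast]
        exact_mod_cast hd
      rw [Matrix.rank_of_isUnit _ hu, Fintype.card_fin] at hrk
      omega
    obtain ⟨z, hz, hg⟩ := exists_primitive_kernel _ hdet
    set G := univ.filter fun i => δ * ∑ l, (z l : ℝ) ^ 2 ≤ (n : ℝ) * (z i : ℝ) ^ 2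
    have hz0 : (fun i => (z i : ℝ)) ≠ 0 := by
      intro h0
      have hzz : ∀ i, z i = 0 := fun i => by simpa using congrFun h0 i
      rw [Finset.gcd_eq_zero_iff.2 fun i _ => hzz i] at hg
      exact zero_ne_one hg
    have hzR : (symM ℝ ω).mulVec (fun i => (z i : ℝ)) = 0 := by
      funext i
      rw [← symM_map (Int.castRingHom ℝ) ω]
      have := (RingHom.map_mulVec (Int.castRingHom ℝ) (symM ℤ ω) z i).symm
      rw [hz, Pi.zero_apply, map_zero] at this
      exact this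
    have hGcard : θ * n ≤ (G.card : ℝ) := by
      by_contra hlt
      refine hE₁ ⟨fun i => (z i : ℝ), hz0, hzR, ?_⟩
      rw [Nat.card_eq_fintype_card, Fintype.card_subtype, Fintype.card_fin]
      exact not_le.1 hlt
    have hGne : ∀ j ∈ G, z j ≠ 0 := by
      intro j hj h0
      have h1 := (mem_filter.1 hj).2
      rw [h0] at h1
      have h2 : (∑ l, (z l : ℝ) ^ 2) = 0 :=
        le_antisymm (by simp at h1; nlinarith [h1]) (sum_nonneg fun l _ => sq_nonneg _)
      refine hz0 (funext fun l => ?_)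
      have := (sum_eq_zero_iff_of_nonneg fun l _ => sq_nonneg _).1 h2 l (mem_univ l)
      simpa using this
    have hzeros : ∀ p s : ℕ, p.Prime → ZeroMod p s (Fintype.card (Fin n)) →
        (Nat.card {i // ((p ^ s : ℕ) : ℤ) ∣ z i} : ℝ) ≤
          C₀ * Fintype.card (Fin n) / Real.log (Fintype.card (Fin n)) := by
      intro p s hp hzm
      by_contra hlt
      refine hE₂ ⟨p, s, z, hp, hzm, ?_, fun i => by rw [hz]; exact dvd_zero _, not_le.1 hlt⟩
      by_contra hall
      simp only [not_exists, not_not] at hall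
      have h1 : (p : ℤ) ∣ Finset.univ.gcd z := Finset.dvd_gcd fun i _ => hall i
      rw [hg] at h1
      exact hp.ne_one (by exact_mod_cast Int.eq_one_of_dvd_one (by positivity) h1)
    have hQ : ((symM ℤ ω).map (Int.cast : ℤ → ℚ)) = symM ℚ ω := symM_map (Int.castRingHom ℚ) ω
    obtain ⟨G', hG'sub, hG'card, hG'⟩ := hbud (Fin n) (symM ℤ ω) z G (by simpa using hn3)
      (isSign_symM ω) (by rw [hQ, Fintype.card_fin]; exact hrk) hz hg (by simpa using hGcard)
      hGne hzeros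
    have hJ : G' ⊆ univ.filter fun j => J j ω := by
      intro j hj
      refine mem_filter.2 ⟨mem_univ _, ?_⟩
      have hzj : z j ≠ 0 := hGne j (hG'sub hj)
      have hjG := (mem_filter.1 (hG'sub hj)).2
      obtain ⟨hBd, hform, hvec⟩ := singular_column (symM ℤ ω) (isSign_symM ω).1
        (by rw [hQ, Fintype.card_fin]; exact hrk) z hz j hzj
      have hB : symM ℤ (restrictSigns Subtype.val ω : Sym2 {i // i ≠ j} → Bool) =
          (symM ℤ ω).submatrix Subtype.val Subtype.val := symM_restrict ℤ _ ω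
      have hx : signVec (fun i : {i // i ≠ j} => ω s(i.1, j)) =
          fun i : {i // i ≠ j} => symM ℤ ω i.1 j := rfl
      refine ⟨by rw [hB]; exact hBd, ?_, ?_, ?_⟩
      · rw [hB, hx, hform]; exact Rat.den_intCast _
      · rw [hB, hx]; exact budget_mono (le_max_left _ _) (hG' j hj)
      · rw [hB, hx]
        simp only [hvec]
        have hj2 : (0 : ℝ) < (z j : ℝ) ^ 2 :=
          lt_of_le_of_ne (sq_nonneg _) fun h => hzj (by simpa using h.symm)
        have hm : (Fintype.card {i // i ≠ j} : ℝ) = (n : ℝ) - 1 := by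
          simp only [ne_eq, Fintype.card_subtype_compl, Fintype.card_fin,
            Fintype.card_subtype_eq]
          rw [Nat.cast_sub (by omega)]
          norm_num
        have hn4' : (2 : ℝ) ≤ n := by exact_mod_cast hn4
        push_cast
        simp only [div_pow, neg_sq, ← Finset.sum_div]
        rw [div_le_iff₀ hj2]
        calc ∑ i : {i // i ≠ j}, (z i.1 : ℝ) ^ 2 ≤ ∑ l, (z l : ℝ) ^ 2 := by
              rw [← Finset.sum_subtype (univ.filter fun l => l ≠ j) (fun x => by simp)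
                fun l => (z l : ℝ) ^ 2]
              exact sum_le_sum_of_subset_of_nonneg (filter_subset _ _) fun l _ _ => sq_nonneg _
          _ ≤ (n : ℝ) * (z j : ℝ) ^ 2 / δ := by rw [le_div_iff₀ hδ]; linarith
          _ ≤ 2 / δ * ((n : ℝ) - 1) * (z j : ℝ) ^ 2 := by
              rw [div_mul_eq_mul_div, div_mul_eq_mul_div, div_le_div_iff_of_pos_right hδ]
              exact mul_le_mul_of_nonneg_right (by linarith) hj2.le
          _ ≤ C * (Fintype.card {i // i ≠ j} : ℝ) * (z j : ℝ) ^ 2 := by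
              rw [hm]
              exact mul_le_mul_of_nonneg_right
                (mul_le_mul_of_nonneg_right (le_max_right _ _) (by linarith)) hj2.le
    calc θ / 2 * n ≤ (G.card : ℝ) / 2 := by linarith
      _ ≤ (G'.card : ℝ) := hG'card
      _ ≤ _ := by exact_mod_cast card_le_card hJ
  have hmarkov : Pr (fun ω => θ / 2 * n ≤ ((univ.filter fun j => J j ω).card : ℝ)) ≤
      (∑ j, Pr (J j)) / (θ / 2 * n) := by
    rw [le_div_iff₀ hθn]
    simp only [Pr_eq_Ex, Ex]
    rw [div_mul_eq_mul_div, ← Finset.sum_div, Finset.sum_comm, Finset.sum_mul]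
    gcongr with ω
    rw [Finset.sum_boole]
    split_ifs with h <;> simp [h]
  calc qOne n ≤ Pr (fun ω => E₁ ω ∨ E₂ ω ∨
        θ / 2 * n ≤ ((univ.filter fun j => J j ω).card : ℝ)) := by
        refine Pr_mono fun ω hω => ?_
        by_cases h1 : E₁ ω
        · exact Or.inl h1
        by_cases h2 : E₂ ω
        · exact Or.inr (Or.inl h2)
        exact Or.inr (Or.inr (hkey ω hω h1 h2))
    _ ≤ Pr E₁ + (Pr E₂ + Pr (fun ω => θ / 2 * n ≤ ((univ.filter fun j => J j ω).card : ℝ))) :=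
        (Pr_or _ _).trans (add_le_add le_rfl (Pr_or _ _))
    _ ≤ _ := by
        have a := hpiv (Fin n) (by simpa using hn1)
        have b := hzero (Fin n) (by simpa using hn2)
        simp only [Fintype.card_fin] at a b
        simp only [E₁, E₂, Fintype.card_fin]
        linarith [hmarkov]

/-- One good column at a fixed pivot. -/
theorem good_column_le (ε C : ℝ) (hε : 0 < ε) (hC : 0 < C) :
    ∃ N : ℕ, ∀ (n : ℕ), N ≤ n → ∀ j : Fin n,
      Pr (fun ω : Sym2 (Fin n) → Bool =>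
          GoodColumn C (symM ℤ (restrictSigns Subtype.val ω : Sym2 {i // i ≠ j} → Bool))
            (fun i => ω s(i.1, j))) ≤
        ((2 : ℝ) ^ (3 * ε * n) +
          (2 : ℝ) ^ ((1 / 4 + 3 * ε) * n) * n * qSing (n - 2) + 3) * (2 / (2 : ℝ) ^ n) := by
  obtain ⟨ε', N₁, hε', hε'le, hmom⟩ := hyp_moment ε hε
  obtain ⟨δ, N₂, hδ, hfew⟩ := few_good_columns ε' C hε' hC
  obtain ⟨N₃, hcheap⟩ := cheap_rare δ hδ
  obtain ⟨N₄, hsmall⟩ := small_space_rare δ hδ
  obtain ⟨N₅, hclass⟩ := few_small_classes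
  refine ⟨max (max (max N₁ N₂) (max N₃ N₄)) N₅ + 2, fun n hn j => ?_⟩
  set κ := {i : Fin n // i ≠ j}
  have hm : Fintype.card κ = n - 1 := by
    simp [κ, Fintype.card_subtype_compl, Fintype.card_subtype_eq]
  set m := Fintype.card κ
  let cnt : (Sym2 κ → Bool) → ℝ := fun ω' =>
    (Nat.card {x : κ → Bool // GoodColumn C (symM ℤ ω') x} : ℝ)
  have hstep : Pr (fun ω : Sym2 (Fin n) → Bool =>
      GoodColumn C (symM ℤ (restrictSigns Subtype.val ω : Sym2 κ → Bool))
        (fun i => ω s(i.1, j))) = Ex (fun ω' => cnt ω') * (2 / (2 : ℝ) ^ n) := by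
    rw [Pr_eq_Ex]
    refine (Ex_split j fun ω' x _ => if GoodColumn C (symM ℤ ω') x then 1 else 0).trans ?_
    rw [Ex, Ex, div_mul_eq_mul_div, Finset.sum_mul]
    congr 1
    refine Finset.sum_congr rfl fun ω' _ => ?_
    simp only [cnt, Nat.card_eq_fintype_card, Fintype.card_subtype, Fintype.card_fin,
      ← two_mul, ← Finset.mul_sum, Finset.sum_boole]
    ring
  rw [hstep]
  refine mul_le_mul_of_nonneg_right ?_ (by positivity)
  let Bad : (Sym2 κ → Bool) → Prop := fun ω' => ((symM ℤ ω').det ≠ 0 ∧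
      ¬ FewSmallClasses (symM ℤ ω')) ∨ SmallSpace δ (symM ℤ ω') ∨
      ((symM ℤ ω').det ≠ 0 ∧ Cheap δ (symM ℤ ω'))
  have hpoint : ∀ ω', cnt ω' ≤ (2 : ℝ) ^ (2 * ε' * m) *
      (if (symM ℤ ω').det = 0 then 0 else (2 : ℝ) ^ ((hypPrimes ε' (symM ℤ ω')).card : ℝ)) +
      (2 : ℝ) ^ (m : ℝ) * (if Bad ω' then 1 else 0) := by
    intro ω'
    by_cases hd : (symM ℤ ω').det = 0
    · have : cnt ω' = 0 := by
        simp only [cnt, Nat.card_eq_fintype_card, Fintype.card_subtype]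
        simp [GoodColumn, hd]
      rw [this]
      positivity
    rw [if_neg hd, ← Real.rpow_add (by norm_num)]
    by_cases hb : Bad ω'
    · rw [if_pos hb, mul_one]
      refine le_add_of_nonneg_of_le (by positivity) ?_
      rw [Real.rpow_natCast]
      simp only [cnt, Nat.card_eq_fintype_card]
      exact_mod_cast (Fintype.card_subtype_le _).trans (le_of_eq (by simp [m]))
    · rw [if_neg hb, mul_zero, add_zero]
      simp only [Bad, not_or, not_and, not_not] at hb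
      exact hfew κ (symM ℤ ω') (by omega) (isSign_symM ω') hd (hb.1 hd) hb.2.1 (hb.2.2 hd)
  refine (Ex_mono hpoint).trans ?_
  have hlin : ∀ (a b : ℝ) (f g : (Sym2 κ → Bool) → ℝ),
      Ex (fun ω => a * f ω + b * g ω) = a * Ex f + b * Ex g := by
    intro a b f g
    simp only [Ex, Finset.sum_add_distrib, ← Finset.mul_sum]
    ring
  rw [hlin, show (Ex fun ω => if Bad ω then (1 : ℝ) else 0) = Pr Bad by
    rw [Pr_eq_Ex]; congr 1; funext ω; split_ifs <;> rfl]
  have hbad : (2 : ℝ) ^ (m : ℝ) * Pr Bad ≤ 3 := by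
    have h3 : Pr Bad ≤ 3 * (2 : ℝ) ^ (-2 * (m : ℝ)) := by
      refine (Pr_or _ _).trans ((add_le_add le_rfl (Pr_or _ _)).trans ?_)
      have := hclass κ (by omega)
      have := hsmall κ (by omega)
      have := hcheap κ (by omega)
      linarith
    refine (mul_le_mul_of_nonneg_left h3 (by positivity)).trans ?_
    rw [mul_left_comm, ← Real.rpow_add (by norm_num)]
    have : (2 : ℝ) ^ ((m : ℝ) + -2 * m) ≤ 1 :=
      Real.rpow_le_one_of_one_le_of_nonpos (by norm_num) (by linarith [Nat.cast_nonneg (α := ℝ) m])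
    linarith
  refine add_le_add ?_ hbad
  refine (mul_le_mul_of_nonneg_left (hmom κ (by omega)) (by positivity)).trans ?_
  have hsum : ∑ i : κ, Pr (fun ω : Sym2 {l // l ≠ i} → Bool => (symM ℤ ω).det = 0) =
      m * qSing (n - 2) := by
    have : ∀ i : κ, Pr (fun ω : Sym2 {l // l ≠ i} → Bool => (symM ℤ ω).det = 0) =
        qSing (n - 2) := by
      intro i
      rw [Pr_det_eq_qSing]
      congr 1
      simp only [ne_eq, Fintype.card_subtype_compl, Fintype.card_subtype_eq]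
      omega
    simp [this, m]
  have hmn : (m : ℝ) ≤ n := by exact_mod_cast (show m ≤ n by omega)
  have hm0 : (0 : ℝ) ≤ m := Nat.cast_nonneg m
  rw [hsum, mul_add, ← mul_assoc, ← mul_assoc, ← Real.rpow_add (by norm_num),
    ← Real.rpow_add (by norm_num)]
  refine add_le_add ?_
    (mul_le_mul_of_nonneg_right (mul_le_mul ?_ hmn hm0 (by positivity)) (qSing_nonneg _))
  · exact Real.rpow_le_rpow_of_exponent_le (by norm_num) (by nlinarith)
  · exact Real.rpow_le_rpow_of_exponent_le (by norm_num) (by nlinarith)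

/-- The corank-one bound in terms of smaller orders. -/
theorem qOne_le (ε : ℝ) (hε : 0 < ε) :
    ∃ K : ℝ, ∀ᶠ n : ℕ in atTop, qOne n ≤ K * (2 : ℝ) ^ (3 * ε * n) *
      ((1 / 2) ^ n +
        ((n : ℝ) + 1) * (2 : ℝ) ^ (-(3 / 4 : ℝ) * n) * qSing (n - 2)) := by
  obtain ⟨θ, C, N, hθ, hC, hmany⟩ := many_good_columns ε hε
  obtain ⟨N', hone⟩ := good_column_le ε C hε hC
  refine ⟨2 + 8 / θ, eventually_atTop.2 ⟨max (max N N') 1, fun n hn => ?_⟩⟩
  simp only [max_le_iff] at hn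
  refine (hmany n hn.1.1).trans ?_
  set T := ((2 : ℝ) ^ (3 * ε * n) +
          (2 : ℝ) ^ ((1 / 4 + 3 * ε) * n) * n * qSing (n - 2) + 3) * (2 / (2 : ℝ) ^ n) with hT
  have hn0 : (0 : ℝ) < n := by exact_mod_cast hn.2
  have hsum : (∑ j : Fin n, Pr fun ω : Sym2 (Fin n) → Bool =>
      GoodColumn C (symM ℤ (restrictSigns Subtype.val ω : Sym2 {i // i ≠ j} → Bool))
        (fun i => ω s(i.1, j))) / (θ * n) ≤ T / θ := by
    rw [div_le_div_iff₀ (by positivity) hθ]
    refine (mul_le_mul_of_nonneg_right (Finset.sum_le_sum fun j _ => hone n hn.1.2 j) hθ.le).trans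
      (le_of_eq ?_)
    rw [Finset.sum_const, card_univ, Fintype.card_fin, nsmul_eq_mul]
    ring
  refine (add_le_add le_rfl hsum).trans ?_
  have he1 : (2 : ℝ) ^ (-(1 - ε) * n) = (2 : ℝ) ^ (ε * n) * (1 / 2) ^ n := by
    rw [show -(1 - ε) * (n : ℝ) = ε * n + -(n : ℝ) by ring, Real.rpow_add (by norm_num),
      Real.rpow_neg (by norm_num), Real.rpow_natCast, one_div, inv_pow]
  have he2 : (2 : ℝ) ^ ((1 / 4 + 3 * ε) * n) * (2 / (2 : ℝ) ^ n) =
      2 * ((2 : ℝ) ^ (3 * ε * n) * (2 : ℝ) ^ (-(3 / 4 : ℝ) * n)) := by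
    rw [← Real.rpow_add (by norm_num), mul_div_assoc', mul_comm _ (2 : ℝ), mul_div_assoc,
      ← Real.rpow_natCast 2 n, ← Real.rpow_sub (by norm_num)]
    ring_nf
  set F := (2 : ℝ) ^ (3 * ε * n)
  set H := ((1 : ℝ) / 2) ^ n
  set Q := (2 : ℝ) ^ (-(3 / 4 : ℝ) * n)
  have hF : (2 : ℝ) ^ (ε * n) ≤ F := Real.rpow_le_rpow_of_exponent_le (by norm_num) (by nlinarith)
  have hF1 : 1 ≤ F := Real.one_le_rpow (by norm_num) (by positivity)
  have hF0 : 0 ≤ F := le_trans zero_le_one hF1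
  have hH : 0 ≤ H := by positivity
  have hQ : 0 ≤ Q := by positivity
  have hq := qSing_nonneg (n - 2)
  have hT' : T = F * (2 * H) + 2 * (F * Q) * n * qSing (n - 2) + 6 * H := by
    rw [hT, add_mul, add_mul,
      show (2 : ℝ) ^ ((1 / 4 + 3 * ε) * n) * n * qSing (n - 2) * (2 / (2 : ℝ) ^ n) =
        (2 : ℝ) ^ ((1 / 4 + 3 * ε) * n) * (2 / (2 : ℝ) ^ n) * n * qSing (n - 2) by ring, he2]
    simp only [H, div_pow, one_pow]
    ring
  have hbound : T ≤ 8 * (F * (H + ((n : ℝ) + 1) * Q * qSing (n - 2))) := by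
    rw [hT']
    have h1 : H ≤ F * H := le_mul_of_one_le_left hH hF1
    nlinarith [mul_nonneg hF0 hH,
      mul_nonneg (mul_nonneg (mul_nonneg hF0 hQ) hq) hn0.le,
      mul_nonneg (mul_nonneg hF0 hQ) hq]
  rw [he1, add_mul, add_mul]
  refine add_le_add ?_ ?_
  · rw [mul_assoc]
    refine mul_le_mul_of_nonneg_left ?_ (by norm_num)
    refine (mul_le_mul_of_nonneg_right hF hH).trans (mul_le_mul_of_nonneg_left ?_ hF0)
    have : 0 ≤ ((n : ℝ) + 1) * Q * qSing (n - 2) := by positivity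
    linarith
  · rw [mul_assoc, div_mul_eq_mul_div]
    exact div_le_div_of_nonneg_right hbound hθ.le

/-- The first bound: rate `2 ^ (-3/4)`. -/
theorem qSing_le_threeQuarters :
    ∀ ε > 0, ∀ᶠ n : ℕ in atTop, qSing n ≤ ((2 : ℝ) ^ (-(3 / 4 : ℝ)) + ε) ^ n := by
  set ρ := (2 : ℝ) ^ (-(3 / 4 : ℝ)) with hρ
  have hρ0 : 0 < ρ := by positivity
  have hhalf : (1 : ℝ) / 2 ≤ ρ := by
    rw [hρ, one_div, ← Real.rpow_neg_one 2]
    exact Real.rpow_le_rpow_of_exponent_le (by norm_num) (by norm_num)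
  refine qSing_of_qOne hhalf fun ε hε => ?_
  obtain ⟨η, hη, hlt⟩ : ∃ η : ℝ, 0 < η ∧ ρ * (2 : ℝ) ^ (3 * η) < ρ + ε := by
    have hc : ContinuousAt (fun η : ℝ => ρ * (2 : ℝ) ^ (3 * η)) 0 :=
      continuousAt_const.mul (((Real.continuous_const_rpow (by norm_num)).continuousAt).comp
        (continuous_const.mul continuous_id).continuousAt)
    have h0 : ρ * (2 : ℝ) ^ (3 * (0 : ℝ)) < ρ + ε := by simp; linarith
    obtain ⟨e, he, hb⟩ := Metric.eventually_nhds_iff.1 (hc.eventually_lt_const h0)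
    exact ⟨e / 2, by linarith, hb (by rw [Real.dist_eq, sub_zero, abs_of_pos] <;> linarith)⟩
  obtain ⟨K, hK⟩ := qOne_le η hη
  filter_upwards [hK, eventually_mul_pow_le (by positivity) hlt (2 * |K|)] with n hn hg
  refine hn.trans (le_trans ?_ hg)
  rw [mul_pow, Real.rpow_mul_natCast (by norm_num)]
  set F := ((2 : ℝ) ^ (3 * η)) ^ n
  have hF : 0 ≤ F := by positivity
  have hQ : (2 : ℝ) ^ (-(3 / 4 : ℝ) * n) = ρ ^ n := by rw [Real.rpow_mul_natCast (by norm_num)]
  rw [hQ]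
  have h1 : ((1 : ℝ) / 2) ^ n ≤ ρ ^ n := pow_le_pow_left₀ (by norm_num) hhalf n
  have h3 : ((n : ℝ) + 1) * ρ ^ n * qSing (n - 2) ≤ ((n : ℝ) + 1) * ρ ^ n :=
    mul_le_of_le_one_right (by positivity) (qSing_le_one _)
  have hp : 0 ≤ ρ ^ n := by positivity
  have hn1 : (1 : ℝ) ≤ n + 1 := by linarith [Nat.cast_nonneg (α := ℝ) n]
  have hsum : (1 / 2 : ℝ) ^ n + ((n : ℝ) + 1) * ρ ^ n * qSing (n - 2) ≤
      2 * (((n : ℝ) + 1) * ρ ^ n) := by
    have := le_mul_of_one_le_left hp hn1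
    linarith
  have hpos : 0 ≤ (1 / 2 : ℝ) ^ n +
      ((n : ℝ) + 1) * ρ ^ n * qSing (n - 2) := by
    have := qSing_nonneg (n - 2); positivity
  calc K * F * _ ≤ |K| * F * _ :=
        mul_le_mul_of_nonneg_right (mul_le_mul_of_nonneg_right (le_abs_self K) hF) hpos
    _ ≤ |K| * F * (2 * (((n : ℝ) + 1) * ρ ^ n)) :=
        mul_le_mul_of_nonneg_left hsum (by positivity)
    _ = _ := by ring

/-- The main bound. -/
theorem qSing_le (ε : ℝ) (hε : 0 < ε) :
    ∀ᶠ n : ℕ in atTop, qSing n ≤ (1 / 2 + ε) ^ n := by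
  set σ := (1 / 2 : ℝ) with hσ
  refine qSing_of_qOne (le_refl σ) (fun ε hε => ?_) ε hε
  obtain ⟨η, hη, hlt⟩ : ∃ η : ℝ, 0 < η ∧ σ * (2 : ℝ) ^ (3 * η) < σ + ε := by
    have hc : ContinuousAt (fun η : ℝ => σ * (2 : ℝ) ^ (3 * η)) 0 :=
      continuousAt_const.mul (((Real.continuous_const_rpow (by norm_num)).continuousAt).comp
        (continuous_const.mul continuous_id).continuousAt)
    have h0 : σ * (2 : ℝ) ^ (3 * (0 : ℝ)) < σ + ε := by simp; linarith
    obtain ⟨e, he, hb⟩ := Metric.eventually_nhds_iff.1 (hc.eventually_lt_const h0)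
    exact ⟨e / 2, by linarith, hb (by rw [Real.dist_eq, sub_zero, abs_of_pos] <;> linarith)⟩
  obtain ⟨K, hK⟩ := qOne_le η hη
  set ρ := (2 : ℝ) ^ (-(3 / 4 : ℝ))
  have hρ0 : 0 < ρ := by positivity
  have hprod : ρ * (ρ + (σ - ρ * ρ) / (2 * ρ)) < σ := by
    have hρ2 : ρ * ρ < σ := by
      rw [hσ, ← Real.rpow_add (by norm_num), one_div, ← Real.rpow_neg_one 2]
      exact Real.rpow_lt_rpow_of_exponent_lt (by norm_num) (by norm_num)
    rw [mul_add, show ρ * ((σ - ρ * ρ) / (2 * ρ)) = (σ - ρ * ρ) / 2 by field_simp]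
    clear_value ρ σ
    linarith
  set ρ' := ρ + (σ - ρ * ρ) / (2 * ρ)
  have hρρ : ρ < ρ' := by
    have : ρ * ρ < σ := by
      rw [hσ, ← Real.rpow_add (by norm_num), one_div, ← Real.rpow_neg_one 2]
      exact Real.rpow_lt_rpow_of_exponent_lt (by norm_num) (by norm_num)
    exact lt_add_of_pos_right _ (div_pos (by linarith) (by positivity))
  obtain ⟨N, hN⟩ := eventually_atTop.1 (qSing_le_threeQuarters (ρ' - ρ) (by linarith))
  filter_upwards [hK, eventually_mul_pow_le (by positivity) hlt ((1 + 1 / ρ' ^ 2) * |K|),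
    eventually_ge_atTop (N + 2)] with n hn hg hnN
  refine hn.trans (le_trans ?_ hg)
  rw [mul_pow, Real.rpow_mul_natCast (by norm_num)]
  set F := ((2 : ℝ) ^ (3 * η)) ^ n
  have hF : 0 ≤ F := by positivity
  have hQ : (2 : ℝ) ^ (-(3 / 4 : ℝ) * n) = ρ ^ n := by rw [Real.rpow_mul_natCast (by norm_num)]
  rw [hQ]
  have hρ'0 : 0 < ρ' := by linarith
  have hq : qSing (n - 2) ≤ ρ' ^ n / ρ' ^ 2 := by
    have := hN (n - 2) (by omega)
    rw [add_sub_cancel] at this
    rwa [le_div_iff₀ (by positivity), ← le_div_iff₀ (by positivity),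
      show ρ' ^ n / ρ' ^ 2 = ρ' ^ (n - 2) by
        rw [div_eq_iff (by positivity), ← pow_add]; congr 1; omega]
  have h3 : ((n : ℝ) + 1) * ρ ^ n * qSing (n - 2) ≤ ((n : ℝ) + 1) * σ ^ n * (1 / ρ' ^ 2) := by
    refine (mul_le_mul_of_nonneg_left hq (by positivity)).trans ?_
    rw [mul_assoc, mul_assoc, ← mul_div_assoc, ← mul_pow, mul_one_div]
    gcongr
  have hp : 0 ≤ σ ^ n := by positivity
  have hsum : σ ^ n + ((n : ℝ) + 1) * ρ ^ n * qSing (n - 2) ≤
      (1 + 1 / ρ' ^ 2) * (((n : ℝ) + 1) * σ ^ n) := by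
    have := le_mul_of_one_le_left hp
      (show (1 : ℝ) ≤ n + 1 by linarith [Nat.cast_nonneg (α := ℝ) n])
    linarith
  have hpos : 0 ≤ σ ^ n + ((n : ℝ) + 1) * ρ ^ n * qSing (n - 2) := by
    have := qSing_nonneg (n - 2); positivity
  calc K * F * _ ≤ |K| * F * _ :=
        mul_le_mul_of_nonneg_right (mul_le_mul_of_nonneg_right (le_abs_self K) hF) hpos
    _ ≤ |K| * F * ((1 + 1 / ρ' ^ 2) * (((n : ℝ) + 1) * σ ^ n)) :=
        mul_le_mul_of_nonneg_left hsum (by positivity)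
    _ = _ := by ring

end Vale.Agent.P160R
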