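import Vale.Agent.P160R.Basic
import Vale.Agent.P160R.Norm.Rows

/-!
# Operator norm and the pivots of a kernel vector
-/

namespace Vale.Agent.P160R

open Finset Matrix Vale.Agent.P160R.Norm
open scoped Classical

/-- A kernel vector with few large coordinates rounds to a sparse integer vector near the kernel. -/
theorem kernel_round {ι : Type} [Fintype ι] [DecidableEq ι] (M : Matrix ι ι ℝ)
    (hM : ∀ x : ι → ℝ, ∑ i, (M *ᵥ x) i ^ 2 ≤ 1024 * (Fintype.card ι : ℝ) * ∑ i, x i ^ 2)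
    {θ δ : ℝ} (hθ : 0 < θ) (hδ : 0 < δ) (hδ' : δ ≤ 1 / 3) {v : ι → ℝ} (hv : v ≠ 0) (hker : M *ᵥ v = 0)
    (hfew : ((univ.filter fun i => δ * ∑ l, v l ^ 2 ≤ Fintype.card ι * v i ^ 2).card : ℝ) <
      θ * Fintype.card ι) :
    ∃ k ∈ grid ι ⌊2 * θ / Real.sqrt δ * (Fintype.card ι : ℝ)⌋₊,
      0 < ∑ j, (k j : ℝ) ^ 2 ∧
        ∑ i, (M *ᵥ fun j => (k j : ℝ)) i ^ 2 ≤
          10240 * δ * (Fintype.card ι : ℝ) * ∑ j, (k j : ℝ) ^ 2 := by
  set n : ℝ := ((Fintype.card ι : ℕ) : ℝ)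
  set V := ∑ l, v l ^ 2
  set T := univ.filter fun i => δ * V ≤ n * v i ^ 2
  obtain ⟨i₀, hi₀⟩ := Function.ne_iff.1 hv
  have hn : (0 : ℝ) < n := Nat.cast_pos.2 (Fintype.card_pos_iff.2 ⟨i₀⟩)
  have hV : 0 < V := lt_of_lt_of_le (by simpa using sq_pos_of_ne_zero hi₀)
    (single_le_sum (f := fun i => v i ^ 2) (fun i _ => sq_nonneg _) (mem_univ i₀))
  set u : ι → ℝ := fun i => if i ∈ T then v i else 0
  set R := Real.sqrt (θ * n) / (Real.sqrt δ * Real.sqrt V) with hR
  have hθn : 0 < θ * n := mul_pos hθ hn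
  have hRp : 0 < R := by positivity
  have hR2 : R ^ 2 * (δ * V) = θ * n := by
    rw [hR, div_pow, mul_pow, Real.sq_sqrt hθn.le, Real.sq_sqrt hδ.le, Real.sq_sqrt hV.le]
    field_simp
  set k : ι → ℤ := fun i => round (R * u i)
  set kr : ι → ℝ := fun j => (k j : ℝ) with hkr
  have hk0 : ∀ i, i ∉ T → kr i = 0 := fun i hi => by simp [hkr, k, u, hi]
  -- the two errors
  have hd1 : ∑ i, (v i - u i) ^ 2 ≤ δ * V := by
    refine (sum_le_card_nsmul univ _ (δ * V / n) fun i _ => ?_).trans (le_of_eq ?_)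
    · by_cases hi : i ∈ T
      · simp [u, hi]; positivity
      · simp only [u, if_neg hi, sub_zero]
        rw [le_div_iff₀ hn]
        simp only [T, mem_filter, mem_univ, true_and, not_le] at hi
        linarith
    · rw [card_univ, nsmul_eq_mul]; field_simp; rfl
  have hd2 : ∑ i, (kr i - R * u i) ^ 2 ≤ R ^ 2 * (δ * V) / 4 := by
    calc ∑ i, (kr i - R * u i) ^ 2 ≤ ∑ i, if i ∈ T then (1 / 4 : ℝ) else 0 :=
          sum_le_sum fun i _ => by
            split_ifs with hi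
            · have := abs_sub_round (R * u i)
              rw [← sq_abs, abs_sub_comm]
              nlinarith [abs_nonneg (R * u i - kr i)]
            · simp [hk0 i hi, u, hi]
      _ = (T.card : ℝ) * (1 / 4) := by rw [sum_ite_mem, univ_inter, sum_const, nsmul_eq_mul]
      _ ≤ _ := by rw [hR2]; linarith [hfew.le]
  -- the rounded vector is long
  have huV : V - δ * V ≤ ∑ i, u i ^ 2 := by
    have : V = ∑ i, u i ^ 2 + ∑ i, (v i - u i) ^ 2 := by
      rw [← sum_add_distrib]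
      exact sum_congr rfl fun i _ => by by_cases hi : i ∈ T <;> simp [u, hi]
    linarith
  have hlong : R ^ 2 * V / 4 ≤ ∑ i, kr i ^ 2 := by
    have h1 : R ^ 2 * ∑ i, u i ^ 2 ≤ 2 * ∑ i, kr i ^ 2 + 2 * ∑ i, (kr i - R * u i) ^ 2 := by
      simp only [mul_sum, ← sum_add_distrib]
      exact sum_le_sum fun i _ => by nlinarith [sq_nonneg (2 * kr i - R * u i)]
    nlinarith [mul_le_mul_of_nonneg_left huV (sq_nonneg R),
      mul_le_mul_of_nonneg_left hδ' (mul_nonneg (sq_nonneg R) hV.le)]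
  refine ⟨k, mem_grid_of_le ?_, lt_of_lt_of_le (by positivity) hlong, ?_⟩
  · calc ∑ i, |(k i : ℝ)| ≤ ∑ i, 2 * |R * u i| := sum_le_sum fun i _ => abs_round_le _
      _ = 2 * R * ∑ i ∈ T, |v i| := by
          rw [mul_sum, ← sum_filter_add_sum_filter_not univ (· ∈ T), filter_univ_mem,
            sum_eq_zero (s := univ.filter fun i => ¬ i ∈ T) fun i hi => by simp [u, (mem_filter.1 hi).2],
            add_zero]
          exact sum_congr rfl fun i hi => by simp [u, hi, abs_mul, abs_of_pos hRp]; ring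
      _ ≤ 2 * R * (Real.sqrt (θ * n) * Real.sqrt V) := by
          refine mul_le_mul_of_nonneg_left ?_ (by positivity)
          rw [← Real.sqrt_mul hθn.le]
          refine Real.le_sqrt_of_sq_le (sq_sum_le_card_mul_sum_sq.trans ?_)
          simp only [sq_abs]
          exact mul_le_mul hfew.le (sum_le_sum_of_subset_of_nonneg (subset_univ T) fun i _ _ => sq_nonneg _)
            (sum_nonneg fun _ _ => sq_nonneg _) hθn.le
      _ = 2 * θ / Real.sqrt δ * n := by
          have := Real.sq_sqrt hθn.le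
          rw [hR]; field_simp
          linarith
  have hsplit : ∀ i, (M *ᵥ kr) i ^ 2 ≤
      2 * R ^ 2 * (M *ᵥ (u - v)) i ^ 2 + 2 * (M *ᵥ (kr - R • u)) i ^ 2 := fun i => by
    have : kr = R • (u - v) + R • v + (kr - R • u) := by rw [smul_sub]; abel
    conv_lhs => rw [this, mulVec_add, mulVec_add, mulVec_smul, mulVec_smul, hker, smul_zero, add_zero]
    simp only [Pi.add_apply, Pi.smul_apply, smul_eq_mul]
    nlinarith [sq_nonneg (R * (M *ᵥ (u - v)) i - (M *ᵥ (kr - R • u)) i)]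
  have e1 : ∑ i, (u - v) i ^ 2 ≤ δ * V := by
    refine le_trans (le_of_eq ?_) hd1
    exact sum_congr rfl fun i _ => by simp only [Pi.sub_apply]; ring
  have a1 := (hM (u - v)).trans (mul_le_mul_of_nonneg_left e1 (by positivity))
  have a2 := (hM (kr - R • u)).trans (mul_le_mul_of_nonneg_left hd2 (by positivity))
  calc ∑ i, (M *ᵥ kr) i ^ 2
      ≤ 2 * R ^ 2 * ∑ i, (M *ᵥ (u - v)) i ^ 2 + 2 * ∑ i, (M *ᵥ (kr - R • u)) i ^ 2 :=
        (sum_le_sum fun i _ => hsplit i).trans_eq (by simp only [sum_add_distrib, mul_sum])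
    _ ≤ 2 * R ^ 2 * (1024 * n * (δ * V)) + 2 * (1024 * n * (R ^ 2 * (δ * V) / 4)) := by gcongr
    _ = 10240 * δ * n * (R ^ 2 * V / 4) := by ring
    _ ≤ _ := mul_le_mul_of_nonneg_left hlong (by positivity)

/-- Integer vectors of one-norm at most `a n / (j+1)` number at most `exp (2 a n)`. -/
theorem grid_count {ι : Type} [Fintype ι] [DecidableEq ι] {a : ℝ} {j L : ℕ}
    (hj : (1 / 2 : ℝ) ^ j ≤ a / 4) (hL : (L : ℝ) ≤ a / (j + 1 : ℝ) * Fintype.card ι) :
    ((grid ι L).card : ℝ) ≤ Real.exp ((Fintype.card ι : ℝ) * (2 * a)) := by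
  set n : ℝ := ((Fintype.card ι : ℕ) : ℝ)
  have hn : 0 ≤ n := Nat.cast_nonneg _
  rw [div_mul_eq_mul_div, le_div_iff₀ (by positivity)] at hL
  rcases Nat.eq_zero_or_pos j with rfl | hj0
  · rw [Nat.cast_zero, zero_add, mul_one] at hL
    have h := grid_card_le (ι := ι) (1 / 2) (by norm_num) le_rfl L
    refine le_of_mul_le_mul_right (h.trans ?_) (by positivity : (0 : ℝ) < (1 / 2) ^ L)
    rw [← Real.exp_log (show (0 : ℝ) < (1 / 2) ^ L by positivity), ← Real.exp_add,
      ← Real.exp_log (show (0 : ℝ) < (1 + 4 * (1 / 2)) by norm_num), ← Real.exp_nat_mul, Real.exp_le_exp,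
      Real.log_pow, one_div, Real.log_inv]
    rw [pow_zero] at hj
    have h3 := Real.log_le_sub_one_of_pos (show (0 : ℝ) < 1 + 4 * 2⁻¹ by norm_num)
    nlinarith [Real.log_two_lt_d9, Real.log_pos one_lt_two]
  have hx2 : (1 / 2 : ℝ) ^ j ≤ 1 / 2 := pow_le_of_le_one (by norm_num) (by norm_num) hj0.ne'
  have h := grid_card_le (ι := ι) ((1 / 2 : ℝ) ^ j) (by positivity) hx2 L
  have h5 : (1 + 4 * (1 / 2 : ℝ) ^ j) ^ Fintype.card ι ≤ Real.exp (n * a) := by
    rw [Real.exp_nat_mul]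
    exact pow_le_pow_left₀ (by positivity) (by linarith [Real.add_one_le_exp a]) _
  have h6 : Real.exp (-(n * a)) ≤ ((1 / 2 : ℝ) ^ j) ^ L := by
    rw [← Real.exp_log (show (0 : ℝ) < ((1 / 2 : ℝ) ^ j) ^ L by positivity), Real.exp_le_exp,
      Real.log_pow, Real.log_pow, one_div, Real.log_inv]
    have hLl : (L : ℝ) * (j : ℝ) ≤ n * a := by nlinarith [Nat.cast_nonneg (α := ℝ) L]
    nlinarith [mul_nonneg (Nat.cast_nonneg (α := ℝ) L) (Nat.cast_nonneg (α := ℝ) j),
      Real.log_two_lt_d9]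
  have h7 := (mul_le_mul_of_nonneg_left h6 (Nat.cast_nonneg (grid ι L).card)).trans (h.trans h5)
  rw [Real.exp_neg, mul_inv_le_iff₀ (Real.exp_pos _), ← Real.exp_add] at h7
  exact h7.trans_eq (by ring_nf)

/-- With probability at least `1 - 2^{-(1-ε)n}` every kernel vector has linearly many large
coordinates. -/
theorem good_pivots (ε : ℝ) (hε : 0 < ε) :
    ∃ θ δ : ℝ, 0 < θ ∧ 0 < δ ∧ ∃ N : ℕ, ∀ (ι : Type) [Fintype ι] [DecidableEq ι],
      N ≤ Fintype.card ι →
        Pr (fun ω : Sym2 ι → Bool => ∃ v : ι → ℝ, v ≠ 0 ∧ (symM ℝ ω).mulVec v = 0 ∧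
          (Nat.card {i // δ * ∑ l, v l ^ 2 ≤ Fintype.card ι * v i ^ 2} : ℝ) <
            θ * Fintype.card ι) ≤ (2 : ℝ) ^ (-(1 - ε) * Fintype.card ι) := by
  have hl2 := Real.log_pos one_lt_two
  have hl2' := Real.log_two_lt_d9
  set a := min ε 1 * Real.log 2 / 8 with ha
  have ha0 : 0 < a := by positivity
  have ha1 : a ≤ Real.log 2 / 8 := by
    rw [ha]; nlinarith [min_le_right ε 1, hl2]
  have ha8 : 8 * a ≤ ε * Real.log 2 := by
    rw [ha]; nlinarith [min_le_left ε 1, hl2]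
  obtain ⟨N, hN⟩ := exists_pow_lt_of_lt_one ha0 (show (5 / 6 : ℝ) < 1 by norm_num)
  have hNpos : 0 < N := Nat.pos_of_ne_zero fun h => by rw [h, pow_zero] at hN; linarith
  obtain ⟨j, hj⟩ := exists_pow_lt_of_lt_one (show 0 < a / 4 by positivity) (show (1 / 2 : ℝ) < 1 by norm_num)
  set w := a / 2 with hw
  have hlw : 0 < -Real.log w := neg_pos.2 (Real.log_neg (by positivity) (by linarith))
  set g := a / (-Real.log w) with hg
  set lam := a / (j + 1 : ℝ) with hlam
  set δ := min (1 / 3) (g / (51200 * N)) with hδ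
  have hgpos : 0 < g := by positivity
  have hN' : (0 : ℝ) < N := Nat.cast_pos.2 hNpos
  have hδ0 : 0 < δ := lt_min (by norm_num) (by positivity)
  set θ := lam * Real.sqrt δ / 2 with hθ
  refine ⟨θ, δ, by positivity, hδ0, ⌈1 / a⌉₊ + 1, fun ι _ _ hι => ?_⟩
  set n : ℝ := ((Fintype.card ι : ℕ) : ℝ)
  have hn1 : 1 ≤ Fintype.card ι := le_trans (Nat.le_add_left 1 _) hι
  have hna : 1 / a ≤ n := (Nat.le_ceil _).trans (Nat.cast_le.2 (le_trans (Nat.le_add_right _ 1) hι))
  set L := ⌊lam * n⌋₊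
  set G := (grid ι L).filter fun k => 0 < ∑ i, (k i : ℝ) ^ 2
  refine (Pr_mono (R := fun ω => (¬ ∀ x : ι → ℝ, ∑ i, (symM ℝ ω *ᵥ x) i ^ 2 ≤
      1024 * n * ∑ i, x i ^ 2) ∨ ∃ k ∈ G, ∑ i, (symM ℝ ω *ᵥ fun l => (k l : ℝ)) i ^ 2 ≤
      10240 * δ * n * ∑ l, (k l : ℝ) ^ 2) ?_).trans ?_
  · rintro ω ⟨v, hv, hker, hfew⟩
    refine (em (∀ x : ι → ℝ, ∑ i, (symM ℝ ω *ᵥ x) i ^ 2 ≤ 1024 * n * ∑ i, x i ^ 2)).symm.imp id
      fun hM => ?_
    rw [Nat.card_eq_fintype_card, Fintype.card_subtype] at hfew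
    obtain ⟨k, hk, hk2, hk3⟩ := kernel_round (θ := θ) _ hM (by positivity) hδ0 (min_le_left _ _) hv hker
      (by convert hfew using 4)
    refine ⟨k, mem_filter.2 ⟨?_, hk2⟩, hk3⟩
    rwa [show 2 * θ / Real.sqrt δ = lam by rw [hθ]; field_simp] at hk
  refine (Pr_or _ _).trans ((add_le_add (opnorm_rare hn1) ((Pr_exists _ _).trans
    (sum_le_card_nsmul _ _ (Real.exp (n * (4 * a - Real.log 2))) fun k hk => ?_))).trans ?_)
  · obtain ⟨hk1, hk2⟩ := mem_filter.1 hk
    have hD : 5 * (N : ℝ) * (10240 * δ * n) ≤ g * n := by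
      have := (le_div_iff₀ (by positivity)).1 (min_le_right (1 / 3) (g / (51200 * (N : ℝ))))
      rw [← hδ] at this
      nlinarith [mul_le_mul_of_nonneg_right this (Nat.cast_nonneg (α := ℝ) (Fintype.card ι))]
    refine (near_kernel_rare (fun l => (k l : ℝ)) hk2 hNpos (w := w) (by positivity)
      (by linarith) hD).trans ?_
    set Z := univ.filter fun i => (k i : ℝ) = 0
    have hsupp : n - L ≤ (Z.card : ℝ) := by
      have h1 : (univ.filter fun i => ¬ (k i : ℝ) = 0).card ≤ ∑ i, (k i).natAbs := by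
        rw [card_filter]
        refine sum_le_sum fun i _ => ?_
        split_ifs with h
        · simp
        · have : k i ≠ 0 := by exact_mod_cast h
          omega
      have h2 : Z.card + (univ.filter fun i => ¬ (k i : ℝ) = 0).card = Fintype.card ι := by
        rw [← card_univ (α := ι)]
        convert card_filter_add_card_filter_not (s := (univ : Finset ι)) fun i => (k i : ℝ) = 0
      have h3 := h1.trans (mem_grid.1 hk1)
      have h4 : (Fintype.card ι : ℝ) ≤ (Z.card : ℝ) + L := by exact_mod_cast (show _ ≤ Z.card + L by omega)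
      linarith
    have hp : w + (1 + (5 / 6 : ℝ) ^ N) / 2 ≤ Real.exp (2 * a - Real.log 2) := by
      rw [Real.exp_sub, Real.exp_log two_pos, le_div_iff₀ two_pos]
      nlinarith [Real.add_one_le_exp (2 * a)]
    refine (mul_le_mul_of_nonneg_left (pow_le_pow_left₀ (by positivity) hp _) (Real.exp_pos _).le).trans ?_
    rw [← Real.exp_nat_mul, ← Real.exp_add, Real.exp_le_exp]
    have e : -(Real.log w * (g * n)) = a * n := by
      have h0 : Real.log w ≠ 0 := fun h => by rw [h] at hlw; simp at hlw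
      rw [hg]; field_simp
    have hL : (L : ℝ) ≤ a * n := by
      refine (Nat.floor_le (by positivity)).trans (mul_le_mul_of_nonneg_right ?_ (Nat.cast_nonneg _))
      rw [hlam]; exact div_le_self ha0.le (by simp)
    rw [e]
    nlinarith [mul_le_mul_of_nonneg_right hsupp (show 0 ≤ Real.log 2 - 2 * a by linarith),
      mul_nonneg ha0.le (Nat.cast_nonneg (α := ℝ) L)]
  have hG : (G.card : ℝ) ≤ Real.exp (n * (2 * a)) := (Nat.cast_le.2 (card_filter_le _ _)).trans
    (grid_count hj.le (Nat.floor_le (by positivity)))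
  rw [Real.rpow_def_of_pos two_pos, nsmul_eq_mul]
  refine (add_le_add (Real.exp_le_exp.2 (show _ ≤ n * (6 * a - Real.log 2) by nlinarith))
    ((mul_le_mul_of_nonneg_right hG (Real.exp_pos _).le).trans_eq
      (show _ = Real.exp (n * (6 * a - Real.log 2)) by rw [← Real.exp_add]; ring_nf))).trans ?_
  rw [← two_mul]
  refine (mul_le_mul_of_nonneg_right (show (2 : ℝ) ≤ Real.exp (2 * a * n) from ?_) (Real.exp_pos _).le).trans ?_
  · rw [div_le_iff₀ ha0] at hna
    have : 2 * a * n = 2 * (n * a) := by ring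
    linarith [Real.add_one_le_exp (2 * a * n)]
  · rw [← Real.exp_add, Real.exp_le_exp]
    nlinarith [mul_le_mul_of_nonneg_left ha8 (Nat.cast_nonneg (α := ℝ) (Fintype.card ι))]

end Vale.Agent.P160R
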