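import Vale.Agent.P160.Limit
import Vale.Agent.P160R.Main

/-!
# The exponential rate of the singularity probability is `1 / 2`
-/

namespace Vale.Agent.P160R

open Filter
open scoped Topology

/-- The limit of the `n`-th root of the singularity probability. -/
theorem tendsto_qSing_root :
    Tendsto (fun n : ℕ => qSing n ^ ((n : ℝ)⁻¹)) atTop (𝓝 (1 / 2)) := by
  open Vale.Agent.P160 in
  refine tendsto_root ?_ qSing_le
  filter_upwards [Vale.Agent.P160.sparse_bounds] with n hn
  exact hn.1.trans (Vale.Agent.P160.pr_mono fun ω => Vale.Agent.P160.sparse_singular)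

end Vale.Agent.P160R
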