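import Vale.Agent.P160R.RM.Main

/-!
# Reverse Minkowski in Gram form
-/

namespace Vale.Agent.P160R

open Matrix RM
open scoped RealInnerProductSpace MatrixOrder

/-- A positive definite matrix is the Gram matrix of a basis. -/
lemma exists_gram_basis {d : ℕ} {G : Matrix (Fin d) (Fin d) ℝ} (hG : G.PosDef) :
    ∃ A : Fin d → Eu d, gram ℝ A = G ∧ LinearIndependent ℝ A := by
  obtain ⟨B, hB⟩ := CStarAlgebra.nonneg_iff_eq_star_mul_self.mp hG.posSemidef.nonneg
  have hA : gram ℝ (fun i => WithLp.toLp 2 fun k => B k i : Fin d → Eu d) = G := by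
    rw [hB]
    ext i j
    simp [gram_apply, mul_apply, star_eq_conjTranspose, PiLp.inner_apply, mul_comm]
  refine ⟨_, hA, linearIndependent_of_posDef_gram (𝕜 := ℝ) ?_⟩
  rw [hA]
  exact hG

/-- Gram matrices of lattice vectors in matrix form. -/
lemma gram_lvec {d r : ℕ} (A : Fin d → Eu d) (Z : Matrix (Fin d) (Fin r) ℤ) :
    gram ℝ (fun c => lvec A fun i => Z i c) =
      (Z.map (Int.cast : ℤ → ℝ))ᵀ * gram ℝ A * Z.map (Int.cast : ℤ → ℝ) :=
  gram_comb A _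

/-- The squared length of a lattice vector. -/
lemma norm_lvec_sq {d : ℕ} (A : Fin d → Eu d) (v : Fin d → ℤ) :
    ‖lvec A v‖ ^ 2 = (fun i => (v i : ℝ)) ⬝ᵥ (gram ℝ A).mulVec (fun i => (v i : ℝ)) := by
  have h := star_dotProduct_gram_mulVec (𝕜 := ℝ) A (fun i => (v i : ℝ)) (fun i => (v i : ℝ))
  rw [star_trivial] at h
  rw [h, real_inner_self_eq_norm_sq]
  rfl

lemma linearIndependent_rat {d r : ℕ} (Z : Fin r → Fin d → ℤ) (hZ : LinearIndependent ℤ Z) :
    LinearIndependent ℚ (fun c i => (Z c i : ℚ)) := by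
  have h := (linearIndependent_algebraMap_comp_iff (R := ℤ) (S := ℚ) (v := Z)).2 hZ
  simpa only [algebraMap_int_eq, Int.coe_castRingHom, Function.comp_def] using h

/-- A matrix with large sublattice determinants comes from a lattice with large determinants. -/
lemma big_of_gram {d : ℕ} {A : Fin d → Eu d} {G : Matrix (Fin d) (Fin d) ℝ} (hAG : gram ℝ A = G)
    (h : ∀ (r : ℕ) (Z : Matrix (Fin d) (Fin r) ℤ),
      LinearIndependent ℚ (fun c i => (Z i c : ℚ)) →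
        1 ≤ ((Z.map (Int.cast : ℤ → ℝ))ᵀ * G * Z.map (Int.cast : ℤ → ℝ)).det) : Big A := by
  intro r Z hZ
  have := h r (Matrix.of fun i c => Z c i) (linearIndependent_rat Z hZ)
  rwa [← hAG, ← gram_lvec] at this

/-- The exponent in the count. -/
lemma rate_le (d : ℕ) :
    (18 * tRM (2 * Nat.log 2 (d + 2) + 2)) ^ 2 ≤ (18 * 2 ^ 22 * 8 ^ 5) ^ 2 * Real.log (d + 2) ^ 10 := by
  set l := Nat.log 2 (d + 2)
  set L := Real.log ((d : ℝ) + 2)
  have hl : (l : ℝ) * Real.log 2 ≤ L := by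
    rw [← Real.log_pow]
    refine Real.log_le_log (by positivity) ?_
    exact_mod_cast Nat.pow_log_le_self 2 (by omega : d + 2 ≠ 0)
  have hL : Real.log 2 ≤ L := Real.log_le_log two_pos (by linarith [Nat.cast_nonneg (α := ℝ) d])
  have hp : ((2 * l + 2 : ℕ) : ℝ) ≤ 8 * L := by
    push_cast
    nlinarith [Real.log_two_gt_d9, Nat.cast_nonneg (α := ℝ) l]
  have h5 := pow_le_pow_left₀ (Nat.cast_nonneg' _) hp 5
  calc (18 * tRM (2 * l + 2)) ^ 2 ≤ (18 * (2 ^ 22 * (8 * L) ^ 5)) ^ 2 := by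
        refine pow_le_pow_left₀ (by unfold tRM; positivity) ?_ 2
        unfold tRM
        linarith
    _ = _ := by ring

/-- If every sublattice has Gram determinant at least one, short lattice vectors are few. -/
theorem reverse_minkowski :
    ∃ (C : ℝ) (k : ℕ), 0 < C ∧ ∀ (d : ℕ) (G : Matrix (Fin d) (Fin d) ℝ), G.PosDef →
      (∀ (r : ℕ) (Z : Matrix (Fin d) (Fin r) ℤ),
        LinearIndependent ℚ (fun c i => (Z i c : ℚ)) →
          1 ≤ ((Z.map (Int.cast : ℤ → ℝ))ᵀ * G * Z.map (Int.cast : ℤ → ℝ)).det) →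
      ∀ R : ℝ, 0 ≤ R →
        {v : Fin d → ℤ | (fun i => (v i : ℝ)) ⬝ᵥ G.mulVec (fun i => (v i : ℝ)) ≤ R}.Finite ∧
        (Nat.card {v : Fin d → ℤ //
            (fun i => (v i : ℝ)) ⬝ᵥ G.mulVec (fun i => (v i : ℝ)) ≤ R} : ℝ) ≤
          Real.exp (C * Real.log (d + 2) ^ k * (R + 1)) := by
  refine ⟨(18 * 2 ^ 22 * 8 ^ 5) ^ 2, 10, by positivity, fun d G hG h R hR => ?_⟩
  obtain ⟨A, hAG, -⟩ := exists_gram_basis hG
  have hA := big_of_gram hAG h
  set S := {v : Fin d → ℤ | (fun i => (v i : ℝ)) ⬝ᵥ G.mulVec (fun i => (v i : ℝ)) ≤ R}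
  have hS : S ⊆ {v | ‖lvec A v‖ ≤ Real.sqrt R} := fun v hv => by
    refine Real.le_sqrt_of_sq_le ?_
    rw [norm_lvec_sq, hAG]
    exact hv
  have hfin : S.Finite := (hA.finite_ball _).subset hS
  refine ⟨hfin, ?_⟩
  have hc : Nat.card S = hfin.toFinset.card := Nat.card_eq_card_finite_toFinset hfin
  show (Nat.card S : ℝ) ≤ _
  rw [hc]
  refine (count_bound hA hfin.toFinset (R := R) fun z hz => ?_).trans ?_
  · rw [norm_lvec_sq, hAG]
    exact hfin.mem_toFinset.1 hz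
  have h2 := rate_le d
  set K := (18 * tRM (2 * Nat.log 2 (d + 2) + 2)) ^ 2
  set E := (18 * 2 ^ 22 * 8 ^ 5 : ℝ) ^ 2 * Real.log (d + 2) ^ 10
  have hE1 : (1 : ℝ) ≤ E := by
    refine le_trans ?_ h2
    have : (1 : ℝ) ≤ 18 * tRM (2 * Nat.log 2 (d + 2) + 2) := by
      unfold tRM
      have : (1 : ℝ) ≤ ((2 * Nat.log 2 (d + 2) + 2 : ℕ) : ℝ) ^ 5 :=
        one_le_pow₀ (by exact_mod_cast (by omega : 1 ≤ 2 * Nat.log 2 (d + 2) + 2))
      linarith
    exact one_le_pow₀ this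
  calc 3 / 2 * Real.exp (K * R / 2) ≤ Real.exp E * Real.exp (E * R) := by
        refine mul_le_mul ?_ (Real.exp_le_exp.2 ?_) (Real.exp_nonneg _) (Real.exp_nonneg _)
        · linarith [Real.add_one_le_exp E]
        · nlinarith [mul_le_mul_of_nonneg_right h2 hR, sq_nonneg (18 * tRM (2 * Nat.log 2 (d + 2) + 2))]
    _ = _ := by rw [← Real.exp_add]; congr 1; ring

end Vale.Agent.P160R
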